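import Vale.Agent.P144P.Basic

/-!
The kernels of two large diamonds are close.
-/

namespace Vale.Agent.P144P

open Finset Vale.Agent.P144
open Vale.Agent.P144.H170 (Pt bx mem_bx bx_mono)

/-- The smallest bound on the annulus. -/
theorem exists_ptw (F : Fld) {n : ℕ} (hn : 0 < n) :
    ∃ s, Ptw F n s ∧ ∀ s', Ptw F n s' → s ≤ s' := by
  classical
  set S := (bx 0 (65 * n)).filter fun x => x ∉ bx 0 (6 * n) with hS
  have hne : S.Nonempty := by
    refine ⟨((7 * n : ℕ), 0), mem_filter.2 ⟨?_, ?_⟩⟩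
    · rw [bx0]; simp only [abs_zero]; rw [abs_of_nonneg (by positivity)]; push_cast; lia
    · rw [bx0]; simp only [abs_zero]; rw [abs_of_nonneg (by positivity)]; push_cast; lia
  obtain ⟨x, hx, hmax⟩ := exists_max_image S (fun x => (n : ℝ) * F.sq x) hne
  exact ⟨n * F.sq x, fun y h1 h2 => hmax y (mem_filter.2 ⟨h1, h2⟩),
    fun s' h => h x (mem_filter.1 hx).1 (mem_filter.1 hx).2⟩

theorem core (hP : SPw) (hI : SInn) (hG : SGain) : SCore := by
  intro ε hε
  obtain ⟨K, hK, hI⟩ := hI
  set η : ℝ := min (ε / (3000000 * K)) (1 / (3000000 * K)) with hη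
  have hη0 : 0 < η := lt_min (by positivity) (by positivity)
  have hη1 : K * η ≤ ε / 3000000 := by
    have := min_le_left (ε / (3000000 * K)) (1 / (3000000 * K))
    rw [← hη, le_div_iff₀ (by positivity)] at this
    rw [le_div_iff₀ (by positivity)]; linarith
  have hη2 : K * η ≤ 1 / 3000000 := by
    have := min_le_right (ε / (3000000 * K)) (1 / (3000000 * K))
    rw [← hη, le_div_iff₀ (by positivity)] at this
    rw [le_div_iff₀ (by positivity)]; linarith
  obtain ⟨T, hT, hG⟩ := hG η hη0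
  refine ⟨2000 * T ^ 2, by nlinarith, ?_⟩
  intro N N' n R y s hn hN hN' hc h1 h2 hR hnd hev hs
  have hs0 : 0 ≤ s := hs.nonneg (by lia)
  obtain ⟨s', hs', hmin⟩ := exists_ptw (kf N' R y) (n := n) (by lia)
  have hs0' : 0 ≤ s' := hs'.nonneg (by lia)
  have g1 := hG N n R y s hn hN hc h1 h2 hR hev hs
  have g2 := hG N' n R y s' hn hN' hc h1 h2 hR hev hs'
  have hTn : 10 * n ≤ T * n := Nat.mul_le_mul_right n hT
  have hT2 : 10 * (T * n) ≤ T ^ 2 * n := by
    have : 10 * T ≤ T ^ 2 := by nlinarith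
    calc 10 * (T * n) = 10 * T * n := by ring
      _ ≤ T ^ 2 * n := Nat.mul_le_mul_right n this
  have hNN : 20000 * (T * n) ≤ N := by nlinarith
  have hNN' : 20000 * (T * n) ≤ N' := by nlinarith
  set m := T * n with hm
  set Dd := (kf N' R y).sub (kf N R y) with hD
  have hrl : ∀ x ∈ bx 0 (66 * m), Dd.Rl R x := by
    intro x hx
    have := bx_l1 hx
    exact kf_sub_rl R hc (bx_dia h1 (by lia)) (bx_dia h1 (by lia)) (by push_cast at this; lia)
      (by push_cast at this; lia)
  have hpD : Ptw Dd m (2 * η * (s + s')) := by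
    intro x hx hx'
    have a1 := g1 x hx hx'
    have a2 := g2 x hx hx'
    have a3 := mul_le_mul_of_nonneg_left (Fld.sq_sub (kf N' R y) (kf N R y) x)
      (Nat.cast_nonneg (α := ℝ) m)
    linarith
  obtain ⟨i1, i2⟩ := hI Dd m R (2 * η * (s + s')) (by lia) hnd
    (fun f hf => bx_mono (by lia) (hR f hf)) hrl hpD
  -- pointwise bounds of the difference
  have pw : ∀ x ∈ bx 0 (65 * n), ∀ r : ℕ, 0 < r → r ≤ n → (∀ f ∈ R, f ∉ bx x (4 * r + 3)) →
      r * Dd.sq x ≤ 480000 * (K * η) * (s + s') := by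
    intro x hx r hr hrn hf
    have hsub : bx x (4 * r + 2) ⊆ bx 0 (15 * m) := fun z hz => bx_mono (by lia) (bx_trans hx hz)
    have b1 := hP Dd R x r hr (fun z hz => hrl z (bx_mono (by lia) (hsub hz))) hf
    have b2 := i2 x (4 * r + 2) hsub
    have hr' : (1 : ℝ) ≤ r := by exact_mod_cast hr
    have hQ : 0 ≤ K * (2 * η * (s + s')) := by positivity
    have b3 : Dd.sq x ≤ 30000 / (r : ℝ) ^ 2 * (K * (2 * η * (s + s')) * (8 * r)) := by
      refine b1.trans (mul_le_mul_of_nonneg_left (b2.trans ?_) (by positivity))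
      refine mul_le_mul_of_nonneg_left ?_ hQ
      push_cast; linarith
    calc (r : ℝ) * Dd.sq x ≤ r * (30000 / (r : ℝ) ^ 2 * (K * (2 * η * (s + s')) * (8 * r))) :=
          mul_le_mul_of_nonneg_left b3 (by positivity)
      _ = 480000 * (K * η) * (s + s') := by field_simp; ring
  have hann : Ptw (kf N' R y) n (2 * s + 2 * (480000 * (K * η) * (s + s'))) := by
    intro x hx hx'
    have a1 := hs x hx hx'
    have a2 := pw x hx n (by lia) le_rfl (fun f hf hf' => hx' (by
      have := hR f hf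
      rw [mem_bx] at hf' this ⊢
      simp only [Prod.fst_zero, Prod.snd_zero] at this ⊢
      push_cast at hf' ⊢
      lia))
    have a3 := mul_le_mul_of_nonneg_left (Fld.sq_le_sub (kf N' R y) (kf N R y) x)
      (Nat.cast_nonneg (α := ℝ) n)
    linarith
  have h5 : s' ≤ 5 * s := by
    have a1 := hmin _ hann
    have a2 : 480000 * (K * η) * (s + s') ≤ 480000 * (1 / 3000000) * (s + s') := by gcongr
    linarith
  have h6 : 480000 * (K * η) * (s + s') ≤ ε * s := by
    calc 480000 * (K * η) * (s + s') ≤ 480000 * (ε / 3000000) * (6 * s) := by gcongr; linarith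
      _ ≤ ε * s := by nlinarith [mul_nonneg hε.le hs0]
  refine ⟨hs'.mono h5, fun f hf => (i1 f hf).trans (le_trans ?_ h6), fun x hx r hr hrn hf =>
    (pw x (bx_mono (by lia) hx) r hr hrn hf).trans h6⟩
  have : 0 ≤ K * η * (s + s') := by positivity
  nlinarith

end Vale.Agent.P144P
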