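import Vale.Agent.P144P.Defs2

/-!
From the diamonds to the plane.
-/

namespace Vale.Agent.P144P

open Finset Filter Topology MeasureTheory Vale.Agent.P144
open Vale.Agent.P144.H436 (nn fvm)

theorem fix : SFix := by
  intro J hJ E₀ hE a ha p
  obtain ⟨μ, h1, h2⟩ := hE
  have e : E₀ a = fun F => ∫ σ, F σ ∂(μ a) := funext fun F => h2 a F
  obtain ⟨ν, hν, hg⟩ : ∃ ν : ℕ → Measure Config, (∀ N, IsProbabilityMeasure (ν N)) ∧
      ∀ N, gibbs J 0 (fun _ => 0) (Kc / J) none (dia N) = fun F => ∫ σ, F σ ∂(ν N) :=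
    ⟨fun N => fvm (P144.wt (KK (Kc / J) J 0 (dia N)) (fun _ => 0)),
      fun N => H436.isProb_fvm fun s => wt_pos _ _ _, fun N => funext fun F => by
        rw [H436.gibbs_free0]; exact (H436.integral_fvm (fun s => wt_pos _ _ _) F).symm⟩
  have := (h1 a ha).1
  unfold cN
  simp only [hg, e]
  refine P144Z.U1.tendsto_corr (fun A => ?_) a p
  rw [show ∫ σ, ∏ x ∈ A, sp (σ x) ∂(μ a) = H436.cl (Kc / J) J A from
    P144Z.St.plane_cl hJ (h1 a ha) A, Metric.tendsto_atTop]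
  intro ε hε
  obtain ⟨M, hM⟩ := P144Z.St.unif hJ A (half_pos hε)
  refine ⟨2 * M, fun N hN => ?_⟩
  have h3 := hM (dia N) (fun x hx => by
    rw [H436.mem_box] at hx
    rw [AL.mem_dia]
    lia) (fun _ => 0) none
  rw [hg] at h3
  exact lt_of_le_of_lt h3 (half_lt_self hε)

theorem fl_div {R : ℝ} (hR : R ≠ 0) (a : ℝ) (z : ℂ) : fl (a / R) (z / R) = fl a z := by
  unfold fl
  rw [Complex.div_ofReal_re, Complex.div_ofReal_im, div_div_div_cancel_right₀ hR,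
    div_div_div_cancel_right₀ hR]

theorem ev_Dia (z : ℂ) : ∀ᶠ R : ℝ in atTop, z / R ∈ Dia := by
  filter_upwards [eventually_gt_atTop (|z.re| + |z.im|)] with R hR
  have h0 : 0 < R := lt_of_le_of_lt (by positivity) hR
  show |(z / R).re| + |(z / R).im| < 1
  rwa [Complex.div_ofReal_re, Complex.div_ofReal_im, abs_div, abs_div, abs_of_pos h0, ← add_div,
    div_lt_one h0]

theorem ev_good {p : Pts} (hp : Dist p) : ∀ᶠ R : ℝ in atTop, H436.Good0 (shr p R) := by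
  filter_upwards [eventually_all.2 fun i => ev_Dia (p.x i), eventually_all.2 fun k => ev_Dia (p.y k),
    eventually_gt_atTop 0] with R h1 h2 h3
  refine ⟨h1, h2, fun u v h => hp ?_⟩
  have h4 : (R : ℂ) ≠ 0 := by exact_mod_cast h3.ne'
  rcases u with u | u <;> rcases v with v | v <;> exact (div_left_inj' h4).1 h

theorem cN_shr (J : ℝ) (p : Pts) {a R : ℝ} (ha : 0 < a) (hR : 0 < R) :
    cN J a (nn (a / R)) p = ((R ^ (-(1 / 8) : ℝ)) ^ p.n * R⁻¹ ^ p.m) *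
      H436.mixC J (shr p R) univ ∅ (a / R) := by
  have hd : disc Dia (a / R) = dia (nn (a / R)) := H436.disc_Dia (div_pos ha hR)
  have e1 : a ^ (-(1 / 8) : ℝ) = R ^ (-(1 / 8) : ℝ) * (a / R) ^ (-(1 / 8) : ℝ) := by
    rw [← Real.mul_rpow hR.le (div_pos ha hR).le, mul_div_cancel₀ _ hR.ne']
  have e2 : a⁻¹ = R⁻¹ * (a / R)⁻¹ := by field_simp
  unfold H436.mixC
  rw [← H436.E0_const_mul]
  unfold cN corr H436.Xs H436.hat H436.be H436.E0 shr
  simp only [hd, fl_div hR.ne', prod_empty, mul_one]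
  congr 1
  funext σ
  rw [e1, e2]
  simp only [prod_mul_distrib, prod_const, card_univ, Fintype.card_fin]
  ring

theorem sdia : SDia := by
  intro J hJ p hp
  have hT : H436.TipLim J := AL.tipLim hJ AL.kp (H365.merge hJ) H365.ratioM (AL.quotSM hJ AL.kp)
  filter_upwards [ev_good hp, eventually_gt_atTop 0] with R h1 hR
  obtain ⟨r, -, hr⟩ := hT _ h1 univ ∅
  have h2 : Tendsto (fun a : ℝ => a / R) (𝓝[>] 0) (𝓝[>] 0) := by
    refine tendsto_nhdsWithin_iff.2 ⟨?_, ?_⟩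
    · simpa using (tendsto_id.mono_left nhdsWithin_le_nhds : Tendsto id (𝓝[>] (0:ℝ)) _).div_const R
    · filter_upwards [self_mem_nhdsWithin] with a ha
      exact div_pos ha hR
  refine ⟨_, ((hr.comp h2).const_mul ((R ^ (-(1 / 8) : ℝ)) ^ p.n * R⁻¹ ^ p.m)).congr' ?_⟩
  filter_upwards [self_mem_nhdsWithin] with a ha
  exact (cN_shr J p ha hR).symm

theorem lim_of_near {ι : Type*} {l : Filter ι} [l.NeBot] {f : ι → ℝ}
    (h : ∀ ε > (0 : ℝ), ∃ c, ∀ᶠ a in l, |f a - c| ≤ ε) : ∃ c, Tendsto f l (𝓝 c) := by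
  refine cauchy_map_iff_exists_tendsto.1 (Metric.cauchy_iff.2 ⟨inferInstance, fun ε hε => ?_⟩)
  obtain ⟨c, hc⟩ := h (ε / 3) (by positivity)
  refine ⟨{x | |x - c| ≤ ε / 3}, hc, fun x hx y hy => ?_⟩
  have h1 := abs_le.1 (show |x - c| ≤ ε / 3 from hx)
  have h2 := abs_le.1 (show |y - c| ≤ ε / 3 from hy)
  rw [Real.dist_eq, abs_lt]
  constructor <;> linarith [h1.1, h1.2, h2.1, h2.2]

theorem nn_ge {a R : ℝ} (ha : 0 < a) (hR : 0 < R) : R - a ≤ a * nn (a / R) := by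
  have h1 : 1 ≤ ⌈1 / (a / R)⌉₊ := Nat.one_le_iff_ne_zero.2 (Nat.ceil_pos.2 (by positivity)).ne'
  have h2 := mul_le_mul_of_nonneg_left (Nat.le_ceil (1 / (a / R))) ha.le
  rw [show a * (1 / (a / R)) = R by field_simp] at h2
  unfold nn
  rw [Nat.cast_sub h1]
  push_cast
  linarith

theorem all (hT : STwo) : SAll := by
  intro J hJ E₀ hE p hp
  refine lim_of_near fun ε hε => ?_
  obtain ⟨T, hT⟩ := hT J hJ p hp.2.2.2 _ (half_pos hε)
  obtain ⟨R, ⟨c, hc⟩, h1, h2⟩ := ((sdia J hJ p hp.2.2.2).and ((eventually_ge_atTop (T + 1)).and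
    (eventually_gt_atTop 0))).exists
  have h3 : ∀ᶠ a in 𝓝[>] (0 : ℝ), a < 1 := nhdsWithin_le_nhds (gt_mem_nhds one_pos)
  refine ⟨c, ?_⟩
  filter_upwards [hT, h3, self_mem_nhdsWithin, Metric.tendsto_nhds.1 hc _ (half_pos hε)] with
    a k1 k2 k3 k4
  have k5 := nn_ge k3 h2
  have k6 : |corr a (E₀ a) p - cN J a (nn (a / R)) p| ≤ ε / 2 :=
    le_of_tendsto ((fix J hJ E₀ hE a k3 p).sub_const _).abs
      ((eventually_ge_atTop _).mono fun N' hN => k1 _ N' (by linarith) hN)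
  rw [Real.dist_eq] at k4
  linarith [abs_sub_le (corr a (E₀ a) p) (cN J a (nn (a / R)) p) c]

end Vale.Agent.P144P
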