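import Vale.Agent.P144.H135.Cut
import Vale.Agent.P144.H170.Clean

/-!
The discrete Cauchy formula on an annulus: a solution of the relations is bounded, between two
scales, by a decaying inner part and a bounded outer part.
-/

namespace Vale.Agent.P144P

open Finset Vale.Agent.P144
open Vale.Agent.P144.H170 (Pt bx mem_bx bx_mono CR4 cs_sum)
open Vale.Agent.P144.H135 (CT CT_move CT_lip CT_one CT_zero bx_step card_bx)
open Vale.Agent.P144.H436 (ker ker_rep ker_grad ker_neg)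

/-- The four directions. -/
def Dr (d : Pt) : Prop := ∃ e : Pt, (e = (1, 0) ∨ e = (0, 1)) ∧ (d = e ∨ d = -e)

theorem dr_pos {e : Pt} (he : e = (1, 0) ∨ e = (0, 1)) : Dr e := ⟨e, he, Or.inl rfl⟩

theorem dr_neg {e : Pt} (he : e = (1, 0) ∨ e = (0, 1)) : Dr (-e) := ⟨e, he, Or.inr rfl⟩

/-- The bound of the gradient of the potential kernel. -/
noncomputable def kk (y : Pt) : ℝ := 8 * (1 / (1 + |(y.1:ℝ)| + |(y.2:ℝ)|))

theorem kk_nonneg (y : Pt) : 0 ≤ kk y := by unfold kk; positivity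

theorem ker_dr {d : Pt} (hd : Dr d) (y : Pt) : |ker (y + d) - ker y| ≤ kk y := by
  obtain ⟨e, he, rfl | rfl⟩ := hd
  · exact ker_grad y _ he
  · have h := ker_grad (-y) e he
    rw [show -y + e = -(y + -e) by abel, ker_neg, ker_neg] at h
    unfold kk
    simpa using h

theorem Dr.step {d : Pt} (hd : Dr d) {c x : Pt} {m : ℕ} (hx : x ∈ bx c m) :
    x + d ∈ bx c (m + 1) ∧ x - d ∈ bx c (m + 1) := by
  obtain ⟨e, he, rfl | rfl⟩ := hd
  · exact bx_step hx he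
  · rw [sub_neg_eq_add, ← sub_eq_add_neg]
    exact (bx_step hx he).symm

theorem parts {d c : Pt} (hd : Dr d) {R : ℕ} {g : Pt → ℝ} (hg : ∀ x ∉ bx c R, g x = 0) (z : Pt) :
    |∑ w ∈ bx c (R + 1), ker (z - w) * (g (w + d) - g w)| ≤
      ∑ w ∈ bx c (R + 1), kk (z - w) * |g w| := by
  have h := H170.sum_shift (bx c (R + 1)) (fun w => ker (z - w + d) * g w) d
    (fun x hx => by rw [hg x fun h => hx (bx_mono (by lia) h), mul_zero])
    (fun x hx => by
      rw [hg (x + d) fun h => hx (by simpa using (hd.step h).2), mul_zero])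
  have e : ∀ w, z - (w + d) + d = z - w := fun w => by abel
  simp only [e] at h
  have h2 : ∑ w ∈ bx c (R + 1), ker (z - w) * (g (w + d) - g w) =
      ∑ w ∈ bx c (R + 1), (ker (z - w + d) - ker (z - w)) * g w := by
    simp only [mul_sub, sub_mul, sum_sub_distrib, h]
  rw [h2]
  refine (abs_sum_le_sum_abs _ _).trans (sum_le_sum fun w _ => ?_)
  rw [abs_mul]
  exact mul_le_mul_of_nonneg_right (ker_dr hd _) (abs_nonneg _)

/-- Representation of a function whose Laplacian is in divergence form. -/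
theorem div_rep {d₁ d₂ c : Pt} (h₁ : Dr d₁) (h₂ : Dr d₂) {R : ℕ} {u g₁ g₂ : Pt → ℝ}
    (hu : ∀ x ∉ bx c R, u x = 0) (hg₁ : ∀ x ∉ bx c R, g₁ x = 0) (hg₂ : ∀ x ∉ bx c R, g₂ x = 0)
    (hl : ∀ x, H436.lap u x = (g₁ (x + d₁) - g₁ x) + (g₂ (x + d₂) - g₂ x)) (z : Pt) :
    |u z| ≤ ∑ w ∈ bx c (R + 1), kk (z - w) * (|g₁ w| + |g₂ w|) := by
  have hS : ∀ x ∉ bx c (R + 1), H436.lap u x = 0 := by
    intro x hx
    have hx' : x ∉ bx c R := fun h => hx (bx_mono (by lia) h)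
    rw [hl, hg₁ x hx', hg₂ x hx', hg₁ (x + d₁) fun h => hx (by simpa using (h₁.step h).2),
      hg₂ (x + d₂) fun h => hx (by simpa using (h₂.step h).2)]
    ring
  rw [ker_rep hu hS z]
  simp only [hl, mul_add, sum_add_distrib]
  exact (abs_add_le _ _).trans (add_le_add (parts h₁ hg₁ z) (parts h₂ hg₂ z))

/-- The annulus on which the cut-off moves. -/
noncomputable def ann (c : Pt) (n : ℕ) : Finset Pt := bx c (2 * n) \ bx c (n - 1)

theorem mv {c d : Pt} {n : ℕ} (hn : 0 < n) (hd : Dr d) (x : Pt) :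
    |CT c n (x + d) - CT c n x| ≤ 1 / n ∧
      (CT c n (x + d) ≠ CT c n x → x ∈ ann c n ∧ x + d ∈ ann c n) := by
  unfold ann
  simp only [mem_sdiff]
  obtain ⟨e, he, rfl | rfl⟩ := hd
  · exact ⟨CT_lip hn he x, CT_move hn he⟩
  · have h1 := CT_lip (c := c) hn he (x + -e)
    have h2 := CT_move (c := c) hn he (x := x + -e)
    rw [show x + -e + e = x by abel] at h1 h2
    exact ⟨by rwa [abs_sub_comm], fun h => (h2 h.symm).symm⟩

theorem mv_sum {c d : Pt} {n : ℕ} (hn : 0 < n) (hd : Dr d) {κ F : Pt → ℝ} {δ : ℝ} (hδ : 0 ≤ δ)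
    (hκ : ∀ x ∈ ann c n, κ x ≤ δ) (T : Finset Pt) :
    ∑ x ∈ T, κ x * (|CT c n (x + d) - CT c n x| * |F (x + d)|) ≤
      δ / n * ∑ y ∈ ann c n, |F y| := by
  classical
  have hn' : (0:ℝ) < n := by exact_mod_cast hn
  calc _ ≤ ∑ x ∈ T, (if x + d ∈ ann c n then δ / n * |F (x + d)| else 0) := by
        refine sum_le_sum fun x _ => ?_
        by_cases h : CT c n (x + d) = CT c n x
        · rw [h, sub_self, abs_zero, zero_mul, mul_zero]
          split_ifs <;> positivity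
        · obtain ⟨h1, h2⟩ := (mv hn hd x).2 h
          rw [if_pos h2, div_eq_mul_one_div, mul_assoc]
          exact mul_le_mul (hκ x h1) (mul_le_mul_of_nonneg_right (mv hn hd x).1 (abs_nonneg _))
            (by positivity) hδ
    _ = ∑ x ∈ T.filter (fun x => x + d ∈ ann c n), δ / n * |F (x + d)| := (sum_filter _ _).symm
    _ = ∑ y ∈ (T.filter (fun x => x + d ∈ ann c n)).image (· + d), δ / n * |F y| :=
        (sum_image (f := fun y => δ / n * |F y|) fun x _ y _ h => add_right_cancel h).symm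
    _ ≤ ∑ y ∈ ann c n, δ / n * |F y| := by
        refine sum_le_sum_of_subset_of_nonneg (fun y hy => ?_) fun _ _ _ => by positivity
        obtain ⟨x, hx, rfl⟩ := mem_image.1 hy
        exact (mem_filter.1 hx).2
    _ = _ := (mul_sum _ _ _).symm

theorem kk_le {c z w : Pt} {p q : ℕ} {k : ℝ} (hk : 0 < k) (hz : z ∉ bx c p) (hw : w ∈ bx c q)
    (h : k + q ≤ p + 2) : kk (z - w) ≤ 8 / k ∧ kk (w - z) ≤ 8 / k := by
  rw [mem_bx] at hz hw
  have h0 : (p:ℤ) + 1 - q ≤ |z.1 - w.1| ∨ (p:ℤ) + 1 - q ≤ |z.2 - w.2| := by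
    by_contra hc
    push Not at hc
    have h1 := abs_lt.1 hc.1
    have h2 := abs_lt.1 hc.2
    apply hz
    lia
  have h1 : k ≤ 1 + |(z.1:ℝ) - w.1| + |(z.2:ℝ) - w.2| := by
    have a1 := abs_nonneg ((z.1:ℝ) - w.1)
    have a2 := abs_nonneg ((z.2:ℝ) - w.2)
    rcases h0 with h0 | h0
    · have : (p:ℝ) + 1 - q ≤ |(z.1:ℝ) - w.1| := by exact_mod_cast h0
      linarith
    · have : (p:ℝ) + 1 - q ≤ |(z.2:ℝ) - w.2| := by exact_mod_cast h0
      linarith
  unfold kk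
  simp only [Prod.fst_sub, Prod.snd_sub, Int.cast_sub]
  rw [abs_sub_comm (w.1:ℝ), abs_sub_comm (w.2:ℝ), and_self, mul_one_div]
  exact div_le_div_of_nonneg_left (by norm_num) hk h1

/-- The Cauchy formula, `ℓ¹` form. -/
theorem gain1 {A B C E : Pt → ℝ} {c z : Pt} {n m : ℕ} (hn : 0 < n) (hnm : n ≤ m)
    (h : ∀ x ∈ bx c (2 * m), x ∉ bx c (n - 1) → CR4 A B C E x)
    (hz : z ∈ bx c m) (hz' : z ∉ bx c (2 * n - 1)) {δ ε : ℝ} (hδ : 0 ≤ δ) (hε : 0 ≤ ε)
    (h1 : ∀ w ∈ ann c n, kk (z - w) ≤ δ) (h2 : ∀ w ∈ ann c m, kk (z - w) ≤ ε) :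
    |B z| ≤ 2 * (δ / n * ∑ y ∈ ann c n, (|B y| + |C y|) + ε / m * ∑ y ∈ ann c m, (|B y| + |C y|)) ∧
    |C z| ≤ 2 * (δ / n * ∑ y ∈ ann c n, (|B y| + |C y|) +
      ε / m * ∑ y ∈ ann c m, (|B y| + |C y|)) := by
  have hm : 0 < m := by lia
  obtain ⟨χ, hχ⟩ : ∃ χ : Pt → ℝ, ∀ x, χ x = CT c m x - CT c n x := ⟨_, fun _ => rfl⟩
  have e1 : ((1, 0) : Pt) = (1, 0) ∨ ((1, 0) : Pt) = (0, 1) := Or.inl rfl
  have e2 : ((0, 1) : Pt) = (1, 0) ∨ ((0, 1) : Pt) = (0, 1) := Or.inr rfl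
  have hout : ∀ x ∉ bx c (2 * m - 1), χ x = 0 := fun x hx => by
    rw [hχ, CT_zero hm hx, CT_zero hn fun h => hx (bx_mono (by lia) h), sub_self]
  have hin : ∀ x, χ x ≠ 0 → x ∈ bx c (2 * m - 1) ∧ x ∉ bx c n := fun x hx =>
    ⟨by_contra fun h => hx (hout x h), fun h => hx (by
      rw [hχ, CT_one hn h, CT_one hm (bx_mono hnm h), sub_self])⟩
  have hnb : ∀ x, χ x ≠ 0 → ∀ d, Dr d → CR4 A B C E (x - d) := by
    intro x hx d hd
    refine h _ (by simpa [show 2 * m - 1 + 1 = 2 * m by lia] using (hd.step (hin x hx).1).2)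
      fun h' => (hin x hx).2 ?_
    simpa [show n - 1 + 1 = n by lia] using (hd.step h').1
  obtain ⟨f, hf⟩ : ∃ f : Pt → ℝ, ∀ x, f x = χ x * B x - χ (x + -(1, 0)) * B (x + -(1, 0)) -
    χ x * C x + χ (x + -(0, 1)) * C (x + -(0, 1)) := ⟨_, fun _ => rfl⟩
  obtain ⟨g, hg⟩ : ∃ g : Pt → ℝ, ∀ x, g x = χ (x + (0, 1)) * B (x + (0, 1)) - χ x * B x -
    χ x * C x + χ (x + (1, 0)) * C (x + (1, 0)) := ⟨_, fun _ => rfl⟩
  have ho : ∀ x ∉ bx c (2 * m), ∀ d, Dr d → χ (x + d) = 0 := fun x hx d hd =>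
    hout _ fun h' => hx (by simpa [show 2 * m - 1 + 1 = 2 * m by lia] using (hd.step h').2)
  have ho' : ∀ x ∉ bx c (2 * m), χ x = 0 := fun x hx => hout x fun h' => hx (bx_mono (by lia) h')
  have hf0 : ∀ x ∉ bx c (2 * m), f x = 0 := fun x hx => by
    rw [hf, ho' x hx, ho x hx _ (dr_neg e1), ho x hx _ (dr_neg e2)]; ring
  have hg0 : ∀ x ∉ bx c (2 * m), g x = 0 := fun x hx => by
    rw [hg, ho' x hx, ho x hx _ (dr_pos e1), ho x hx _ (dr_pos e2)]; ring
  have hfb : ∀ x, |f x| ≤ |χ (x + -(1, 0)) - χ x| * |B (x + -(1, 0))| +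
      |χ (x + -(0, 1)) - χ x| * |C (x + -(0, 1))| := by
    intro x
    have : f x = -((χ (x + -(1, 0)) - χ x) * B (x + -(1, 0))) +
        (χ (x + -(0, 1)) - χ x) * C (x + -(0, 1)) := by
      by_cases hx : χ x = 0
      · rw [hf, hx]; ring
      · have := CR4.i1 (hnb x hx _ (dr_pos e2)) (hnb x hx _ (dr_pos e1))
        simp only [sub_eq_add_neg x] at this
        rw [hf]; linear_combination χ x * this
    rw [this, ← abs_mul, ← abs_mul]
    exact (abs_add_le _ _).trans (by rw [abs_neg])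
  have hgb : ∀ x, |g x| ≤ |χ (x + (0, 1)) - χ x| * |B (x + (0, 1))| +
      |χ (x + (1, 0)) - χ x| * |C (x + (1, 0))| := by
    intro x
    have : g x = (χ (x + (0, 1)) - χ x) * B (x + (0, 1)) +
        (χ (x + (1, 0)) - χ x) * C (x + (1, 0)) := by
      by_cases hx : χ x = 0
      · rw [hg, hx]; ring
      · have := (h x (bx_mono (by lia) (hin x hx).1)
          fun h' => (hin x hx).2 (bx_mono (by lia) h')).i2
        rw [hg]; linear_combination χ x * this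
    rw [this, ← abs_mul, ← abs_mul]
    exact abs_add_le _ _
  have hone : ∀ (d : Pt), Dr d → ∀ (F : Pt → ℝ) (T : Finset Pt),
      ∑ x ∈ T, kk (z - x) * (|χ (x + d) - χ x| * |F (x + d)|) ≤
        δ / n * ∑ y ∈ ann c n, |F y| + ε / m * ∑ y ∈ ann c m, |F y| := by
    intro d hd F T
    refine le_trans ?_ (add_le_add (mv_sum hn hd (F := F) hδ h1 T) (mv_sum hm hd (F := F) hε h2 T))
    rw [← sum_add_distrib]
    refine sum_le_sum fun x _ => ?_
    rw [← mul_add, ← add_mul]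
    refine mul_le_mul_of_nonneg_left (mul_le_mul_of_nonneg_right ?_ (abs_nonneg _)) (kk_nonneg _)
    rw [hχ, hχ, show CT c m (x + d) - CT c n (x + d) - (CT c m x - CT c n x) =
      -(CT c n (x + d) - CT c n x) + (CT c m (x + d) - CT c m x) by ring]
    exact (abs_add_le _ _).trans (by rw [abs_neg])
  have htot : ∀ T : Finset Pt, ∑ w ∈ T, kk (z - w) * (|f w| + |g w|) ≤
      2 * (δ / n * ∑ y ∈ ann c n, (|B y| + |C y|) + ε / m * ∑ y ∈ ann c m, (|B y| + |C y|)) := by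
    intro T
    have a1 := hone _ (dr_neg e1) B T
    have a2 := hone _ (dr_neg e2) C T
    have a3 := hone _ (dr_pos e2) B T
    have a4 := hone _ (dr_pos e1) C T
    have a5 := add_le_add (add_le_add a1 a2) (add_le_add a3 a4)
    simp only [← sum_add_distrib, ← mul_add (kk _)] at a5
    refine le_trans (sum_le_sum fun w _ =>
      mul_le_mul_of_nonneg_left (add_le_add (hfb w) (hgb w)) (kk_nonneg _)) (a5.trans (le_of_eq ?_))
    simp only [sum_add_distrib]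
    ring
  have hχz : χ z = 1 := by rw [hχ, CT_one hm hz, CT_zero hn hz', sub_zero]
  constructor
  · have := div_rep (u := fun x => χ x * B x) (g₁ := f) (g₂ := fun x => -g x) (dr_pos e1)
      (dr_neg e2) (fun x hx => by rw [ho' x hx, zero_mul]) hf0
      (fun x hx => by rw [hg0 x hx, neg_zero]) (fun x => by
        obtain ⟨i, j⟩ := x
        simp only [hf, hg, H436.lap, Prod.mk_add_mk, Prod.neg_mk, neg_zero, add_zero,
          add_neg_cancel_right, neg_add_cancel_right]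
        ring) z
    simp only [abs_neg, hχz, one_mul] at this
    exact this.trans (htot _)
  · have := div_rep (u := fun x => χ x * C x) (g₁ := fun x => -f x) (g₂ := fun x => -g x)
      (dr_pos e2) (dr_neg e1) (fun x hx => by rw [ho' x hx, zero_mul])
      (fun x hx => by rw [hf0 x hx, neg_zero]) (fun x hx => by rw [hg0 x hx, neg_zero]) (fun x => by
        obtain ⟨i, j⟩ := x
        simp only [hf, hg, H436.lap, Prod.mk_add_mk, Prod.neg_mk, neg_zero, add_zero,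
          add_neg_cancel_right, neg_add_cancel_right]
        ring) z
    simp only [abs_neg, hχz, one_mul] at this
    exact this.trans (htot _)

theorem ann_l1 {B C : Pt → ℝ} {c : Pt} {n : ℕ} (hn : 0 < n) {M : ℝ}
    (h : ∑ y ∈ ann c n, (B y ^ 2 + C y ^ 2) ≤ M * n) :
    ∑ y ∈ ann c n, (|B y| + |C y|) ≤ 8 * n * √(M * n) := by
  have hn' : (1:ℝ) ≤ n := by exact_mod_cast hn
  have hc : ((ann c n).card : ℝ) ≤ 25 * (n:ℝ) ^ 2 := by
    have h1 : ((ann c n).card : ℝ) ≤ (bx c (2 * n)).card := by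
      exact_mod_cast card_le_card sdiff_subset
    rw [card_bx] at h1
    push_cast at h1
    nlinarith
  have h0 : 0 ≤ M * n := le_trans (sum_nonneg fun _ _ => by positivity) h
  refine (cs_sum _ B C hc h).trans ?_
  rw [Real.sqrt_le_iff]
  refine ⟨by positivity, ?_⟩
  rw [mul_pow, Real.sq_sqrt h0]
  nlinarith [mul_nonneg (sq_nonneg (n:ℝ)) h0]

/-- The Cauchy formula, `ℓ²` form: the gain between two scales. -/
theorem gain2 {A B C E : Pt → ℝ} {c z : Pt} {n k l m : ℕ} (hn : 0 < n) (hk : 4 * n ≤ k)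
    (hl : 2 * l ≤ m) (h : ∀ x ∈ bx c (2 * m), x ∉ bx c (n - 1) → CR4 A B C E x)
    (hz : z ∈ bx c l) (hz' : z ∉ bx c (k - 1)) {M₁ M₂ : ℝ}
    (h1 : ∑ y ∈ ann c n, (B y ^ 2 + C y ^ 2) ≤ M₁ * n)
    (h2 : ∑ y ∈ ann c m, (B y ^ 2 + C y ^ 2) ≤ M₂ * m) :
    |B z| ≤ 256 * (√(M₁ * n) / k + √(M₂ * m) / m) ∧
      |C z| ≤ 256 * (√(M₁ * n) / k + √(M₂ * m) / m) := by
  have hkl : k ≤ l := by
    by_contra hc
    exact hz' (bx_mono (by lia) hz)
  have hm : 0 < m := by lia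
  have hn' : (0:ℝ) < n := by exact_mod_cast hn
  have hm' : (0:ℝ) < m := by exact_mod_cast hm
  have hk' : 4 * (n:ℝ) ≤ k := by exact_mod_cast hk
  have hl' : 2 * (l:ℝ) ≤ m := by exact_mod_cast hl
  have hk0 : (0:ℝ) < k := by linarith
  have hg := gain1 hn (by lia) h (bx_mono (by lia) hz) (fun h' => hz' (bx_mono (by lia) h'))
    (δ := 8 / (k / 2)) (ε := 8 / (m / 2)) (by positivity) (by positivity)
    (fun w hw => (kk_le (by positivity) hz' (mem_sdiff.1 hw).1 (by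
      rw [Nat.cast_sub (by lia)]; push_cast; linarith)).1)
    (fun w hw => (kk_le (by positivity) (mem_sdiff.1 hw).2 hz (by
      rw [Nat.cast_sub (by lia)]; push_cast; linarith)).2)
  have b1 := ann_l1 hn h1
  have b2 := ann_l1 hm h2
  have b3 : 2 * (8 / ((k:ℝ) / 2) / n * ∑ y ∈ ann c n, (|B y| + |C y|) +
      8 / ((m:ℝ) / 2) / m * ∑ y ∈ ann c m, (|B y| + |C y|)) ≤
      256 * (√(M₁ * n) / k + √(M₂ * m) / m) := by
    calc _ ≤ 2 * (8 / ((k:ℝ) / 2) / n * (8 * n * √(M₁ * n)) +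
          8 / ((m:ℝ) / 2) / m * (8 * m * √(M₂ * m))) := by gcongr
      _ = _ := by field_simp; ring
  exact ⟨hg.1.trans b3, hg.2.trans b3⟩

/-- The gain for the four components. -/
theorem gain {A B C E : Pt → ℝ} {c z : Pt} {n k l m : ℕ} (hn : 0 < n) (hk : 4 * n ≤ k)
    (hl : 2 * l + 2 ≤ m) (h : ∀ x ∈ bx c (2 * m), x ∉ bx c (n - 1) → CR4 A B C E x)
    (hz : z ∈ bx c l) (hz' : z ∉ bx c k) {M₁ M₂ : ℝ}
    (h1 : ∑ y ∈ ann c n, (B y ^ 2 + C y ^ 2) ≤ M₁ * n)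
    (h2 : ∑ y ∈ ann c m, (B y ^ 2 + C y ^ 2) ≤ M₂ * m) :
    |A z| ≤ 512 * (√(M₁ * n) / k + √(M₂ * m) / m) ∧
      |B z| ≤ 512 * (√(M₁ * n) / k + √(M₂ * m) / m) ∧
      |C z| ≤ 512 * (√(M₁ * n) / k + √(M₂ * m) / m) ∧
      |E z| ≤ 512 * (√(M₁ * n) / k + √(M₂ * m) / m) := by
  have e2 : ((0, 1) : Pt) = (1, 0) ∨ ((0, 1) : Pt) = (0, 1) := Or.inr rfl
  have hk1 : k - 1 + 1 = k := by lia
  have g0 := gain2 (l := l + 1) hn hk (by lia) h (bx_mono (by lia) hz)
    (fun h' => hz' (bx_mono (by lia) h')) h1 h2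
  have o1 : z - (0, 1) ∉ bx c (k - 1) := fun h' => hz' (by
    simpa [hk1] using (bx_step h' e2).1)
  have o2 : z + (0, 1) ∉ bx c (k - 1) := fun h' => hz' (by
    simpa [hk1] using (bx_step h' e2).2)
  have g1 := gain2 (l := l + 1) hn hk (by lia) h (bx_step hz e2).2 o1 h1 h2
  have g2 := gain2 (l := l + 1) hn hk (by lia) h (bx_step hz e2).1 o2 h1 h2
  have r1 := (h _ (bx_mono (by lia) (bx_step hz e2).2)
    fun h' => o1 (bx_mono (by lia) h')).eqA1
  have r2 := (h _ (bx_mono (by lia) hz) fun h' => hz' (bx_mono (by lia) h')).eqE1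
  generalize √(M₁ * n) / k + √(M₂ * m) / m = X at *
  have s1 : (1:ℝ) ≤ √2 := Real.one_le_sqrt.2 (by norm_num)
  have key : ∀ a : ℝ, |a| ≤ |√2 * a| := fun a => by
    rw [abs_mul, abs_of_nonneg (Real.sqrt_nonneg 2)]
    exact le_mul_of_one_le_left (abs_nonneg _) s1
  have hX : 0 ≤ 256 * X := (abs_nonneg _).trans g0.1
  refine ⟨(key _).trans ?_, by linarith [g0.1], by linarith [g0.2], (key _).trans ?_⟩
  · rw [r1]; exact (abs_add_le _ _).trans (by linarith [g1.2, g0.1])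
  · rw [r2]; exact (abs_sub _ _).trans (by linarith [g2.1, g0.2])

end Vale.Agent.P144P
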