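import Vale.Agent.P144P.Basic
import Vale.Agent.P144P.Gain

/-!
The gain at the intermediate scale for an even number of disorders.
-/

namespace Vale.Agent.P144P

open Finset Vale.Agent.P144
open Vale.Agent.P144.H170 (Pt bx D lap CR4 mem_bx bx_mono)

/-- The field in the gauge without cuts outside the box that contains the disorders. -/
noncomputable def Fld.out (F : Fld) (R : Multiset Site) : Fld :=
  ⟨fun x => if 0 ≤ x.2 then (F.gau (fun _ => True) R).A x else (F.gau (fun _ => False) R).A x,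
    fun x => if 0 ≤ x.2 then (F.gau (fun _ => True) R).B x else (F.gau (fun _ => False) R).B x,
    fun x => if 0 ≤ x.2 then (F.gau (fun _ => True) R).C x else (F.gau (fun _ => False) R).C x,
    fun x => if 0 ≤ x.2 then (F.gau (fun _ => True) R).E x else (F.gau (fun _ => False) R).E x⟩

theorem Fld.out_sq (F : Fld) (R : Multiset Site) (x : Pt) : (F.out R).sq x = F.sq x := by
  by_cases h : 0 ≤ x.2
  · rw [← F.gau_sq (fun _ => True) R x]
    simp only [Fld.sq, Fld.out, if_pos h]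
  · rw [← F.gau_sq (fun _ => False) R x]
    simp only [Fld.sq, Fld.out, if_neg h]

theorem gg_false (R : Multiset Site) (i : ℤ) : gg (fun _ => False) R i = 1 := by
  unfold gg
  simp

theorem gg_true {R : Multiset Site} {n : ℕ} (hR : ∀ f ∈ R, f ∈ bx 0 n) (he : Even R.card) {i : ℤ}
    (hi : (n : ℤ) < i ∨ i ≤ -(n : ℤ)) : gg (fun _ => True) R i = 1 := by
  unfold gg
  rcases hi with hi | hi
  · refine Multiset.prod_eq_one fun x hx => ?_
    obtain ⟨f, hf, rfl⟩ := Multiset.mem_map.1 hx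
    have := abs_le.1 (bx0.1 (hR f hf)).1
    rw [if_neg (by lia)]
  · rw [Multiset.map_congr rfl (g := fun _ => (-1 : ℝ)) fun f hf => ?_]
    · rw [Multiset.map_const', Multiset.prod_replicate, he.neg_one_pow]
    · have := abs_le.1 (bx0.1 (hR f hf)).1
      rw [if_pos ⟨trivial, by lia⟩]

theorem out_CR {F : Fld} {R : Multiset Site} {n : ℕ} (hR : ∀ f ∈ R, f ∈ bx 0 n)
    (he : Even R.card) {y : Pt} (hF : F.Rl R y) (hy : y ∉ bx 0 (n + 1)) :
    CR4 (F.out R).A (F.out R).B (F.out R).C (F.out R).E y := by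
  have e1 : (y + (0, 1) : Pt).2 = y.2 + 1 := rfl
  have e2 : (y + (1, 0) : Pt).2 = y.2 := add_zero _
  rw [mem_bx] at hy
  simp only [Prod.fst_zero, Prod.snd_zero] at hy
  push_cast at hy
  have hR' : ∀ f ∈ R, (-(n : ℤ) ≤ f.1 ∧ f.1 ≤ n) ∧ -(n : ℤ) ≤ f.2 ∧ f.2 ≤ n := fun f hf =>
    ⟨abs_le.1 (bx0.1 (hR f hf)).1, abs_le.1 (bx0.1 (hR f hf)).2⟩
  by_cases h : 0 ≤ y.2
  · have := clean (S := fun _ => True) hF fun f hf h1 => by
      have := hR' f hf
      simp only [true_iff]
      lia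
    unfold CR4 at this ⊢
    simp only [Fld.out, e1, e2, if_pos h, if_pos (show 0 ≤ y.2 + 1 by lia)]
    exact this
  have := clean (S := fun _ => False) hF fun f hf h1 => by
    have := hR' f hf
    simp only [false_iff]
    lia
  unfold CR4 at this ⊢
  by_cases h' : 0 ≤ y.2 + 1
  · have g1 : gg (fun _ => True) R y.1 = 1 := gg_true hR he (by lia)
    have g2 : gg (fun _ => True) R (y.1 + 1) = 1 := gg_true hR he (by lia)
    simp only [Fld.out, e1, e2, if_neg h, if_pos h']
    simp only [Fld.gau, gg_false, Prod.fst_add, add_zero, g1, g2] at this ⊢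
    exact this
  · simp only [Fld.out, e1, e2, if_neg h, if_neg h']
    exact this

theorem sgain (hO : SOut) : SGain := by
  obtain ⟨K, hK, hO⟩ := hO
  intro ε hε
  obtain ⟨T, hT⟩ := exists_nat_ge (max 23 (20000000 * K / ε))
  have hT1 : (23 : ℝ) ≤ T := (le_max_left _ _).trans hT
  have hT2 : 20000000 * K ≤ T * ε := (div_le_iff₀ hε).1 ((le_max_right _ _).trans hT)
  have hT3 : 23 ≤ T := by exact_mod_cast hT1
  refine ⟨T, by lia, fun N n R y s hn hN hc h1 h2 hR he hP z hz hz' => ?_⟩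
  have hs : 0 ≤ s := hP.nonneg (by lia)
  obtain ⟨t, ht⟩ : ∃ t, t = T * n := ⟨_, rfl⟩
  obtain ⟨m, hm⟩ : ∃ m, m = T * t := ⟨_, rfl⟩
  have h23 : 23 * n ≤ t := ht ▸ Nat.mul_le_mul_right n hT3
  have h24 : 23 * t ≤ m := hm ▸ Nat.mul_le_mul_right t hT3
  have hN' : 2000 * m ≤ N := by
    rw [hm, ht]
    refine le_trans (le_of_eq ?_) hN
    ring
  rw [← ht] at hz hz' ⊢
  set F := kf N R y with hF
  have hsum : ∀ k : ℕ, 34 * n ≤ k → ∑ x ∈ ann 0 k, ((F.out R).B x ^ 2 + (F.out R).C x ^ 2) ≤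
      3 * K * s * k := by
    intro k hk
    have a1 := hO N n R y s hn (by lia) hc h1 h2 hR hP 0 (2 * k) (ann 0 k) fun x hx => by
      unfold ann at hx
      rw [mem_sdiff] at hx
      exact ⟨hx.1, fun h => hx.2 (bx_mono (by lia) h)⟩
    have a2 : ∑ x ∈ ann 0 k, ((F.out R).B x ^ 2 + (F.out R).C x ^ 2) ≤
        ∑ x ∈ ann 0 k, F.sq x := by
      refine sum_le_sum fun x _ => ?_
      rw [← F.out_sq R x]
      unfold Fld.sq
      nlinarith [sq_nonneg ((F.out R).A x), sq_nonneg ((F.out R).E x)]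
    have a3 : (2 : ℝ) ≤ k := by exact_mod_cast (show 2 ≤ k by lia)
    have a4 : 0 ≤ K * s := by positivity
    push_cast at a1
    nlinarith
  have hg := gain (A := (F.out R).A) (B := (F.out R).B) (C := (F.out R).C) (E := (F.out R).E)
    (c := 0) (z := z) (n := 34 * n) (k := 6 * t) (l := 65 * t) (m := 400 * m) (by lia) (by lia)
    (by lia) (fun x hx hx' => by
      have hx'' : x ∉ bx 0 (n + 1) := fun h => hx' (bx_mono (by lia) h)
      refine out_CR hR he (kf_rl R hc (bx_dia h1 (by lia)) ?_ ?_ ?_) hx''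
      · have := bx_l1 hx
        push_cast at this
        lia
      · rintro rfl
        exact hx'' (bx_mono (by lia) h2)
      · intro h
        rw [h] at h2
        exact hx'' (H135.bx_step' (Or.inr rfl) h2)) hz hz' (hsum _ le_rfl) (hsum _ (by lia))
  set M := 3 * K * s with hM
  have hM0 : 0 ≤ M := by positivity
  have hn0 : (0 : ℝ) < n := by exact_mod_cast (show 0 < n by lia)
  have hT0 : (0 : ℝ) < T := by linarith
  have ht' : (t : ℝ) = T * n := by rw [ht]; push_cast; ring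
  have hm' : (m : ℝ) = T * (T * n) := by rw [hm]; push_cast; rw [ht']
  set u := √(M * ((34 * n : ℕ) : ℝ)) / ((6 * t : ℕ) : ℝ) with hu
  set v := √(M * ((400 * m : ℕ) : ℝ)) / ((400 * m : ℕ) : ℝ) with hv
  have hu2 : t * u ^ 2 ≤ M / T := by
    rw [hu, div_pow, Real.sq_sqrt (by positivity)]
    push_cast
    rw [ht', ← sub_nonneg]
    have : M / T - T * n * (M * (34 * n) / (6 * (T * n)) ^ 2) = M / (18 * T) := by
      field_simp
      ring
    rw [this]
    positivity
  have hv2 : t * v ^ 2 ≤ M / T := by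
    rw [hv, div_pow, Real.sq_sqrt (by positivity)]
    push_cast
    rw [ht', hm', ← sub_nonneg]
    have : M / T - T * n * (M * (400 * (T * (T * n))) / (400 * (T * (T * n))) ^ 2) =
        399 * M / (400 * T) := by
      field_simp
      ring
    rw [this]
    positivity
  have hq : F.sq z ≤ 4 * (512 * (u + v)) ^ 2 := by
    rw [← F.out_sq R z]
    unfold Fld.sq
    have b1 := sq_le_sq' (abs_le.1 hg.1).1 (abs_le.1 hg.1).2
    have b2 := sq_le_sq' (abs_le.1 hg.2.1).1 (abs_le.1 hg.2.1).2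
    have b3 := sq_le_sq' (abs_le.1 hg.2.2.1).1 (abs_le.1 hg.2.2.1).2
    have b4 := sq_le_sq' (abs_le.1 hg.2.2.2).1 (abs_le.1 hg.2.2.2).2
    linarith
  have hq2 : F.sq z ≤ 2097152 * (u ^ 2 + v ^ 2) := by nlinarith [sq_nonneg (u - v)]
  have ht0 : (0 : ℝ) ≤ t := Nat.cast_nonneg t
  have hfin : 4194304 * (M / T) ≤ ε * s := by
    rw [← mul_div_assoc, div_le_iff₀ hT0, hM]
    nlinarith [mul_le_mul_of_nonneg_right hT2 hs, mul_nonneg hK.le hs]
  calc (t : ℝ) * F.sq z ≤ t * (2097152 * (u ^ 2 + v ^ 2)) := mul_le_mul_of_nonneg_left hq2 ht0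
    _ = 2097152 * (t * u ^ 2 + t * v ^ 2) := by ring
    _ ≤ ε * s := by linarith

end Vale.Agent.P144P
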