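import Vale.Agent.P144P.Ker1

/-!
The weighted kernels are bounded and hardly depend on the size of the diamond.
-/

namespace Vale.Agent.P144P

open Finset Filter Topology Vale.Agent.P144
open Vale.Agent.P144.H170 (Pt bx mem_bx bx_mono)
open Vale.Agent.P144.H436 (nn Good0)
open Vale.Agent.P144.AL (Lb)

theorem unif {ι α : Type} [Finite ι] {l : Filter α} (P : ι → α → ℝ → Prop)
    (hm : ∀ i a K K', K ≤ K' → P i a K → P i a K') (h : ∀ i, ∃ K, ∀ᶠ a in l, P i a K) :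
    ∃ K, 0 ≤ K ∧ ∀ᶠ a in l, ∀ i, P i a K := by
  choose K hK using h
  have := Fintype.ofFinite ι
  refine ⟨∑ i, |K i|, sum_nonneg fun _ _ => abs_nonneg _, ?_⟩
  rw [eventually_all]
  intro i
  refine (hK i).mono fun a ha => hm i a _ _ ((le_abs_self _).trans ?_) ha
  exact single_le_sum (f := fun i => |K i|) (fun _ _ => abs_nonneg _) (mem_univ i)

theorem lb_fin (n m : ℕ) : Finite (Lb n m) := by
  refine Finite.of_surjective (α := (Fin n ⊕ Fin m) ⊕ (Fin m ⊕ Fin 4))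
    (Sum.elim (Sum.elim Lb.src Lb.lo) (Sum.elim Lb.hi Lb.tp)) fun x => ?_
  cases x with
  | src i => exact ⟨.inl (.inl i), rfl⟩
  | lo i => exact ⟨.inl (.inr i), rfl⟩
  | hi i => exact ⟨.inr (.inl i), rfl⟩
  | tp i => exact ⟨.inr (.inr i), rfl⟩

theorem ev_le {c : ℝ} (hc : 0 < c) : ∀ᶠ a in 𝓝[>] (0 : ℝ), 0 < a ∧ a ≤ c := by
  filter_upwards [Ioc_mem_nhdsGT hc] with a ha using ha

theorem fl_close {a s t : ℝ} (ha : 0 < a) {m : ℕ} (h1 : ⌊t / a⌋ - m ≤ ⌊s / a⌋)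
    (h2 : ⌊s / a⌋ ≤ ⌊t / a⌋ + m) : |s - t| ≤ a * (m + 1) := by
  have h1' : (⌊t / a⌋ : ℝ) - m ≤ ⌊s / a⌋ := by exact_mod_cast h1
  have h2' : (⌊s / a⌋ : ℝ) ≤ ⌊t / a⌋ + m := by exact_mod_cast h2
  have e : s - t = a * (s / a - t / a) := by field_simp
  rw [e, abs_mul, abs_of_pos ha]
  refine mul_le_mul_of_nonneg_left ?_ ha.le
  rw [abs_le]
  constructor <;>
    linarith [Int.floor_le (s / a), Int.floor_le (t / a), Int.lt_floor_add_one (s / a),
      Int.lt_floor_add_one (t / a)]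

theorem fl_near {a : ℝ} (ha : 0 < a) {z w : ℂ} {m : ℕ} (h : fl a z ∈ bx (fl a w) m) :
    ‖z - w‖ ≤ 2 * (a * (m + 1)) := by
  rw [mem_bx] at h
  have h1 := fl_close ha h.1.1 h.1.2
  have h2 := fl_close ha h.2.1 h.2.2
  have := Complex.norm_le_abs_re_add_abs_im (z - w)
  rw [Complex.sub_re, Complex.sub_im] at this
  linarith

theorem fl_abs {a s L : ℝ} (ha : 0 < a) (hL : a ≤ L / 4) (h : |s| ≤ L / 2) :
    |⌊s / a⌋| + 1 ≤ sc L a := by
  have h1 : L / a ≤ sc L a := Nat.le_ceil _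
  have h2 : |s / a| ≤ L / a / 2 := by
    rw [abs_div, abs_of_pos ha, div_right_comm]
    exact div_le_div_of_nonneg_right h ha.le
  have h3 : 4 ≤ L / a := by rw [le_div_iff₀ ha]; linarith
  rw [abs_le] at h2
  have h4 : ((|⌊s / a⌋| + 1 : ℤ) : ℝ) ≤ ((sc L a : ℕ) : ℤ) := by
    push_cast
    have : |(⌊s / a⌋ : ℝ)| ≤ L / a / 2 + 1 := by
      rw [abs_le]
      constructor <;> linarith [Int.floor_le (s / a), Int.lt_floor_add_one (s / a)]
    linarith
  exact_mod_cast h4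

theorem fl_in {a L : ℝ} (ha : 0 < a) (hL : a ≤ L / 4) {z : ℂ} (h : ‖z‖ ≤ L / 2) (j : Fin 2) :
    fl a z ∈ bx 0 (sc L a) ∧ fl a z + dir j ∈ bx 0 (sc L a) := by
  have h1 := fl_abs ha hL ((Complex.abs_re_le_norm z).trans h)
  have h2 := fl_abs ha hL ((Complex.abs_im_le_norm z).trans h)
  rw [bx0, bx0]
  unfold fl dir
  split_ifs <;> simp only [Prod.mk_add_mk, add_zero] <;>
    refine ⟨⟨by lia, by lia⟩, ?_, ?_⟩ <;> first | lia | exact (abs_add_le _ _).trans (by simpa)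

theorem sc_le {a L : ℝ} (ha : 0 < a) (hL : a ≤ L) : a * sc L a ≤ 2 * L := by
  have h0 : 0 ≤ L / a := div_nonneg (ha.le.trans hL) ha.le
  have h1 : (sc L a : ℝ) < L / a + 1 := Nat.ceil_lt_add_one h0
  have h2 : a * (L / a + 1) = L + a := by field_simp
  nlinarith

theorem nn_ge1 {a : ℝ} (ha : 0 < a) : 1 - a ≤ a * nn a := by
  have h0 : 1 / a ≤ ⌈1 / a⌉₊ := Nat.le_ceil _
  have h1 : 1 ≤ ⌈1 / a⌉₊ := Nat.one_le_ceil_iff.2 (by positivity)
  unfold nn
  rw [Nat.cast_sub h1]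
  rw [div_le_iff₀ ha] at h0
  push_cast
  linarith

theorem le_of_sc {a L : ℝ} (ha : 0 < a) (hL : a ≤ L) {T N : ℕ} (h : 2 * L * T ≤ a * N) :
    T * sc L a ≤ N := by
  have h1 := sc_le ha hL
  have h2 : a * (T * sc L a : ℕ) ≤ a * N := by
    push_cast
    nlinarith [Nat.cast_nonneg (α := ℝ) T]
  exact_mod_cast le_of_mul_le_mul_left h2 ha

/-- The points are small. -/
structure Sm (p : Pts) (L : ℝ) : Prop where
  d : Dist p
  ev : Even p.n
  L0 : 0 < L
  L1 : 1000 * L ≤ 1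
  x : ∀ i, ‖p.x i‖ ≤ L / 2
  y : ∀ l, ‖p.y l‖ ≤ L / 2

theorem Dist.xi {p : Pts} (h : Dist p) : Function.Injective p.x :=
  fun _ _ e => Sum.inl_injective (h (by simpa using e))

theorem Dist.xy {p : Pts} (h : Dist p) (i : Fin p.n) (l : Fin p.m) : p.x i ≠ p.y l := by
  intro e
  have := @h (.inl i) (.inr l) (by simpa using e)
  cases this

variable {p : Pts} {L : ℝ} (h : Sm p L)

include h

theorem Sm.good : Good0 p := by
  have key : ∀ z : ℂ, ‖z‖ ≤ L / 2 → z ∈ Dia := fun z hz => by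
    have h1 := Complex.abs_re_le_norm z
    have h2 := Complex.abs_im_le_norm z
    have := h.L1
    have := h.L0
    show |z.re| + |z.im| < 1
    linarith
  exact ⟨fun i => key _ (h.x i), fun l => key _ (h.y l), h.d⟩

theorem Sm.lat : ∃ δ : ℝ, 0 < δ ∧ ∀ᶠ a in 𝓝[>] (0 : ℝ), ∃ r : ℕ,
    Lat (fun i => fl a (p.x i)) (fun l => fl a (p.y l)) p.j (sc L a) r ∧ δ ≤ a * r ∧
      ∀ i i', fl a (p.x i) ∈ AL.cnr (fl a (p.x i')) → i = i' := by
  have key : ∀ z w : ℂ, ∀ᶠ δ in 𝓝[>] (0 : ℝ), ‖z - w‖ ≤ 16 * δ → z = w := fun z w => by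
    by_cases e : z = w
    · exact Eventually.of_forall fun _ _ => e
    · have h0 : 0 < ‖z - w‖ := norm_pos_iff.2 (sub_ne_zero.2 e)
      filter_upwards [ev_le (c := ‖z - w‖ / 32) (by positivity)] with δ hδ hh
      linarith [hδ.2]
  obtain ⟨δ, ⟨hδ, hL⟩, h1, h2⟩ := ((ev_le h.L0).and ((eventually_all.2 fun i => eventually_all.2
    fun l => key (p.x i) (p.y l)).and (eventually_all.2 fun i => eventually_all.2
    fun i' => key (p.x i) (p.x i')))).exists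
  refine ⟨δ / 2, by positivity, ?_⟩
  filter_upwards [ev_le (c := δ / 4) (by positivity)] with a ⟨ha, ha'⟩
  have haL : a ≤ L / 4 := by linarith
  have r1 : a * ⌊δ / a⌋₊ ≤ δ := by
    have := Nat.floor_le (a := δ / a) (by positivity)
    rw [le_div_iff₀ ha] at this
    linarith
  have r2 : δ / 2 ≤ a * ⌊δ / a⌋₊ := by
    have := Nat.lt_floor_add_one (δ / a)
    rw [div_lt_iff₀ ha] at this
    linarith
  have c1 : ∀ i i', fl a (p.x i) ∈ bx (fl a (p.x i')) 1 → i = i' := fun i i' hi => by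
    refine h.d.xi (h2 i i' ?_)
    have := fl_near ha hi
    push_cast at this
    linarith
  refine ⟨⌊δ / a⌋₊, ⟨?_, ?_, ?_, fun i => (fl_in ha haL (h.x i) 0).1,
    fun l => fl_in ha haL (h.y l) _, fun i i' e => c1 i i' ?_, h.ev, fun i l hi => ?_⟩, r2,
    fun i i' hi => c1 i i' ?_⟩
  · have h3 : (4 : ℝ) ≤ L / a := by rw [le_div_iff₀ ha]; linarith
    exact_mod_cast h3.trans (Nat.le_ceil _)
  · rw [Nat.floor_pos, le_div_iff₀ ha]; linarith
  · exact (Nat.floor_le_floor (div_le_div_of_nonneg_right hL ha.le)).trans (Nat.floor_le_ceil _)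
  · have e : fl a (p.x i) = fl a (p.x i') := e
    rw [e, mem_bx]; lia
  · refine h.d.xy i l (h1 i l ?_)
    have := fl_near ha hi
    push_cast at this
    linarith
  · rw [mem_bx]
    rcases AL.mem_cnr.1 hi with e | e | e | e <;> rw [e] <;> lia

theorem Sm.nn_sc {T : ℕ} (hT : 4 * L * T ≤ 1) : ∀ᶠ a in 𝓝[>] (0 : ℝ), T * sc L a ≤ nn a := by
  filter_upwards [ev_le h.L0] with a ⟨ha, ha'⟩
  refine le_of_sc ha ha' ?_
  have := nn_ge1 ha
  have := h.L1
  linarith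

theorem Sm.ref (hS : SSrc) (hB : SBulk) : ∃ K : ℝ, 0 ≤ K ∧ ∀ᶠ a in 𝓝[>] (0 : ℝ),
    Ref (fun i => fl a (p.x i)) (fun l => fl a (p.y l)) p.j (sc L a) (nn a) a K := by
  have := lb_fin p.n p.m
  have hd : ∀ j, dir j ∈ AL.cnr 0 := fun j => by
    unfold dir
    rw [AL.mem_cnr]
    split_ifs <;> simp
  have hs : ∀ a : ℝ, 0 < a → ∀ y : Lb p.n p.m, 0 ≤ sig a y := fun a ha y => by
    cases y <;> simp [sig, ha.le]
  obtain ⟨K, hK, h1⟩ := unif (l := 𝓝[>] (0 : ℝ)) (fun (y : Lb p.n p.m) a K => 0 < a → nt y →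
      Ptw (kf (nn a) (AL.fcs (AL.srcs fun i => fl a (p.x i)))
        (AL.cn 0 (fun i => fl a (p.x i)) (fun l => fl a (p.y l)) p.j y)) (sc L a) (K * sig a y))
    (fun y a K K' hK hP ha hy =>
      (hP ha hy).mono (mul_le_mul_of_nonneg_right hK (hs a ha y))) fun y => by
      cases y with
      | tp c => exact ⟨0, Eventually.of_forall fun _ _ hy => absurd hy id⟩
      | src i =>
        obtain ⟨K, -, hK⟩ := hS
        obtain ⟨δ, -, hl⟩ := h.lat
        refine ⟨K, ?_⟩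
        filter_upwards [hl, h.nn_sc (T := 200) (by have := h.L1; push_cast; linarith)] with a
          ⟨r, hl, _, hc⟩ hn _ _
        show Ptw _ _ (K * 1)
        rw [mul_one]
        refine hK _ _ _ _ hl.k4 hn (nodup_srcs _ hl.inj) ((mem_srcs _).2 ⟨i, rfl⟩)
          (fun f hf hne hm => ?_) hl.rin
        obtain ⟨i', rfl⟩ := (mem_srcs _).1 hf
        exact hne (by rw [hc i i' hm])
      | lo l =>
        obtain ⟨K, -, hK⟩ := hB p.n p.x (p.y l) 0 L h.d.xi (fun i => h.d.xy i l)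
          (AL.mem_cnr.2 (Or.inl rfl)) h.L0 h.L1 h.x (h.y l)
        refine ⟨K, hK.mono fun a ha _ _ => ?_⟩
        rw [add_zero] at ha
        exact ha
      | hi l =>
        obtain ⟨K, -, hK⟩ := hB p.n p.x (p.y l) _ L h.d.xi (fun i => h.d.xy i l)
          (hd (p.j l)) h.L0 h.L1 h.x (h.y l)
        exact ⟨K, hK.mono fun a ha _ _ => ha⟩
  obtain ⟨K', hK', h2⟩ := unif (l := 𝓝[>] (0 : ℝ)) (fun (l : Fin p.m) a K => 0 < a →
      Ptw (kf (nn a) 0 (AL.eHi (fl a (p.y l)) (p.j l))) (sc L a) (K * a))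
    (fun y a K K' hK hP ha => (hP ha).mono (mul_le_mul_of_nonneg_right hK ha.le)) fun l => by
      obtain ⟨K, -, hK⟩ := hB 0 Fin.elim0 (p.y l) _ L (fun i => i.elim0) (fun i => i.elim0)
        (hd (p.j l)) h.L0 h.L1 (fun i => i.elim0) (h.y l)
      exact ⟨K, hK.mono fun a ha _ => ha⟩
  refine ⟨K + K', by positivity, ?_⟩
  filter_upwards [h1, h2, self_mem_nhdsWithin] with a h1 h2 ha
  have ha : 0 < a := ha
  exact ⟨fun y hy => (h1 y ha hy).mono (mul_le_mul_of_nonneg_right (by linarith) (hs a ha y)),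
    fun l => (h2 l ha).mono (mul_le_mul_of_nonneg_right (by linarith) ha.le)⟩

theorem Sm.wt_lim {x : Lb p.n p.m} (hx : nt x) : ∃ c : ℝ, c ≠ 0 ∧
    Tendsto (fun a : ℝ => ‖AL.rr p a x‖ / wt p a x) (𝓝[>] 0) (𝓝 c) := by
  have en : ∀ l (z : Lb p.n p.m), (z = .lo l ∨ z = .hi l) → ∃ c : ℝ, c ≠ 0 ∧
      Tendsto (fun a : ℝ => ‖AL.rr p a z‖ / wt p a z) (𝓝[>] 0) (𝓝 c) := by
    intro l z hz
    obtain ⟨c1, h1⟩ := AL.rho_en p l _ (Or.inl rfl)
    obtain ⟨c2, h2⟩ := AL.rho_en p l _ (Or.inr rfl)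
    obtain ⟨c, hc, h3⟩ := AL.en_lim p (fun k i => (h.d.xy i k).symm) l
    have e : c1 * c2 = ‖c‖ := by
      refine tendsto_nhds_unique (h1.mul h2) (h3.norm.congr fun a => ?_)
      rw [norm_mul, norm_mul]
      have := AL.wl_sq p (fun i => fl a (p.x i)) (fun k => fl a (p.y k)) (.hi l)
      rcases mul_self_eq_one_iff.1 this with e | e <;> rw [e] <;> simp
    have e0 : c1 * c2 ≠ 0 := by rw [e]; exact norm_ne_zero_iff.2 hc
    have key : ∀ᶠ a in 𝓝[>] (0 : ℝ), ‖AL.rho p a z‖ = ‖AL.rr p a z‖ / wt p a z := by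
      filter_upwards [self_mem_nhdsWithin] with a ha
      have hs : 0 < √a := Real.sqrt_pos.2 ha
      have hw : wt p a z = (√a)⁻¹ := by rcases hz with rfl | rfl <;> rfl
      rw [AL.norm_rr_le p a z (by rcases hz with rfl | rfl <;> exact id), hw, norm_div,
        Complex.norm_real, Real.norm_eq_abs, abs_of_pos hs]
      field_simp
    rcases hz with rfl | rfl
    · exact ⟨c1, left_ne_zero_of_mul e0, h1.congr' key⟩
    · exact ⟨c2, right_ne_zero_of_mul e0, h2.congr' key⟩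
  cases x with
  | tp c => exact absurd hx id
  | src i =>
    obtain ⟨c, hc, h1⟩ := AL.rho_src p h.d.xi i
    refine ⟨c, hc.ne', h1.congr fun a => ?_⟩
    rw [AL.norm_rr_le p a _ id]
    exact (div_one _).symm
  | lo l => exact en l _ (Or.inl rfl)
  | hi l => exact en l _ (Or.inr rfl)

theorem Sm.bdd : ∃ B : ℝ, ∀ᶠ a in 𝓝[>] (0 : ℝ), ∀ x y,
    [x, y].Sublist (AL.lbs (n := p.n) (univ : Finset (Fin p.m)).toList []) →
    |KW p a (nn a) x y| ≤ B := by
  have := lb_fin p.n p.m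
  obtain ⟨B, -, hB⟩ := unif (l := 𝓝[>] (0 : ℝ)) (fun (z : Lb p.n p.m × Lb p.n p.m) a B =>
      [z.1, z.2].Sublist (AL.lbs (n := p.n) (univ : Finset (Fin p.m)).toList []) →
      |KW p a (nn a) z.1 z.2| ≤ B) (fun z a K K' hK hP hz => (hP hz).trans hK) fun ⟨x, y⟩ => by
    by_cases hxy : [x, y].Sublist (AL.lbs (n := p.n) (univ : Finset (Fin p.m)).toList [])
    swap
    · exact ⟨0, Eventually.of_forall fun _ hz => absurd hz hxy⟩
    obtain ⟨c, -, h0⟩ := AL.Kz_lim p h.good (AL.kp p h.good) (nodup_toList _) List.nodup_nil hxy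
    obtain ⟨c1, n1, h1⟩ := h.wt_lim (nt_of_mem (hxy.subset (a := x) (by simp)))
    obtain ⟨c2, n2, h2⟩ := h.wt_lim (nt_of_mem (hxy.subset (a := y) (by simp)))
    have h3 := h0.norm.div (h1.mul h2) (mul_ne_zero n1 n2)
    refine ⟨‖c‖ / (c1 * c2) + 1, ?_⟩
    filter_upwards [h3.eventually (eventually_le_nhds (lt_add_one _)), h1.eventually_ne n1,
      h2.eventually_ne n2, self_mem_nhdsWithin] with a h3 h1 h2 ha _
    refine le_trans (le_of_eq ?_) h3
    have hs : 0 < √a := Real.sqrt_pos.2 ha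
    have hw : ∀ z, 0 < wt p a z := fun z => by cases z <;> simp [wt, hs]
    have e : KW p a (nn a) x y = wt p a x * wt p a y *
      AL.Kz p (univ : Finset (Fin p.m)).toList a x y := rfl
    have r1 : ‖AL.rr p a x‖ ≠ 0 := fun e => h1 (by rw [e, zero_div])
    have r2 : ‖AL.rr p a y‖ ≠ 0 := fun e => h2 (by rw [e, zero_div])
    simp only [Pi.div_apply]
    rw [e, norm_mul, norm_mul, Complex.norm_real, Real.norm_eq_abs, abs_mul, abs_mul,
      abs_of_pos (hw x), abs_of_pos (hw y)]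
    have := (hw x).ne'
    have := (hw y).ne'
    field_simp
  exact ⟨B, hB.mono fun a ha x y => ha (x, y)⟩

omit h

/-- The statement for one family of points. -/
def KerAt (p : Pts) : Prop := ∃ B : ℝ, ∀ ε > (0 : ℝ), ∃ T : ℝ,
  ∀ᶠ a in 𝓝[>] (0 : ℝ), ∀ N N' : ℕ, T ≤ a * N → T ≤ a * N' → ∀ x y,
    [x, y].Sublist (AL.lbs (n := p.n) (univ : Finset (Fin p.m)).toList []) →
    |KW p a N x y| ≤ B ∧ |KW p a N' x y - KW p a N x y| ≤ ε

theorem ker_small (hC : SCore) (hS : SSrc) (hB : SBulk) : ∃ L : ℝ, 0 < L ∧ 1000 * L ≤ 1 ∧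
    ∀ p, Sm p L → KerAt p := by
  obtain ⟨T₁, hT₁, c1⟩ := hC.at one_pos
  have h0 : (0 : ℝ) < 1000 + 4 * T₁ := by positivity
  have h1 : (1000 + 4 * T₁ : ℝ) * (1000 + 4 * T₁ : ℝ)⁻¹ = 1 := mul_inv_cancel₀ h0.ne'
  have h2 : 0 < (1000 + 4 * T₁ : ℝ)⁻¹ := inv_pos.2 h0
  generalize (1000 + 4 * T₁ : ℝ)⁻¹ = L at h1 h2
  have h3 : 0 ≤ T₁ * L := by positivity
  refine ⟨L, h2, by linarith, fun p h => ?_⟩
  obtain ⟨δ, hδ, hl⟩ := h.lat
  obtain ⟨K, hK, hr⟩ := h.ref hS hB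
  obtain ⟨B, hb⟩ := h.bdd
  refine ⟨B + (1 + p.m) * √(1 * K * (1 + δ⁻¹)), fun ε hε => ?_⟩
  have q0 : 0 < (1 + p.m : ℝ) := by positivity
  have q1 : 0 < 5 * K * (1 + δ⁻¹) + 1 := by positivity
  obtain ⟨T₂, hT₂, c2⟩ := hC.at (ε := (ε / (1 + p.m)) ^ 2 / (5 * K * (1 + δ⁻¹) + 1))
    (by positivity)
  refine ⟨2 * L * (T₁ + T₂ : ℕ), ?_⟩
  filter_upwards [hl, hr, hb, h.nn_sc (T := T₁) (by linarith), ev_le h2] with a ⟨r, hl, hr', _⟩ hr
    hb hn ⟨ha, haL⟩ N N' hN hN' x y hxy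
  have hN := le_of_sc ha haL hN
  have hN' := le_of_sc ha haL hN'
  rw [add_mul] at hN hN'
  have hx := nt_of_mem (hxy.subset (a := x) (by simp))
  have hy := nt_of_mem (hxy.subset (a := y) (by simp))
  constructor
  · have k1 := KW_dif hl c1 hn (N' := N) (by lia) hr hT₁ zero_le_one hK ha hδ hr' hx hy
    have k2 := hb x y hxy
    have k3 := abs_add_le (KW p a (nn a) x y) (KW p a N x y - KW p a (nn a) x y)
    rw [add_sub_cancel] at k3
    linarith
  · have k1 := KW_dif hl c2 (N := N) (N' := N') (by lia) (by lia) (hl.five c1 hn (by lia) hr) hT₂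
      (by positivity) (by positivity) ha hδ hr' hx hy
    refine k1.trans ?_
    rw [← le_div_iff₀' q0]
    refine Real.sqrt_le_iff.2 ⟨by positivity, ?_⟩
    rw [mul_assoc, div_mul_eq_mul_div, div_le_iff₀ q1]
    exact mul_le_mul_of_nonneg_left (by linarith) (by positivity)

theorem fl_shr {R : ℝ} (hR : 0 < R) (a : ℝ) (z : ℂ) : fl (a / R) (z / R) = fl a z := by
  unfold fl
  rw [Complex.div_ofReal_re, Complex.div_ofReal_im, div_div_div_cancel_right₀ hR.ne',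
    div_div_div_cancel_right₀ hR.ne']

theorem KW_shr {R : ℝ} (hR : 1 ≤ R) (p : Pts) (x y : Lb p.n p.m) : ∃ c : ℝ, |c| ≤ 1 ∧
    ∀ a, 0 < a → ∀ N, KW p a N x y = c * KW (shr p R) (a / R) N x y := by
  have h0 : 0 < R := by linarith
  have hs : 1 ≤ √R := Real.one_le_sqrt.2 hR
  have key : ∀ z : Lb p.n p.m, ∃ c : ℝ, |c| ≤ 1 ∧ ∀ a, 0 < a →
      wt p a z = c * wt (shr p R) (a / R) z := fun z => by
    have e : ∀ a : ℝ, 0 < a → (√a)⁻¹ = (√R)⁻¹ * (√(a / R))⁻¹ := fun a ha => by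
      rw [Real.sqrt_div ha.le]
      field_simp
    have e' : |(√R)⁻¹| ≤ 1 := by
      rw [abs_of_pos (by positivity)]
      exact inv_le_one_of_one_le₀ hs
    cases z with
    | lo l => exact ⟨_, e', e⟩
    | hi l => exact ⟨_, e', e⟩
    | src i => exact ⟨1, by simp, fun a _ => (one_mul _).symm⟩
    | tp i => exact ⟨1, by simp, fun a _ => (one_mul _).symm⟩
  obtain ⟨c1, n1, h1⟩ := key x
  obtain ⟨c2, n2, h2⟩ := key y
  refine ⟨c1 * c2, by rw [abs_mul]; exact mul_le_one₀ n1 (abs_nonneg _) n2, fun a ha N => ?_⟩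
  have e1 : (fun i => fl (a / R) ((shr p R).x i)) = fun i => fl a (p.x i) :=
    funext fun i => fl_shr h0 a _
  have e2 : (fun i => fl (a / R) ((shr p R).y i)) = fun i => fl a (p.y i) :=
    funext fun i => fl_shr h0 a _
  have e3 : tN (shr p R) (a / R) N = tN p a N := funext fun l => by
    unfold tN
    rw [show fl (a / R) ((shr p R).y l) = fl a (p.y l) from fl_shr h0 a _]
    rfl
  unfold KW
  rw [e1, e2, e3, h1 a ha, h2 a ha, mul_mul_mul_comm, mul_assoc]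
  rfl

theorem Dist.shr {p : Pts} (h : Dist p) {R : ℝ} (hR : 0 < R) : Dist (shr p R) := by
  intro s t e
  refine h ?_
  have hR' : (R : ℂ) ≠ 0 := by exact_mod_cast hR.ne'
  rcases s with s | s <;> rcases t with t | t <;> exact (div_left_inj' hR').1 e

theorem ker (hC : SCore) (hS : SSrc) (hB : SBulk) : SKer := by
  intro p hp hn
  obtain ⟨L, h0, h1, hk⟩ := ker_small hC hS hB
  have key : ∀ z : ℂ, ∀ᶠ R : ℝ in atTop, ‖z / R‖ ≤ L / 2 := fun z => by
    filter_upwards [eventually_gt_atTop 0, eventually_ge_atTop (‖z‖ / (L / 2))] with R r0 r1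
    rw [norm_div, Complex.norm_real, Real.norm_eq_abs, abs_of_pos r0, div_le_iff₀ r0]
    rwa [div_le_iff₀' (by positivity)] at r1
  obtain ⟨R, hR, hx, hy⟩ := ((eventually_ge_atTop 1).and ((eventually_all.2 fun i =>
    key (p.x i)).and (eventually_all.2 fun l => key (p.y l)))).exists
  have r0 : 0 < R := by linarith
  obtain ⟨B, hb⟩ := hk (shr p R) ⟨hp.shr r0, hn, h0, h1, hx, hy⟩
  refine ⟨B, fun ε hε => ?_⟩
  obtain ⟨T, hT⟩ := hb ε hε
  have ht : Tendsto (fun a : ℝ => a / R) (𝓝[>] 0) (𝓝[>] 0) := by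
    refine tendsto_nhdsWithin_iff.2 ⟨?_, ?_⟩
    · have := (tendsto_id (x := 𝓝 (0 : ℝ))).div_const R
      rw [zero_div] at this
      exact this.mono_left nhdsWithin_le_nhds
    · filter_upwards [self_mem_nhdsWithin] with a ha using div_pos ha r0
  refine ⟨T * R, ?_⟩
  filter_upwards [ht.eventually hT, self_mem_nhdsWithin] with a hT ha N N' hN hN' x y hxy
  have sc : ∀ M : ℕ, T * R ≤ a * M → T ≤ a / R * M := fun M hM => by
    rwa [div_mul_eq_mul_div, le_div_iff₀ r0]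
  obtain ⟨k1, k2⟩ := hT N N' (sc N hN) (sc N' hN') x y hxy
  obtain ⟨c, hc, e⟩ := KW_shr hR p x y
  rw [e a ha, e a ha, ← mul_sub, abs_mul, abs_mul]
  exact ⟨(mul_le_of_le_one_left (abs_nonneg _) hc).trans k1,
    (mul_le_of_le_one_left (abs_nonneg _) hc).trans k2⟩

end Vale.Agent.P144P
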