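import Vale.Agent.P144P.Basic

/-!
Oscillation of a function on an annulus.
-/

namespace Vale.Agent.P144P

open Vale.Agent.P144
open Vale.Agent.P144.H170 (Pt bx D)

theorem line {g : ℤ → ℝ} {β : ℝ} {a b : ℤ} (hab : a ≤ b)
    (h : ∀ i, a ≤ i → i < b → |g (i + 1) - g i| ≤ β) : |g b - g a| ≤ ((b:ℝ) - a) * β := by
  induction b, hab using Int.leInduction with
  | base => simp
  | succ b hb ih =>
    have h1 := ih fun i h1 h2 => h i h1 (by lia)
    have h2 := h b hb (by lia)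
    have h3 := abs_sub_le (g (b + 1)) (g b) (g a)
    push_cast
    linarith

theorem osc : SOsc := by
  intro h n β hn hβ H
  have e : ((n - 1 : ℕ) : ℤ) = n - 1 := by lia
  have hor : ∀ i j : ℤ, |i| ≤ 8 * n → |j| ≤ 8 * n →
      ((n:ℤ) ≤ |j| ∨ (n:ℤ) ≤ i) → |h (8 * n, j) - h (i, j)| ≤ 16 * n * β := by
    intro i j hi hj hc
    have hi' := abs_le.1 hi
    refine (line (β := β) (g := fun i => h (i, j)) hi'.2 fun k h1 h2 => ?_).trans ?_
    · have := (H (k, j) (by rw [bx0]; simp only [abs_le] at *; push_cast; lia) (by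
        rw [bx0, e]; simp only [abs_le, le_abs] at *; lia)).1
      simpa [D] using this
    · refine mul_le_mul_of_nonneg_right ?_ hβ
      have : -(8 * (n:ℝ)) ≤ i := by exact_mod_cast hi'.1
      push_cast
      linarith
  have ver : ∀ i j : ℤ, |i| ≤ 8 * n → |j| ≤ 8 * n → (n:ℤ) ≤ |i| →
      |h (i, 8 * n) - h (i, j)| ≤ 16 * n * β := by
    intro i j hi hj hc
    have hj' := abs_le.1 hj
    refine (line (β := β) (g := fun j => h (i, j)) hj'.2 fun k h1 h2 => ?_).trans ?_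
    · have := (H (i, k) (by rw [bx0]; simp only [abs_le] at *; push_cast; lia) (by
        rw [bx0, e]; simp only [abs_le, le_abs] at *; lia)).2
      simpa [D] using this
    · refine mul_le_mul_of_nonneg_right ?_ hβ
      have : -(8 * (n:ℝ)) ≤ j := by exact_mod_cast hj'.1
      push_cast
      linarith
  have h8 : |(8 * n : ℤ)| ≤ 8 * n := by rw [abs_of_nonneg (by lia)]
  have h9 : (n:ℤ) ≤ |(8 * n : ℤ)| := by rw [abs_of_nonneg (by lia)]; lia
  have hp : 0 ≤ (n:ℝ) * β := by positivity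
  refine ⟨h (8 * n, 8 * n), fun x h1 h2 => ?_⟩
  obtain ⟨i, j⟩ := x
  rw [bx0] at h1 h2
  rw [e] at h2
  push_cast at h1
  simp only at h1 h2
  rw [abs_sub_comm]
  by_cases hc : (n:ℤ) ≤ |i|
  · have a1 := ver i j h1.1 h1.2 hc
    have a2 := hor i (8 * n) h1.1 h8 (Or.inl h9)
    linarith [abs_sub_le (h (8 * n, 8 * n)) (h (i, 8 * n)) (h (i, j))]
  · have a1 := hor i j h1.1 h1.2 (Or.inl (by lia))
    have a2 := ver (8 * n) j h8 h1.2 h9
    linarith [abs_sub_le (h (8 * n, 8 * n)) (h (8 * n, j)) (h (i, j))]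

end Vale.Agent.P144P
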