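import Vale.Agent.P144P.Inn

/-!
Sums of squares of a kernel outside the box that contains the source and the disorders.
-/

namespace Vale.Agent.P144P

open Finset Vale.Agent.P144
open Vale.Agent.P144.H170 (Pt bx D lap mem_bx bx_mono)
open Vale.Agent.P144.H135 (CT CT_one CT_zero CT_nonneg CT_le_one)

open Inn in
theorem out (hO : SOsc) (hP : SProd) : SOut := by
  classical
  refine ⟨6 * 10 ^ 10, by norm_num, fun N n R y s hn hN _ hy1 hy2 hRn hpt c r T hT => ?_⟩
  have hs := hpt.nonneg (by lia)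
  obtain ⟨τ, θ, A, B, C, E, Hs, Hf, P, R', h, hH, hE, hPn, hR', hsq⟩ :=
    kf_spr R (N := N) (by lia) hy1 hy2 hRn
  obtain ⟨κ, hκ⟩ := osc hO (A := A) (B := B) (C := C) (E := E) (Hs := Hs) (Hf := Hf)
    (n := n) (by lia) hs fun x h1 h2 => by
      have k := hpt x (bx_mono (by lia) h1) fun h => h2 (bx_mono (by lia) h)
      rw [hsq] at k
      obtain ⟨i, j⟩ := x
      refine ⟨hH.a i j, ?_, ?_, k⟩
      · simpa only [Prod.mk_add_mk, add_zero] using hH.b i j
      · simpa only [Prod.mk_add_mk, add_zero] using hH.c i j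
  have hm : 0 < 8 * n := by lia
  have nn : ∀ v, v ∉ bx 0 n → 0 ≤ lap Hs v := fun v hv => by
    rw [← H170.lap_AL]; exact h.lap_nn hH hE fun h' => hv (hPn h')
  have np : ∀ x, x ∉ bx 0 n → (∀ v ∈ AL.cnr x, v ∈ dia N) → lap Hf x ≤ 0 := by
    rintro ⟨i, j⟩ hx hin
    rw [← H170.lap_AL]
    exact h.lapf_nonpos hH (hin (i, j) (by simp [AL.mem_cnr]))
      (hin (i + 1, j) (by simp [AL.mem_cnr])) (hin (i, j + 1) (by simp [AL.mem_cnr]))
      (hin (i + 1, j + 1) (by simp [AL.mem_cnr])) (hE.τc i j fun h' => hx (hR' h'))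
  obtain ⟨P1, -⟩ := hP (fun y => Hs y - κ) (8 * n) (321 * s) hm (by positivity)
    (fun x h1 h2 => (hκ x h1 h2).1) fun x _ h2 => by
      rw [lap_sub_c]
      exact nn x fun h' => h2 (bx_mono (by lia) h')
  obtain ⟨Q1, -⟩ := hP (fun y => κ - Hf y) (8 * n) (321 * s) hm (by positivity)
    (fun x h1 h2 => by rw [abs_sub_comm]; exact (hκ x h1 h2).2) fun x h1 h2 => by
      rw [lap_c_sub]
      have := np x (fun h' => h2 (bx_mono (by lia) h')) fun v hv => by
        refine bx_dia (m := 64 * n + 1) ?_ (by lia)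
        rw [AL.mem_cnr] at hv
        rw [mem_bx] at h1 ⊢
        simp only [Prod.fst_zero, Prod.snd_zero] at h1 ⊢
        push_cast at h1 ⊢
        rcases hv with rfl | rfl | rfl | rfl <;> lia
      linarith
  set φ : Pt → ℝ := CT 0 (2 * (8 * n)) with hφ
  have φ0 : ∀ x ∉ bx 0 (4 * (8 * n)), φ x = 0 := fun x hx => CT0 hm hx
  have φd : ∀ x ∉ dia N, φ x = 0 := fun x hx => φ0 x fun h' => hx (bx_dia h' (by lia))
  have φ1 : ∀ x ∈ bx 0 n, φ x = 1 := fun x hx => CT_one (by lia) (bx_mono (by lia) hx)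
  have φn : ∀ x, 0 ≤ φ x := fun x => CT_nonneg _ _ _
  have φl : ∀ x, φ x ≤ 1 := fun x => CT_le_one _ _ _
  simp only [lap_sub_c] at P1
  simp only [lap_c_sub] at Q1
  have hout : ∀ x ∉ dia N, Hf x = 0 := fun x hx =>
    h.Hf_zero hH (v := x) (by simp [AL.mem_cnr]) hx
  obtain ⟨M, hM⟩ : ∃ M : ℕ, dia N ⊆ box M := (H436.subset_box (dia N)).exists
  have supp : ∀ u : Pt → ℝ, (∀ x ∉ dia N, u x = 0) → ∀ x ∉ box (M + 1), lap u x = 0 :=
    fun u hu x hx => by
      rw [← H170.lap_AL]
      exact AL.supp_lap (fun y hy => hu y fun h' => hy (hM h')) x hx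
  have U0 : ∀ x ∉ dia N, Hs x - φ x * (Hs x - κ) = 0 := fun x hx => by
    rw [φd x hx, hH.out x hx]; ring
  have W0 : ∀ x ∉ dia N, -Hf x - φ x * (κ - Hf x) = 0 := fun x hx => by
    rw [φd x hx, hout x hx]; ring
  have pn : ∀ x, 0 ≤ (1 - φ x) * lap Hs x := fun x => by
    by_cases hx : x ∈ bx 0 n
    · rw [φ1 x hx, sub_self, zero_mul]
    · exact mul_nonneg (by linarith [φl x]) (nn x hx)
  obtain ⟨g1, g2⟩ := gen (u := fun y => Hs y - φ y * (Hs y - κ))
    (p := fun x => (1 - φ x) * lap Hs x) (E := 4280 * (321 * s)) (M := 0) U0 (supp _ U0)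
    (le_trans (le_of_eq (sum_congr rfl fun x _ => by
      rw [← abs_neg]; congr 1; unfold lap; ring)) (P1 (box (M + 1))))
    (le_of_eq (sum_eq_zero fun x _ => max_eq_left (by linarith [pn x])))
  simp only [abs_of_nonneg (pn _)] at g1
  have cn := AL.sum_sum_cnr (u := fun v => (1 - φ v) * lap Hs v) pn (T := box (M + 1))
    (S := box (M + 1)) fun v hv => by
      simp only [supp Hs (fun x hx => hH.out x hx) v hv, mul_zero]
  have hneg : ∑ x ∈ box (M + 1), max 0 (-((1 - φ x) * -lap Hf x)) ≤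
      16 * (4280 * (321 * s)) := by
    calc _ ≤ ∑ x ∈ box (M + 1), 4 * ∑ v ∈ AL.cnr x, (1 - φ v) * lap Hs v := by
          refine sum_le_sum fun x _ => ?_
          have h0 : 0 ≤ ∑ v ∈ AL.cnr x, (1 - φ v) * lap Hs v := sum_nonneg fun v _ => pn v
          refine max_le (by positivity) ?_
          by_cases hx : x ∈ bx 0 n
          · rw [φ1 x hx]
            linarith
          · have k : lap Hf x ≤ 4 * ∑ v ∈ AL.cnr x, (1 - φ v) * lap Hs v := by
              by_cases hin : ∃ u ∈ AL.cnr x, u ∉ dia N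
              · obtain ⟨u, hu, hΛ⟩ := hin
                have h1 := h.lapf_outer hH hu hΛ
                rw [H170.lap_AL] at h1
                refine h1.trans (mul_le_mul_of_nonneg_left ?_ (by norm_num))
                refine le_trans (le_of_eq (sum_congr rfl fun v hv => ?_))
                  (sum_le_sum_of_subset_of_nonneg (f := fun v => (1 - φ v) * lap Hs v)
                    (filter_subset (· ∉ dia N) _) fun v _ _ => pn v)
                rw [H170.lap_AL, φd v (mem_filter.1 hv).2, sub_zero, one_mul]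
              · push Not at hin
                linarith [np x hx hin]
            have := φn x
            have := φl x
            nlinarith
      _ = 4 * ∑ x ∈ box (M + 1), ∑ v ∈ AL.cnr x, (1 - φ v) * lap Hs v := by rw [mul_sum]
      _ ≤ _ := by linarith
  obtain ⟨-, g3⟩ := gen (u := fun y => -Hf y - φ y * (κ - Hf y))
    (p := fun x => (1 - φ x) * -lap Hf x) (E := 4280 * (321 * s)) W0 (supp _ W0)
    (le_trans (le_of_eq (sum_congr rfl fun x _ => by
      rw [← abs_neg]; congr 1; unfold lap; ring)) (Q1 (box (M + 1)))) hneg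
  have key := H135.sum_sq_out h hH (c := 0) (m := 32 * n)
    (U := fun y => Hs y - φ y * (Hs y - κ)) (W := fun y => Hf y + φ y * (κ - Hf y)) U0
    (fun x hx => by rw [φd x hx, hout x hx]; ring)
    (fun x hx => by rw [φ0 x fun h' => hx (bx_mono (by lia) h')]; ring)
    (fun x hx => by rw [φ0 x fun h' => hx (bx_mono (by lia) h')]; ring)
    (M := 34 * (4280 * (321 * s))) (fun T => (g2 T).trans (by linarith))
    (fun T => le_trans (le_of_eq (sum_congr rfl fun x _ => by
      rw [← abs_neg]; congr 1; unfold lap; ring)) ((g3 T).trans (by linarith))) c r T hT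
  simp only [hsq]
  refine key.trans ?_
  have : (0:ℝ) ≤ s * (r + 2) := by positivity
  nlinarith

end Vale.Agent.P144P
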