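import Vale.Agent.P144P.Defs

/-!
The error in the product rule for the cut-off.
-/

namespace Vale.Agent.P144P

open Finset Vale.Agent.P144
open Vale.Agent.P144.H170 (Pt bx D lap mem_bx bx_mono)
open Vale.Agent.P144.H135 (CT CT_one CT_zero cross sum_CT_lap bx_step bx_step' bx_step'')

/-- The cut-off is locally constant outside the annulus. -/
theorem CT_flat {c x : Pt} {n : ℕ} (hn : 0 < n) (hx : x ∉ bx c (4 * n) ∨ x ∈ bx c (2 * n - 1)) :
    CT c (2 * n) (x + (1, 0)) = CT c (2 * n) x ∧ CT c (2 * n) (x - (1, 0)) = CT c (2 * n) x ∧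
    CT c (2 * n) (x + (0, 1)) = CT c (2 * n) x ∧ CT c (2 * n) (x - (0, 1)) = CT c (2 * n) x := by
  rcases hx with k0 | hc
  · have k1 : ∀ y, y ∉ bx c (4 * n - 1) → CT c (2 * n) y = 0 := fun y hy =>
      CT_zero (by lia) (by rw [show 2 * (2 * n) = 4 * n by ring]; exact hy)
    have k2 : ∀ e : Pt, (e = (1, 0) ∨ e = (0, 1)) → x + e ∉ bx c (4 * n - 1) := fun e he h' =>
      k0 (by have := bx_step' he h'; rwa [show 4 * n - 1 + 1 = 4 * n by lia] at this)
    have k3 : ∀ e : Pt, (e = (1, 0) ∨ e = (0, 1)) → x - e ∉ bx c (4 * n - 1) := fun e he h' =>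
      k0 (by have := bx_step'' he h'; rwa [show 4 * n - 1 + 1 = 4 * n by lia] at this)
    rw [k1 _ (k2 _ (Or.inl rfl)), k1 _ (k3 _ (Or.inl rfl)), k1 _ (k2 _ (Or.inr rfl)),
      k1 _ (k3 _ (Or.inr rfl)), k1 _ fun h' => k0 (bx_mono (by lia) h')]
    exact ⟨rfl, rfl, rfl, rfl⟩
  · have k1 : ∀ y, y ∈ bx c (2 * n) → CT c (2 * n) y = 1 := fun y hy => CT_one (by lia) hy
    have m1 := bx_step hc (e := (1, 0)) (Or.inl rfl)
    have m2 := bx_step hc (e := (0, 1)) (Or.inr rfl)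
    rw [k1 _ (bx_mono (by lia) m1.1), k1 _ (bx_mono (by lia) m1.2),
      k1 _ (bx_mono (by lia) m2.1), k1 _ (bx_mono (by lia) m2.2), k1 _ (bx_mono (by lia) hc)]
    exact ⟨rfl, rfl, rfl, rfl⟩

theorem prod : SProd := by
  intro g n K hn hK hL hsub
  refine ⟨fun T => ?_, fun x hx => ?_⟩
  swap
  · obtain ⟨h1, h2, h3, h4⟩ := CT_flat (c := 0) hn hx
    unfold lap
    simp only [h1, h2, h3, h4]
    ring
  have c1 := cross hn hK hL hsub (e := (1, 0)) (Or.inl rfl)
  have c2 := cross hn hK hL hsub (e := (0, 1)) (Or.inr rfl)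
  have dec : ∀ x, |lap (fun y => CT 0 (2 * n) y * g y) x - CT 0 (2 * n) x * lap g x| ≤
      (|D (1, 0) (CT 0 (2 * n)) x| * |D (1, 0) g x| +
        |D (1, 0) (CT 0 (2 * n)) (x - (1, 0))| * |D (1, 0) g (x - (1, 0))| +
        |D (0, 1) (CT 0 (2 * n)) x| * |D (0, 1) g x| +
        |D (0, 1) (CT 0 (2 * n)) (x - (0, 1))| * |D (0, 1) g (x - (0, 1))|) +
      K * |lap (CT 0 (2 * n)) x| := by
    intro x
    have e1 : lap (fun y => CT 0 (2 * n) y * g y) x - CT 0 (2 * n) x * lap g x =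
        (D (1, 0) (CT 0 (2 * n)) x * D (1, 0) g x +
        D (1, 0) (CT 0 (2 * n)) (x - (1, 0)) * D (1, 0) g (x - (1, 0)) +
        D (0, 1) (CT 0 (2 * n)) x * D (0, 1) g x +
        D (0, 1) (CT 0 (2 * n)) (x - (0, 1)) * D (0, 1) g (x - (0, 1))) +
        g x * lap (CT 0 (2 * n)) x := by
      unfold lap D
      simp only [sub_add_cancel]
      ring
    have hl : |g x * lap (CT 0 (2 * n)) x| ≤ K * |lap (CT 0 (2 * n)) x| := by
      rw [abs_mul]
      by_cases hz : x ∉ bx 0 (4 * n) ∨ x ∈ bx 0 (2 * n - 1)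
      · obtain ⟨h1, h2, h3, h4⟩ := CT_flat (c := 0) hn hz
        have : lap (CT 0 (2 * n)) x = 0 := by
          unfold lap
          rw [h1, h2, h3, h4]
          ring
        rw [this]
        simp
      · rw [not_or, not_not] at hz
        exact mul_le_mul_of_nonneg_right (hL x (bx_mono (by lia) hz.1)
          fun h' => hz.2 (bx_mono (by lia) h')) (abs_nonneg _)
    rw [e1]
    refine (abs_add_le _ _).trans (add_le_add ?_ hl)
    rw [← abs_mul, ← abs_mul, ← abs_mul, ← abs_mul]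
    exact (abs_add_le _ _).trans (add_le_add ((abs_add_le _ _).trans
      (add_le_add (abs_add_le _ _) le_rfl)) le_rfl)
  have sh : ∀ e : Pt, ∀ F : Pt → ℝ, (∀ T : Finset Pt, ∑ x ∈ T, F x ≤ 1050 * K) →
      ∑ x ∈ T, F (x - e) ≤ 1050 * K := by
    intro e F hF
    have := hF (T.image fun x => x - e)
    rwa [sum_image fun x _ y _ h => sub_left_injective h] at this
  have s1 := sh (1, 0) _ c1
  have s2 := sh (0, 1) _ c2
  have s3 := mul_le_mul_of_nonneg_left (sum_CT_lap (c := 0) (n := 2 * n) (by lia) T) hK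
  refine (sum_le_sum fun x _ => dec x).trans ?_
  rw [sum_add_distrib, sum_add_distrib, sum_add_distrib, sum_add_distrib, ← mul_sum]
  linarith [c1 T, c2 T]

end Vale.Agent.P144P
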