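import Vale.Agent.P144P.Basic

/-!
Pointwise bound of a field by its sum of squares.
-/

namespace Vale.Agent.P144P

open Finset Vale.Agent.P144
open Vale.Agent.P144.H170 (Pt bx CR4 CR9 Harm mem_bx bx_mono sq_le_sum s22)

theorem pw : SPw := by
  intro F R x r hr hF hR
  obtain ⟨G, hG, hsq⟩ : ∃ G : Fld, (∀ y ∈ bx x (4 * r + 2), CR4 G.A G.B G.C G.E y) ∧
      ∀ y, G.sq y = F.sq y := by
    refine ⟨F.gau (fun f => f.2 < x.2) R, fun y hy => clean (hF y hy) fun f hf e => ?_,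
      F.gau_sq _ R⟩
    have h1 := hR f hf
    rw [mem_bx] at h1 hy
    push_cast at h1 hy
    lia
  have h9 : ∀ z ∈ bx x 1, ∀ y ∈ bx z (4 * r), CR9 G.A G.B G.C G.E y := by
    intro z hz y hy w h1 h2
    refine hG w ?_
    rw [abs_le] at h1 h2
    rw [mem_bx] at *
    push_cast at *
    lia
  have hsub : ∀ z ∈ bx x 1, bx z (4 * r) ⊆ bx x (4 * r + 2) := fun z hz y hy =>
    bx_mono (by lia) (bx_trans hz hy)
  have hc : (0:ℝ) ≤ 5000 / (r:ℝ) ^ 2 := by positivity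
  have hB : ∀ z ∈ bx x 1, G.B z ^ 2 ≤ 5000 / (r:ℝ) ^ 2 * ∑ y ∈ bx x (4 * r + 2), G.B y ^ 2 :=
    fun z hz => (sq_le_sum hr fun y hy => (h9 z hz y hy).lapB).trans (mul_le_mul_of_nonneg_left
      (sum_le_sum_of_subset_of_nonneg (hsub z hz) fun _ _ _ => sq_nonneg _) hc)
  have hC : ∀ z ∈ bx x 1, G.C z ^ 2 ≤ 5000 / (r:ℝ) ^ 2 * ∑ y ∈ bx x (4 * r + 2), G.C y ^ 2 :=
    fun z hz => (sq_le_sum hr fun y hy => (h9 z hz y hy).lapC).trans (mul_le_mul_of_nonneg_left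
      (sum_le_sum_of_subset_of_nonneg (hsub z hz) fun _ _ _ => sq_nonneg _) hc)
  have m0 : x ∈ bx x 1 := H170.self_mem_bx x 1
  have m1 : x + (0, 1) ∈ bx x 1 := by rw [mem_bx]; simp only [Prod.fst_add, Prod.snd_add]; lia
  have m2 : x - (0, 1) ∈ bx x 1 := by rw [mem_bx]; simp only [Prod.fst_sub, Prod.snd_sub]; lia
  have r1 := (hG _ (bx_mono (by lia) m2)).eqA1
  have r2 := (hG _ (bx_mono (by lia) m0)).eqE1
  have a1 : G.A x ^ 2 ≤ G.C (x - (0, 1)) ^ 2 + G.B x ^ 2 := by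
    have : 2 * G.A x ^ 2 = (G.C (x - (0, 1)) + G.B x) ^ 2 := by
      rw [← r1]; linear_combination (-G.A x ^ 2) * s22
    nlinarith [sq_nonneg (G.C (x - (0, 1)) - G.B x)]
  have a2 : G.E x ^ 2 ≤ G.B (x + (0, 1)) ^ 2 + G.C x ^ 2 := by
    have : 2 * G.E x ^ 2 = (G.B (x + (0, 1)) - G.C x) ^ 2 := by
      rw [← r2]; linear_combination (-G.E x ^ 2) * s22
    nlinarith [sq_nonneg (G.B (x + (0, 1)) + G.C x)]
  have a3 : ∑ y ∈ bx x (4 * r + 2), G.B y ^ 2 + ∑ y ∈ bx x (4 * r + 2), G.C y ^ 2 ≤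
      ∑ y ∈ bx x (4 * r + 2), F.sq y := by
    rw [← sum_add_distrib]
    refine sum_le_sum fun y _ => ?_
    rw [← hsq]
    unfold Fld.sq
    nlinarith [sq_nonneg (G.A y), sq_nonneg (G.E y)]
  have a4 := mul_le_mul_of_nonneg_left a3 hc
  have a5 : 0 ≤ 5000 / (r:ℝ) ^ 2 * ∑ y ∈ bx x (4 * r + 2), F.sq y :=
    mul_nonneg hc (sum_nonneg fun y _ => F.sq_nn y)
  have b1 := hB _ m0
  have b2 := hB _ m1
  have b3 := hC _ m0
  have b4 := hC _ m2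
  rw [← hsq x, show (30000:ℝ) / (r:ℝ) ^ 2 = 6 * (5000 / (r:ℝ) ^ 2) by ring, mul_assoc]
  rw [mul_add] at a4
  unfold Fld.sq at *
  linarith

end Vale.Agent.P144P
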