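import Vale.Agent.P144P.Defs
import Vale.Agent.P144.U.AL.Full
import Vale.Agent.P144Z.U1.Zero

/-!
Existence of the scaling limits in the plane: the statements of the second group of blocks.
-/

namespace Vale.Agent.P144P

open Finset Filter Topology Vale.Agent.P144
open Vale.Agent.P144.H170 (Pt bx)
open Vale.Agent.P144.H436 (nn)

/-- The mixed correlation of the free critical model in `dia N`. -/
noncomputable def cN (J a : ℝ) (N : ℕ) (p : Pts) : ℝ :=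
  corr a (gibbs J 0 (fun _ => 0) (Kc / J) none (dia N)) p

/-- The points are distinct. -/
def Dist (p : Pts) : Prop := Function.Injective (Sum.elim p.x p.y)

/-- The points divided by `R`. -/
noncomputable def shr (p : Pts) (R : ℝ) : Pts :=
  ⟨p.n, p.m, fun i => p.x i / R, fun k => p.y k / R, p.j⟩

/-- The weights of the labels. -/
noncomputable def wt (p : Pts) (a : ℝ) : AL.Lb p.n p.m → ℝ
  | .lo _ => (√a)⁻¹
  | .hi _ => (√a)⁻¹
  | _ => 1

/-- The mean of an energy in `dia N`. -/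
noncomputable def tN (p : Pts) (a : ℝ) (N : ℕ) (k : Fin p.m) : ℝ :=
  AL.ep (AL.eLo (fl a (p.y k))) (AL.eHi (fl a (p.y k)) (p.j k)) *
    AL.Wf (dia N) 0 [AL.eLo (fl a (p.y k)), AL.eHi (fl a (p.y k)) (p.j k)]

/-- The centred and weighted kernel in `dia N`. -/
noncomputable def KW (p : Pts) (a : ℝ) (N : ℕ) (x y : AL.Lb p.n p.m) : ℝ :=
  wt p a x * wt p a y * AL.cenK (AL.KK N (fun i => fl a (p.x i)) (fun k => fl a (p.y k)) p.j)
    AL.Lb.lo AL.Lb.hi (tN p a N) (univ : Finset (Fin p.m)).toList x y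

/-- The scale of the box that contains the points. -/
noncomputable def sc (L a : ℝ) : ℕ := ⌈L / a⌉₊

/-- The kernel with the source at a disorder. -/
def SSrc : Prop := ∃ K : ℝ, 0 < K ∧ ∀ (N n : ℕ) (R : Multiset Site) (u : Site), 4 ≤ n →
  200 * n ≤ N → R.Nodup → u ∈ R → (∀ f ∈ R, f ≠ u → u ∉ AL.cnr f) → (∀ f ∈ R, f ∈ bx 0 n) →
  Ptw (kf N R (u, u)) n K

/-- The kernel with the source in the bulk, in the diamond of the mesh. -/
def SBulk : Prop := ∀ (n : ℕ) (ζ : Fin n → ℂ) (z : ℂ) (u₀ : Site) (L : ℝ), Function.Injective ζ →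
  (∀ i, ζ i ≠ z) → u₀ ∈ AL.cnr 0 → 0 < L → 1000 * L ≤ 1 → (∀ i, ‖ζ i‖ ≤ L / 2) → ‖z‖ ≤ L / 2 →
  ∃ K : ℝ, 0 < K ∧ ∀ᶠ a in 𝓝[>] (0 : ℝ),
    Ptw (kf (nn a) (AL.fcs (AL.srcs fun i => fl a (ζ i))) (fl a z + u₀, fl a z)) (sc L a) (K * a)

/-- The weighted kernels are bounded and hardly depend on the size of the diamond. -/
def SKer : Prop := ∀ p : Pts, Dist p → Even p.n → ∃ B : ℝ, ∀ ε > (0 : ℝ), ∃ T : ℝ,
  ∀ᶠ a in 𝓝[>] (0 : ℝ), ∀ N N' : ℕ, T ≤ a * N → T ≤ a * N' → ∀ x y,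
    [x, y].Sublist (AL.lbs (n := p.n) (univ : Finset (Fin p.m)).toList []) →
    |KW p a N x y| ≤ B ∧ |KW p a N' x y - KW p a N x y| ≤ ε

/-- The correlations hardly depend on the size of the diamond. -/
def STwo : Prop := ∀ J > (0 : ℝ), ∀ p : Pts, Dist p → ∀ ε > (0 : ℝ), ∃ T : ℝ,
  ∀ᶠ a in 𝓝[>] (0 : ℝ), ∀ N N' : ℕ, T ≤ a * N → N ≤ N' → |cN J a N' p - cN J a N p| ≤ ε

/-- The plane state is the limit of the free states of the diamonds. -/
def SFix : Prop := ∀ J > (0 : ℝ), ∀ E₀, PlaneFam J 0 (fun _ => 0) (Kc / J) E₀ → ∀ a > (0 : ℝ),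
  ∀ p : Pts, Tendsto (fun N => cN J a N p) atTop (𝓝 (corr a (E₀ a) p))

/-- The limits in the diamond of size `R`. -/
def SDia : Prop := ∀ J > (0 : ℝ), ∀ p : Pts, Dist p → ∀ᶠ R : ℝ in atTop, ∃ c,
  Tendsto (fun a => cN J a (nn (a / R)) p) (𝓝[>] 0) (𝓝 c)

/-- All limits exist in the plane. -/
def SAll : Prop := ∀ J > (0 : ℝ), ∀ E₀, PlaneFam J 0 (fun _ => 0) (Kc / J) E₀ →
  AllLim Set.univ E₀

end Vale.Agent.P144P
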