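import Vale.Agent.P144P.Basic
import Vale.Agent.P144P.Defs2

/-!
The kernel with the source at a disorder.
-/

namespace Vale.Agent.P144P

open Finset Vale.Agent.P144
open Vale.Agent.P144.H170 (Pt bx mem_bx)

theorem src_sum {N : ℕ} {R : Multiset Site} {u : Site} (hR : R.Nodup) (hu : u ∈ R)
    (hc : ∀ f ∈ R, f ≠ u → u ∉ AL.cnr f) (hin : ∀ f ∈ R, |f.1| + |f.2| + 4 ≤ (N : ℤ)) (c : Pt)
    (r : ℕ) : ∑ x ∈ bx c r, (kf N R (u, u)).sq x ≤ 1152 * 5586 * (r + 2) := by
  obtain ⟨R', rfl⟩ := Multiset.exists_cons_of_mem hu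
  rw [Multiset.nodup_cons] at hR
  have hu' := hin u hu
  obtain ⟨Hs, Hf, hH, -, hm⟩ := AL.Xj_mass (N := N) (v := u) hR.2 (by lia)
    (fun f hf => hin f (Multiset.mem_cons_of_mem hf))
    fun f hf => hc f (Multiset.mem_cons_of_mem hf) fun h => hR.1 (h ▸ hf)
  have hd : u ∈ dia N := by rw [AL.mem_dia]; lia
  have hs := AL.spr_QQ (Λ := dia N) R' (A := {u}) (by simpa using hd) (AL.zj (dia N) R' u)
  have h0 : ∀ (g : Site → ℝ) (T : Finset Site), 0 ≤ ∑ w ∈ T, |g w| :=
    fun g T => sum_nonneg fun _ _ => abs_nonneg _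
  refine le_trans (le_of_eq (sum_congr rfl fun x _ => ?_)) (H170.sum_sq_box hs hH (M := 5586)
    (fun T => by linarith [hm T, h0 (AL.lap Hf) T]) (fun T => by linarith [hm T, h0 (AL.lap Hs) T])
    c r)
  have e : ∀ A, AL.QQ (dia N) (x ::ₘ u ::ₘ u ::ₘ R') A = AL.QQ (dia N) (x ::ₘ R') A := fun A => by
    rw [Multiset.cons_swap x u, Multiset.cons_swap x u, AL.QQ_dis_pair]
  rw [kf_sq]
  unfold AL.xA AL.xB AL.xC AL.xD AL.zj
  simp only [e]

theorem src (hP : SPw) : SSrc := by
  refine ⟨30000 * (1152 * 5586 * 5), by norm_num, fun N n R u hn hN hR hu hc hin x h1 h2 => ?_⟩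
  have hn' : (4:ℝ) ≤ n := by exact_mod_cast hn
  have hun := hin u hu
  have hS := src_sum (N := N) hR hu hc (fun f hf => by have := bx_l1 (hin f hf); lia) x (4 * n + 2)
  have h := hP (kf N R (u, u)) R x n (by lia) (fun y hy => ?_) fun f hf hf' => ?_
  · have h3 := h.trans (mul_le_mul_of_nonneg_left hS (by positivity))
    calc (n:ℝ) * (kf N R (u, u)).sq x
        ≤ n * (30000 / (n:ℝ) ^ 2 * (1152 * 5586 * (((4 * n + 2 : ℕ) : ℝ) + 2))) :=
          mul_le_mul_of_nonneg_left h3 (by positivity)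
      _ = 30000 * (1152 * 5586 * ((4 * n + 4) / n)) := by push_cast; field_simp; ring
      _ ≤ _ := by
          have : (4 * (n:ℝ) + 4) / n ≤ 5 := by rw [div_le_iff₀ (by linarith)]; linarith
          gcongr
  · have h3 := bx_l1 (bx_trans h1 hy)
    refine kf_rl R (AL.mem_cnr.2 (Or.inl rfl)) (bx_dia hun (by lia)) (by push_cast at h3; lia)
      (fun e => h2 ?_) fun e => h2 ?_
    · simp only at e
      rw [mem_bx] at *
      simp only [Prod.fst_zero, Prod.snd_zero, e] at *
      push_cast at *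
      lia
    · simp only at e
      rw [mem_bx] at *
      simp only [Prod.fst_zero, Prod.snd_zero, e, Prod.fst_add, Prod.snd_add] at *
      push_cast at *
      lia
  · have h3 := hin f hf
    apply h2
    rw [mem_bx] at *
    simp only [Prod.fst_zero, Prod.snd_zero] at *
    push_cast at *
    lia

end Vale.Agent.P144P
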