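import Vale.Agent.P144P.Defs2

/-!
The correlations hardly depend on the size of the diamond.
-/

namespace Vale.Agent.P144P.Two

open Finset Filter Topology Vale.Agent.P144 Vale.Agent.P144.AL Vale.Agent.P144Z
open Vale.Agent.P144.H436 (nn MM spA cl Good0)

/-- Pfaffians of bounded kernels are bounded and Lipschitz. -/
theorem Pf_lip {α : Type*} {B : ℝ} (hB : 0 ≤ B) (n : ℕ) : ∃ C : ℝ, 1 ≤ C ∧ ∀ l : List α,
    l.length ≤ n → ∀ (K K' : α → α → ℝ) (ε : ℝ), 0 ≤ ε → ε ≤ 1 →
    (∀ x y, [x, y].Sublist l → |K x y| ≤ B ∧ |K' x y - K x y| ≤ ε) →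
    |Pf K l| ≤ C ∧ |Pf K' l - Pf K l| ≤ C * ε := by
  induction n with
  | zero =>
    refine ⟨1, le_rfl, fun l hl K K' ε h0 _ _ => ?_⟩
    obtain rfl : l = [] := List.length_eq_zero_iff.1 (Nat.le_zero.1 hl)
    rw [Pf, Pf]
    simp [h0]
  | succ n ih =>
    obtain ⟨C, hC, ih⟩ := ih
    have hn : (0:ℝ) ≤ n := Nat.cast_nonneg n
    have hD : 1 ≤ (B + 2) * C := by nlinarith
    refine ⟨(n + 1) * ((B + 2) * C), by nlinarith, fun l hl K K' ε h0 h1 h => ?_⟩
    cases l with
    | nil =>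
      rw [Pf, Pf]
      refine ⟨by rw [abs_one]; nlinarith, ?_⟩
      rw [sub_self, abs_zero]
      positivity
    | cons c l =>
      have hl' : l.length ≤ n := by simpa using hl
      have hlr : (l.length : ℝ) ≤ n + 1 := by
        have : (l.length : ℝ) ≤ n := by exact_mod_cast hl'
        linarith
      have key : ∀ j : Fin l.length,
          |(-1 : ℝ) ^ (j : ℕ) * K c l[j] * Pf K (l.eraseIdx j)| ≤ (B + 2) * C ∧
          |(-1 : ℝ) ^ (j : ℕ) * K' c l[j] * Pf K' (l.eraseIdx j) -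
            (-1 : ℝ) ^ (j : ℕ) * K c l[j] * Pf K (l.eraseIdx j)| ≤ (B + 2) * C * ε := by
        intro j
        obtain ⟨a1, a2⟩ := h c l[j]
          ((List.cons_sublist_cons).2 (List.singleton_sublist.2 (List.getElem_mem j.2)))
        obtain ⟨b1, b2⟩ := ih (l.eraseIdx j) ((List.eraseIdx_sublist l j).length_le.trans hl')
          K K' ε h0 h1 fun x y hxy =>
            h x y ((hxy.trans (List.eraseIdx_sublist l j)).trans (List.sublist_cons_self c l))
        generalize K c l[j] = x at *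
        generalize K' c l[j] = x' at *
        generalize Pf K (l.eraseIdx j) = P at *
        generalize Pf K' (l.eraseIdx j) = P' at *
        have hs : |(-1 : ℝ) ^ (j : ℕ)| = 1 := by rw [abs_pow, abs_neg, abs_one, one_pow]
        constructor
        · rw [abs_mul, abs_mul, hs, one_mul]
          have := mul_le_mul a1 b1 (abs_nonneg _) hB
          nlinarith
        · have e : (-1 : ℝ) ^ (j : ℕ) * x' * P' - (-1 : ℝ) ^ (j : ℕ) * x * P =
              (-1 : ℝ) ^ (j : ℕ) * ((x' - x) * P + ((x' - x) * (P' - P) + x * (P' - P))) := by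
            ring
          rw [e, abs_mul, hs, one_mul]
          have c1 : |(x' - x) * P| ≤ ε * C := by
            rw [abs_mul]; exact mul_le_mul a2 b1 (abs_nonneg _) h0
          have c2 : |(x' - x) * (P' - P)| ≤ 1 * (C * ε) := by
            rw [abs_mul]; exact mul_le_mul (a2.trans h1) b2 (abs_nonneg _) zero_le_one
          have c3 : |x * (P' - P)| ≤ B * (C * ε) := by
            rw [abs_mul]; exact mul_le_mul a1 b2 (abs_nonneg _) hB
          have c4 := abs_add_le ((x' - x) * P) ((x' - x) * (P' - P) + x * (P' - P))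
          have c5 := abs_add_le ((x' - x) * (P' - P)) (x * (P' - P))
          nlinarith
      rw [Pf, Pf, ← sum_sub_distrib]
      constructor
      · refine (abs_sum_le_sum_abs _ _).trans ((sum_le_sum fun j _ => (key j).1).trans ?_)
        rw [sum_const, card_univ, Fintype.card_fin, nsmul_eq_mul]
        exact mul_le_mul_of_nonneg_right hlr (by linarith)
      · refine (abs_sum_le_sum_abs _ _).trans ((sum_le_sum fun j _ => (key j).2).trans ?_)
        rw [sum_const, card_univ, Fintype.card_fin, nsmul_eq_mul, mul_assoc ((n:ℝ) + 1)]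
        exact mul_le_mul_of_nonneg_right hlr (mul_nonneg (by linarith) h0)

/-- Moving one disorder costs a factor which does not depend on the volume. -/
theorem QQ_move (f g : Site) : ∃ c : ℝ, 0 < c ∧ ∀ (Λ : Finset Site) (R : Multiset Site),
    QQ Λ (g ::ₘ R) 0 ≤ c * QQ Λ (f ::ₘ R) 0 := by
  have h0 : (0:ℝ) < √2 + 1 := by positivity
  have gen : ∀ (F : ℤ → Finset Site → Multiset Site → ℝ),
      (∀ j Λ R, F j Λ R ≤ (√2 + 1) * F (j + 1) Λ R ∧ F (j + 1) Λ R ≤ (√2 + 1) * F j Λ R) →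
      ∀ j k : ℤ, ∃ c : ℝ, 0 < c ∧ ∀ Λ R, F k Λ R ≤ c * F j Λ R := by
    intro F hF j k
    induction k using Int.inductionOn' (b := j) with
    | zero => exact ⟨1, one_pos, fun _ _ => by rw [one_mul]⟩
    | succ k _ ih =>
      obtain ⟨c, hc, ih⟩ := ih
      refine ⟨(√2 + 1) * c, mul_pos h0 hc, fun Λ R => (hF k Λ R).2.trans ?_⟩
      rw [mul_assoc]
      exact mul_le_mul_of_nonneg_left (ih Λ R) h0.le
    | pred k _ ih =>
      obtain ⟨c, hc, ih⟩ := ih
      refine ⟨(√2 + 1) * c, mul_pos h0 hc, fun Λ R => (hF (k - 1) Λ R).1.trans ?_⟩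
      rw [mul_assoc, sub_add_cancel]
      exact mul_le_mul_of_nonneg_left (ih Λ R) h0.le
  obtain ⟨c1, h1, e1⟩ := gen (fun j Λ R => QQ Λ ((g.1, j) ::ₘ R) 0)
    (fun j Λ R => QQ_moveV Λ R g.1 j) f.2 g.2
  obtain ⟨c2, h2, e2⟩ := gen (fun i Λ R => QQ Λ ((i, f.2) ::ₘ R) 0)
    (fun i Λ R => QQ_moveH Λ R i f.2) f.1 g.1
  refine ⟨c1 * c2, mul_pos h1 h2, fun Λ R => (e1 Λ R).trans ?_⟩
  rw [mul_assoc]
  exact mul_le_mul_of_nonneg_left (e2 Λ R) h1.le

/-- A lower bound for an even number of disorders, uniform in the volume. -/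
theorem MM_lower (R : Multiset Site) (hR : Even R.card) : ∃ c : ℝ, 0 < c ∧ ∀ Λ, c ≤ MM Λ R := by
  obtain ⟨k, hk⟩ := hR
  induction k generalizing R with
  | zero =>
    obtain rfl : R = 0 := Multiset.card_eq_zero.1 hk
    exact ⟨1, one_pos, fun Λ => (div_self (QQ_pos Λ 0).ne').ge⟩
  | succ k ih =>
    obtain ⟨f, hf⟩ := Multiset.card_pos_iff_exists_mem.1 (show 0 < R.card by omega)
    obtain ⟨R₁, rfl⟩ := Multiset.exists_cons_of_mem hf
    rw [Multiset.card_cons] at hk
    obtain ⟨g, hg⟩ := Multiset.card_pos_iff_exists_mem.1 (show 0 < R₁.card by omega)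
    obtain ⟨R₂, rfl⟩ := Multiset.exists_cons_of_mem hg
    rw [Multiset.card_cons] at hk
    obtain ⟨c, hc, h⟩ := ih R₂ (by omega)
    obtain ⟨d, hd, e⟩ := QQ_move f g
    refine ⟨c / d, div_pos hc hd, fun Λ => ?_⟩
    have h1 := e Λ (g ::ₘ R₂)
    rw [QQ_dis_pair] at h1
    have h2 := h Λ
    unfold MM at h2 ⊢
    rw [div_le_iff₀ hd, div_mul_eq_mul_div, mul_comm]
    exact h2.trans (div_le_div_of_nonneg_right h1 (QQ_pos Λ 0).le)

/-- Kramers-Wannier duality for a set of spins. -/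
theorem plus_set {J : ℝ} (hJ : 0 < J) (M : ℕ) (A : Finset Site) :
    gibbs J 0 (fun _ => 0) (Kc / J) (some bcp) (St.fb M) (spA A) = MM (box M) A.val := by
  obtain ⟨C, hC, h⟩ := St.weight_plus hJ M
  rw [St.MM_faces, ← mul_div_mul_left (∑ S ∈ (St.fb M).powerset, _) _ hC.ne', mul_sum, mul_sum]
  have e : ∀ g : Finset Site → ℝ, ∑ T ∈ (St.fb M).powerset, g T
      = ∑ S ∈ (St.fb M).powerset, g (St.fb M \ S) := by
    intro g
    refine sum_nbij' (fun T => St.fb M \ T) (fun T => St.fb M \ T) (fun T _ => by simp)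
      (fun T _ => by simp) (fun T hT => ?_) (fun T hT => ?_) (fun T hT => ?_)
    · exact Finset.sdiff_sdiff_eq_self (mem_powerset.1 hT)
    · exact Finset.sdiff_sdiff_eq_self (mem_powerset.1 hT)
    · rw [Finset.sdiff_sdiff_eq_self (mem_powerset.1 hT)]
  simp only [gibbs, P144.expect]
  rw [e, e fun T => Real.exp _]
  congr 1
  · refine sum_congr rfl fun S hS => ?_
    rw [h S (mem_powerset.1 hS)]
    have : spA A (P144.ext (St.fb M) bcp (St.fb M \ S)) =
        (A.val.map fun r => if r ∈ S then (-1:ℝ) else 1).prod := by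
      unfold spA
      rw [Finset.prod_eq_multiset_prod]
      congr 1
      exact Multiset.map_congr rfl fun x _ => St.sp_ext_sdiff (mem_powerset.1 hS) x
    rw [this]
    ring
  · exact sum_congr rfl fun S hS => h S (mem_powerset.1 hS)

theorem box_fb {M M' : ℕ} (h : M + 1 ≤ M') : box M ⊆ St.fb M' := by
  intro x hx
  rw [P144.mem_box] at hx
  rw [St.mem_fb]
  omega

theorem box_dia {M N : ℕ} (h : 2 * M ≤ N) : box M ⊆ dia N := by
  intro x hx
  rw [H436.mem_box] at hx
  rw [mem_dia]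
  omega

theorem dia_mono {N N' : ℕ} (h : N ≤ N') : dia N ⊆ dia N' := by
  intro x hx
  rw [mem_dia] at hx ⊢
  omega

theorem cl_le_MM {J : ℝ} (hJ : 0 < J) (A Λ : Finset Site) : cl (Kc / J) J A ≤ MM Λ A.val := by
  refine le_of_forall_pos_le_add fun η hη => ?_
  obtain ⟨M₀, h0⟩ := St.unif hJ A hη
  obtain ⟨M, h1, h2⟩ := ((H436.subset_box Λ).and (eventually_ge_atTop (M₀ + 1))).exists
  have h3 := (abs_le.1 (h0 _ (box_fb h2) (fun _ => 0) (some bcp))).1
  rw [plus_set hJ] at h3
  have h4 := H436.MM_anti h1 A.val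
  linarith

/-- The disorder correlations of two diamonds, given the quotients of spins by disorders. -/
theorem ratio {J : ℝ} (hJ : 0 < J) {A : Finset Site} (hA : Even A.card) {δ : ℝ} {N : ℕ}
    (hN : A ⊆ dia N) (q : ℕ → ℝ) (hq : ∀ N', N ≤ N' → fcor J (dia N') A = MM (dia N') A.val * q N')
    (hδ : ∀ N', N ≤ N' → |q N' - q N| ≤ δ) (Λ : Finset Site) :
    (1 - δ) * MM (dia N) A.val ≤ MM Λ A.val := by
  obtain ⟨c, hc, hl⟩ := MM_lower A.val hA
  have h1 : 1 - δ ≤ q N := by
    refine le_of_forall_pos_le_add fun η hη => ?_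
    obtain ⟨M₀, h0⟩ := St.unif hJ A (half_pos (mul_pos hc hη))
    set N' := max N (2 * (M₀ + 1)) with hN'
    have a1 := (abs_le.1 (h0 (dia N') (box_dia (by omega)) (fun _ => 0) none)).1
    have a2 := (abs_le.1 (h0 _ (box_fb (le_refl (M₀ + 1))) (fun _ => 0) (some bcp))).2
    rw [plus_set hJ] at a2
    have a3 := H436.MM_anti (box_dia (show 2 * (M₀ + 1) ≤ N' by omega)) A.val
    have a4 : gibbs J 0 (fun _ => 0) (Kc / J) none (dia N') (spA A) = MM (dia N') A.val * q N' :=
      hq N' (by omega)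
    have a5 := hl (dia N')
    have a6 := (abs_le.1 (hδ N' (by omega))).2
    have a7 : 1 - η ≤ q N' := by
      refine le_of_mul_le_mul_left ?_ (hc.trans_le a5)
      have := mul_le_mul_of_nonneg_right a5 hη.le
      nlinarith
    linarith
  have h2 : fcor J (dia N) A ≤ cl (Kc / J) J A := by
    rw [H436.fcor_eq]
    exact H436.cor_le_cl (div_pos H436.kc_pos hJ).le hJ.le hN
  have h3 := cl_le_MM hJ A Λ
  rw [hq N le_rfl] at h2
  have := mul_le_mul_of_nonneg_right h1 (hc.le.trans (hl (dia N)))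
  linarith

section

variable (p : Pts)

theorem wt_prod {a : ℝ} (ha : 0 < a) (ks : List (Fin p.m)) :
    ((lbs (n := p.n) ks []).map (wt p a)).prod = a⁻¹ ^ ks.length := by
  unfold lbs
  rw [List.map_append, List.prod_append, List.map_map, List.map_nil, List.append_nil,
    list_prod_one _ (wt p a ∘ Lb.src) fun _ _ => rfl, one_mul]
  induction ks with
  | nil => simp [flat]
  | cons k ks ih =>
    rw [flat_cons, List.map_cons, List.map_cons, List.prod_cons, List.prod_cons, ih,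
      List.length_cons, pow_succ]
    simp only [wt]
    rw [← mul_assoc, ← mul_inv, Real.mul_self_sqrt ha.le, mul_comm]

/-- The correlations as Pfaffians. -/
theorem cN_eq {J : ℝ} (hJ : 0 < J) {a : ℝ} (ha : 0 < a) {N : ℕ}
    (hs : Sep N (fun i => fl a (p.x i)) (fun k => fl a (p.y k))) (hN : 1 ≤ N) :
    cN J a N p = (a ^ (-(1 / 8) : ℝ)) ^ p.n * MM (dia N) (Rp p a) *
      (SG [] (srcs fun i => fl a (p.x i)) *
        Pf (KW p a N) (lbs (univ : Finset (Fin p.m)).toList [])) := by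
  have hmean : ∀ k, gibbs J 0 (fun _ => 0) (Kc / J) none (dia N)
      (fun τ => sp (τ (fl a (p.y k))) * sp (τ (fl a (p.y k) + dir (p.j k)))) = tN p a N k :=
    fun k => mean_eq (N := N) hJ (x := fl a (p.y k)) (p.j k) (hs.v_in k)
  have hcm : ∀ (c : ℝ) (F : Config → ℝ), gibbs J 0 (fun _ => 0) (Kc / J) none (dia N)
      (fun σ => c * F σ) = c * gibbs J 0 (fun _ => 0) (Kc / J) none (dia N) F := by
    intro c F
    unfold gibbs P144.expect
    simp only [mul_assoc, ← Finset.mul_sum, mul_div_assoc]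
  unfold cN corr
  simp only [hmean]
  have e1 : (fun σ : Config => (∏ i, a ^ (-(1 / 8) : ℝ) * sp (σ (fl a (p.x i)))) *
      ∏ k, a⁻¹ * (sp (σ (fl a (p.y k))) * sp (σ (fl a (p.y k) + dir (p.j k))) - tN p a N k)) =
      fun σ => ((a ^ (-(1 / 8) : ℝ)) ^ p.n * a⁻¹ ^ p.m) *
        (GG N (fun i => fl a (p.x i)) (∅ : Finset (Fin 4)).toList σ *
          ((univ : Finset (Fin p.m)).toList.map fun k =>
            AL.XX (fun k => fl a (p.y k)) p.j k σ - tN p a N k).prod) := by
    funext σ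
    rw [GG_eq, prod_mul_distrib, prod_mul_distrib, prod_const, prod_const, card_univ, card_univ,
      Fintype.card_fin, Fintype.card_fin, Finset.prod_map_toList, prod_empty]
    unfold AL.XX
    ring
  rw [e1, hcm, toList_empty, mix hJ hs hN (nodup_toList _) List.nodup_nil (tN p a N),
    List.map_nil, List.append_nil]
  by_cases hev : Even (lbs (n := p.n) (univ : Finset (Fin p.m)).toList []).length
  · unfold KW
    rw [Pf_scale _ _ _ hev, wt_prod p ha, length_toList, card_univ, Fintype.card_fin]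
    unfold Rp
    ring
  · rw [Pf_odd _ _ hev, Pf_odd _ _ hev]
    ring

theorem fl_div {R : ℝ} (hR : 0 < R) (a : ℝ) (z : ℂ) : fl (a / R) (z / R) = fl a z := by
  unfold fl
  rw [Complex.div_ofReal_re, Complex.div_ofReal_im, div_div_div_cancel_right₀ hR.ne',
    div_div_div_cancel_right₀ hR.ne']

theorem shr_good (hp : Dist p) : ∃ R : ℝ, 1 ≤ R ∧ Good0 (shr p R) := by
  set S : ℝ := ∑ i, ‖p.x i‖ + ∑ k, ‖p.y k‖ with hS
  have h1 : 0 ≤ ∑ i, ‖p.x i‖ := sum_nonneg fun _ _ => norm_nonneg _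
  have h2 : 0 ≤ ∑ k, ‖p.y k‖ := sum_nonneg fun _ _ => norm_nonneg _
  have hR : 0 < 2 * S + 1 := by linarith
  have hd : ∀ z : ℂ, ‖z‖ ≤ S → z / ((2 * S + 1 : ℝ) : ℂ) ∈ Dia := by
    intro z hz
    show |(z / ((2 * S + 1 : ℝ) : ℂ)).re| + |(z / ((2 * S + 1 : ℝ) : ℂ)).im| < 1
    rw [Complex.div_ofReal_re, Complex.div_ofReal_im, abs_div, abs_div, abs_of_pos hR, ← add_div,
      div_lt_one hR]
    linarith [Complex.abs_re_le_norm z, Complex.abs_im_le_norm z]
  refine ⟨2 * S + 1, by linarith, fun i : Fin p.n => hd _ ?_, fun k : Fin p.m => hd _ ?_, ?_⟩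
  · have := single_le_sum (f := fun i => ‖p.x i‖) (fun _ _ => norm_nonneg _) (mem_univ i)
    linarith
  · have := single_le_sum (f := fun k => ‖p.y k‖) (fun _ _ => norm_nonneg _) (mem_univ k)
    linarith
  · have h0 : ((2 * S + 1 : ℝ) : ℂ) ≠ 0 := by exact_mod_cast hR.ne'
    intro s t hst
    apply hp
    rcases s with s | s <;> rcases t with t | t <;> exact (div_left_inj' h0).1 hst

/-- Separation of the points and the bound for the disorder correlation. -/
theorem base_ev {J : ℝ} (hJ : 0 < J) (hp : Dist p) : ∃ R C : ℝ, 0 < C ∧ ∀ᶠ a in 𝓝[>] (0:ℝ),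
    0 < a ∧ ∀ N : ℕ, R ≤ a * N → Sep N (fun i => fl a (p.x i)) (fun k => fl a (p.y k)) ∧ 1 ≤ N ∧
      (a ^ (-(1 / 8) : ℝ)) ^ p.n * MM (dia N) (Rp p a) ≤ C := by
  classical
  obtain ⟨R, hR, hg⟩ := shr_good p hp
  have hR0 : 0 < R := by linarith
  have hx : Function.Injective (shr p R).x :=
    fun i i' h => Sum.inl_injective (hg.2.2 (by simpa using h))
  obtain ⟨C, hC, hb⟩ := H436.norm_bdd hJ (H365.merge hJ) (X := univ.image (shr p R).x) (by
    intro z hz
    obtain ⟨i, _, rfl⟩ := mem_image.1 hz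
    exact hg.1 i)
  have hdiv : Tendsto (fun a : ℝ => a / R) (𝓝[>] 0) (𝓝[>] 0) := by
    refine tendsto_nhdsWithin_iff.2 ⟨?_, ?_⟩
    · have : Tendsto (fun a : ℝ => a / R) (𝓝 0) (𝓝 (0 / R)) := tendsto_id.div_const R
      rw [zero_div] at this
      exact this.mono_left nhdsWithin_le_nhds
    · filter_upwards [self_mem_nhdsWithin] with a ha using div_pos ha hR0
  refine ⟨R, C, hC, ?_⟩
  filter_upwards [self_mem_nhdsWithin, hdiv.eventually hb, hdiv.eventually (sep_ev _ hg)]
    with a ha h1 h2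
  have ha : 0 < a := ha
  refine ⟨ha, fun N hN => ?_⟩
  have hle : nn (a / R) ≤ N := by
    unfold nn
    have : ⌈1 / (a / R)⌉₊ ≤ N := by
      rw [Nat.ceil_le, one_div_div, div_le_iff₀ ha, mul_comm]
      exact hN
    omega
  have e1 : (fun i => fl (a / R) ((shr p R).x i)) = fun i => fl a (p.x i) :=
    funext fun i => fl_div hR0 a _
  have e2 : (fun k => fl (a / R) ((shr p R).y k)) = fun k => fl a (p.y k) :=
    funext fun k => fl_div hR0 a _
  have e3 : Rp (shr p R) (a / R) = Rp p a := by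
    unfold Rp
    rw [e1]
    rfl
  rw [e1, e2] at h2
  rw [Gn_eq _ hx (div_pos ha hR0), e3] at h1
  have hz : (nn (a / R) : ℤ) ≤ N := by exact_mod_cast hle
  refine ⟨⟨fun i => (h2.1.u_in i).trans hz, fun k => (h2.1.v_in k).trans hz, h2.1.u_inj,
    h2.1.v_inj, h2.1.uv⟩, h2.2.trans hle, le_trans ?_ h1⟩
  refine mul_le_mul ?_ (H436.MM_anti (dia_mono hle) _)
    (div_pos (QQ_pos _ _) (QQ_pos _ _)).le (by positivity)
  refine pow_le_pow_left₀ (by positivity) ?_ _
  exact Real.rpow_le_rpow_of_nonpos (div_pos ha hR0) (div_le_self ha.le hR) (by norm_num)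

theorem KW_src (a : ℝ) (N : ℕ) {x y : Lb p.n p.m} (h : [x, y].Sublist (lbs (n := p.n) [] [])) :
    KW p a N x y = KK N (fun i => fl a (p.x i)) (fun k => fl a (p.y k)) p.j x y := by
  have hs : ∀ z ∈ lbs (n := p.n) ([] : List (Fin p.m)) [], ∃ i, z = Lb.src i := by
    intro z hz
    simp only [lbs, flat, List.flatMap_nil, List.map_nil, List.append_nil, List.mem_map] at hz
    obtain ⟨i, _, rfl⟩ := hz
    exact ⟨i, rfl⟩
  obtain ⟨i, rfl⟩ := hs x (h.subset (by simp))
  obtain ⟨i', rfl⟩ := hs y (h.subset (by simp))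
  unfold KW cenK
  simp [wt]

end

end Vale.Agent.P144P.Two

namespace Vale.Agent.P144P

open Finset Filter Topology Vale.Agent.P144 Vale.Agent.P144.AL Two
open Vale.Agent.P144.H436 (MM)

theorem two (hk : SKer) : STwo := by
  intro J hJ p hp ε hε
  obtain ⟨R, C, hC, hb⟩ := base_ev p hJ hp
  set L := lbs (n := p.n) (univ : Finset (Fin p.m)).toList [] with hL
  by_cases hev : Even p.n
  swap
  · refine ⟨R, ?_⟩
    have hodd : ¬ Even L.length := by
      rw [hL, lbs_length, List.length_nil, add_zero, Nat.even_add]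
      exact fun h => hev (h.2 (even_two_mul _))
    filter_upwards [hb] with a ⟨ha, h⟩ N N' h1 h2
    have h3 : R ≤ a * N' := h1.trans (mul_le_mul_of_nonneg_left (by exact_mod_cast h2) ha.le)
    rw [cN_eq p hJ ha (h N h1).1 (h N h1).2.1, cN_eq p hJ ha (h N' h3).1 (h N' h3).2.1, ← hL,
      Pf_odd _ _ hodd, Pf_odd _ _ hodd]
    simpa using hε.le
  obtain ⟨B, hB⟩ := hk p hp hev
  obtain ⟨D, hD, hlip⟩ := Pf_lip (α := Lb p.n p.m) (abs_nonneg B) L.length
  have hD0 : 0 < D := by linarith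
  set η : ℝ := min 1 (ε / (C * D * (1 + D))) with hη
  have hη0 : 0 < η := lt_min one_pos (by positivity)
  have hη1 : η ≤ 1 := min_le_left _ _
  have hη2 : C * D * (1 + D) * η ≤ ε := by
    rw [mul_comm, ← le_div_iff₀ (by positivity)]
    exact min_le_right _ _
  obtain ⟨T, hT⟩ := hB η hη0
  refine ⟨max R T, ?_⟩
  filter_upwards [hb, hT] with a ⟨ha, h⟩ hK N N' h1 h2
  have hge : ∀ M : ℕ, N ≤ M → R ≤ a * M ∧ T ≤ a * M := fun M hM =>
    max_le_iff.1 (h1.trans (mul_le_mul_of_nonneg_left (by exact_mod_cast hM) ha.le))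
  have hP : ∀ l : List (Lb p.n p.m), l.Sublist L → ∀ M : ℕ, N ≤ M → |Pf (KW p a N) l| ≤ D ∧
      |Pf (KW p a M) l - Pf (KW p a N) l| ≤ D * η := fun l hl M hM =>
    hlip l hl.length_le _ _ η hη0.le hη1 fun x y hxy =>
      (hK N M (hge N le_rfl).2 (hge M hM).2 x y (hxy.trans hl)).imp_left
        fun h => h.trans (le_abs_self B)
  set u : Fin p.n → Site := fun i => fl a (p.x i) with hu
  have hs1 : |SG [] (srcs u)| = 1 := by
    have := SG_sq [] (srcs u)
    rw [← abs_mul_abs_self] at this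
    nlinarith [abs_nonneg (SG [] (srcs u))]
  have hN := h N (hge N le_rfl).1
  have hN' := h N' (hge N' h2).1
  set A : Finset Site := univ.map ⟨u, hN.1.u_inj⟩ with hA
  have hAv : A.val = Rp p a := by
    unfold Rp fcs srcs
    rw [List.map_map]
    rfl
  have hsub : (lbs (n := p.n) ([] : List (Fin p.m)) []).Sublist L := by
    rw [hL]
    unfold lbs
    exact List.Sublist.append_left (by simp [flat]) _
  have hrat := ratio hJ (A := A) (by rw [hA, card_map, card_univ, Fintype.card_fin]; exact hev)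
    (δ := D * η) (N := N) (fun x hx => by
      obtain ⟨i, _, rfl⟩ := mem_map.1 hx
      exact hN.1.cn_dia (j := p.j) (Lb.src i))
    (fun M => SG [] (srcs u) * Pf (KW p a M) (lbs [] [])) (fun M hM => by
      have hM' := h M (hge M hM).1
      have e := base' (j := p.j) hJ hM'.1 hM'.2.1 List.nodup_nil List.nodup_nil
      rw [List.map_nil, List.append_nil] at e
      rw [Pf_congr _ fun x y hxy => KW_src p a M hxy, hAv, ← mul_assoc]
      refine Eq.trans ?_ e
      unfold fcor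
      refine congrArg _ (funext fun σ => ?_)
      have := GG_eq (N := M) (u := u) ∅ σ
      rw [toList_empty] at this
      rw [this, hA, prod_map]
      simp)
    (fun M hM => by
      rw [← mul_sub, abs_mul, hs1, one_mul]
      exact (hP _ hsub M hM).2) (dia N')
  rw [hAv] at hrat
  have hanti := H436.MM_anti (dia_mono h2) (Rp p a)
  have hpos : 0 < MM (dia N') (Rp p a) := div_pos (QQ_pos _ _) (QQ_pos _ _)
  obtain ⟨p1, p2⟩ := hP L (List.Sublist.refl _) N' h2
  rw [cN_eq p hJ ha hN.1 hN.2.1, cN_eq p hJ ha hN'.1 hN'.2.1, ← hL]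
  have g1 := hN.2.2
  have g2 := hN'.2.2
  have hw : 0 < (a ^ (-(1 / 8) : ℝ)) ^ p.n := by positivity
  generalize (a ^ (-(1 / 8) : ℝ)) ^ p.n = w at hw g1 g2 ⊢
  generalize MM (dia N) (Rp p a) = M at hrat hanti g1 ⊢
  generalize MM (dia N') (Rp p a) = M' at hrat hanti hpos g2 ⊢
  generalize Pf (KW p a N) L = P at p1 p2 ⊢
  generalize Pf (KW p a N') L = P' at p2 ⊢
  have e : w * M' * (SG [] (srcs u) * P') - w * M * (SG [] (srcs u) * P) =
      SG [] (srcs u) * (w * M' * (P' - P) - w * (M - M') * P) := by ring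
  rw [e, abs_mul, hs1, one_mul]
  have c1 : |w * M' * (P' - P)| ≤ C * (D * η) := by
    rw [abs_mul, abs_of_pos (mul_pos hw hpos)]
    exact mul_le_mul g2 p2 (abs_nonneg _) hC.le
  have c2 : |w * (M - M') * P| ≤ D * η * C * D := by
    rw [abs_mul, abs_of_nonneg (mul_nonneg hw.le (sub_nonneg.2 hanti))]
    refine mul_le_mul ?_ p1 (abs_nonneg _) (by positivity)
    calc w * (M - M') ≤ w * (D * η * M) := mul_le_mul_of_nonneg_left (by linarith) hw.le
      _ = D * η * (w * M) := by ring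
      _ ≤ D * η * C := mul_le_mul_of_nonneg_left g1 (by positivity)
  have c3 := abs_sub (w * M' * (P' - P)) (w * (M - M') * P)
  nlinarith

end Vale.Agent.P144P
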