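import Vale.Agent.P144P.Bulk
import Vale.Agent.P144P.Core
import Vale.Agent.P144P.Fin
import Vale.Agent.P144P.Gain2
import Vale.Agent.P144P.Ker2
import Vale.Agent.P144P.Osc
import Vale.Agent.P144P.Out
import Vale.Agent.P144P.Prod
import Vale.Agent.P144P.Pw
import Vale.Agent.P144P.Src
import Vale.Agent.P144P.Two

/-!
All scaling limits of the critical nearest-neighbour model exist in the plane.
-/

namespace Vale.Agent.P144P

theorem score : SCore := core pw (inn osc prod) (sgain (out osc prod))

theorem sker : SKer := ker score (src pw) (bulk pw)

theorem plane_all : SAll := all (two sker)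

end Vale.Agent.P144P
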