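import Vale.Agent.P144P.Defs

/-!
The relations of the kernels, and the removal of the signs.
-/

namespace Vale.Agent.P144P

open Finset Vale.Agent.P144
open Vale.Agent.P144.H170 (Pt bx D lap CR4 mem_bx bx_mono)

theorem bx0 {x : Pt} {m : ℕ} : x ∈ bx 0 m ↔ |x.1| ≤ m ∧ |x.2| ≤ m := by
  rw [mem_bx, abs_le, abs_le]
  simp only [Prod.fst_zero, Prod.snd_zero]
  lia

theorem bx_l1 {x : Pt} {m : ℕ} (h : x ∈ bx 0 m) : |x.1| + |x.2| ≤ 2 * m := by
  rw [bx0] at h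
  lia

theorem bx_dia {x : Pt} {m N : ℕ} (h : x ∈ bx 0 m) (hN : 2 * m ≤ N) : x ∈ dia N := by
  have := bx_l1 h
  rw [AL.mem_dia]
  lia

theorem bx_trans {x y c : Pt} {m k : ℕ} (h : x ∈ bx c m) (h' : y ∈ bx x k) : y ∈ bx c (m + k) := by
  rw [mem_bx] at *
  push_cast
  lia

theorem Ptw.nonneg {F : Fld} {n : ℕ} {s : ℝ} (h : Ptw F n s) (hn : 0 < n) : 0 ≤ s := by
  refine le_trans (mul_nonneg (Nat.cast_nonneg n) (F.sq_nn _)) (h ((7 * n : ℕ), 0) ?_ ?_)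
  · rw [bx0]; simp only [abs_zero]; rw [abs_of_nonneg (by positivity)]; push_cast; lia
  · rw [bx0]; simp only [abs_zero]; rw [abs_of_nonneg (by positivity)]; push_cast; lia

theorem Ptw.mono {F : Fld} {n : ℕ} {s s' : ℝ} (h : Ptw F n s) (hs : s ≤ s') : Ptw F n s' :=
  fun x h1 h2 => (h x h1 h2).trans hs

open Classical in
/-- The gauge that turns the cuts of the disorders in `S`. -/
noncomputable def gg (S : Site → Prop) (R : Multiset Site) (i : ℤ) : ℝ :=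
  (R.map fun f => if S f ∧ i ≤ f.1 then (-1 : ℝ) else 1).prod

theorem gg_sq (S : Site → Prop) (R : Multiset Site) (i : ℤ) : gg S R i * gg S R i = 1 := by
  unfold gg
  rw [← Multiset.prod_map_mul]
  refine Multiset.prod_eq_one fun x hx => ?_
  obtain ⟨f, -, rfl⟩ := Multiset.mem_map.1 hx
  split_ifs <;> norm_num

theorem tau_gg {S : Site → Prop} {R : Multiset Site} {y : Pt}
    (h : ∀ f ∈ R, y.1 = f.1 → (S f ↔ f.2 ≤ y.2)) :
    AL.tauR R y = gg S R y.1 * gg S R (y.1 + 1) := by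
  unfold AL.tauR AL.cutS gg
  rw [← Multiset.prod_map_mul]
  congr 1
  refine Multiset.map_congr rfl fun f hf => ?_
  have h1 := h f hf
  unfold AL.cut1
  simp only
  by_cases hS : S f
  · simp only [hS, true_and, true_iff] at h1 ⊢
    split_ifs <;> first | (exfalso; lia) | norm_num
  · simp only [hS, false_and, false_iff, if_false] at h1 ⊢
    split_ifs <;> first | (exfalso; lia) | norm_num

/-- The field in the gauge `gg S R`. -/
noncomputable def Fld.gau (F : Fld) (S : Site → Prop) (R : Multiset Site) : Fld :=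
  ⟨fun x => gg S R x.1 * F.A x, fun x => gg S R (x.1 + 1) * F.B x, fun x => gg S R x.1 * F.C x,
    fun x => gg S R (x.1 + 1) * F.E x⟩

theorem Fld.gau_sq (F : Fld) (S : Site → Prop) (R : Multiset Site) (x : Pt) :
    (F.gau S R).sq x = F.sq x := by
  have h1 := gg_sq S R x.1
  have h2 := gg_sq S R (x.1 + 1)
  unfold Fld.sq Fld.gau
  simp only
  linear_combination (F.A x ^ 2 + F.C x ^ 2) * h1 + (F.B x ^ 2 + F.E x ^ 2) * h2

/-- The relations without signs. -/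
theorem clean {F : Fld} {S : Site → Prop} {R : Multiset Site} {y : Pt} (hF : F.Rl R y)
    (h : ∀ f ∈ R, y.1 = f.1 → (S f ↔ f.2 ≤ y.2)) :
    CR4 (F.gau S R).A (F.gau S R).B (F.gau S R).C (F.gau S R).E y := by
  obtain ⟨k1, k2, k3, k4⟩ := hF
  rw [tau_gg h] at k1 k2
  have h1 := gg_sq S R y.1
  have h2 := gg_sq S R (y.1 + 1)
  unfold CR4 Fld.gau
  simp only [Prod.fst_add, add_zero]
  refine ⟨?_, ?_, ?_, ?_⟩
  · rw [k1]; linear_combination (-(gg S R (y.1 + 1) * F.B (y + (0, 1)))) * h1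
  · rw [k2]; linear_combination (-(gg S R y.1 * F.A (y + (0, 1)))) * h2
  · rw [k3]; ring
  · rw [k4]; ring

section

variable {N N' : ℕ} (R : Multiset Site) {y : AL.Cn}

theorem edges {i j : ℤ} (hx : |i| + |j| + 2 ≤ N) :
    ((i, j + 1) : Site) ∈ hor (dia N) ∧ ((i + 1, j) : Site) ∈ ver (dia N) := by
  have h1 := abs_add_le i 1
  have h2 := abs_add_le j 1
  rw [abs_one] at h1 h2
  rw [mem_hor, mem_ver]
  simp only [AL.mem_dia]
  lia

theorem one_ok (hc : y.1 ∈ AL.cnr y.2) (hy : y.1 ∈ dia N) :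
    ∀ c ∈ [y], c.1 ∈ AL.cnr c.2 ∧ c.1 ∈ dia N := by
  intro c h
  rw [List.mem_singleton] at h
  subst h
  exact ⟨hc, hy⟩

theorem Sl_ne (Λ : Finset Site) {c : AL.Cn} (h : c ≠ y) : AL.Sl Λ R [y] c = AL.Tl Λ R [y] c := by
  rw [AL.Sl_eq Λ R [y] (List.nodup_singleton _) c, if_neg (by simpa using h), mul_one]

/-- The relations away from the source. -/
theorem kf_rl (hc : y.1 ∈ AL.cnr y.2) (hy : y.1 ∈ dia N) {x : Pt} (hx : |x.1| + |x.2| + 2 ≤ N)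
    (h1 : y.2 ≠ x) (h2 : y.2 ≠ x + (0, 1)) : (kf N R y).Rl R x := by
  obtain ⟨i, j⟩ := x
  obtain ⟨e1, e2⟩ := edges hx
  have hV := AL.Sl_V R [y] (one_ok hc hy) e1
  have hH := AL.Tl_H R [y] (one_ok hc hy) e2
  have n1 : ∀ v : Site, ((v, (i, j)) : AL.Cn) ≠ y := fun v h => h1 (by rw [← h])
  have n2 : ∀ v : Site, ((v, (i, j + 1)) : AL.Cn) ≠ y := fun v h => h2 (by rw [← h]; simp)
  rw [Sl_ne R _ (n1 _), Sl_ne R _ (n1 _), Sl_ne R _ (n2 _), Sl_ne R _ (n2 _)] at hV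
  unfold Fld.Rl H170.Rel kf
  simp only [Prod.mk_add_mk, add_zero, one_mul]
  exact ⟨hV.1, hV.2, hH.1, hH.2⟩

theorem Tl_self (hy : y.1 ∈ dia N) : AL.Tl (dia N) R [y] y = AL.ep y y := by
  unfold AL.Tl
  rw [AL.Xl_one _ R hy]
  simp

theorem Sl_sub (hy : y.1 ∈ dia N) (hy' : y.1 ∈ dia N') (c : AL.Cn) :
    AL.Tl (dia N') R [y] c - AL.Tl (dia N) R [y] c =
      AL.Sl (dia N') R [y] c - AL.Sl (dia N) R [y] c := by
  by_cases h : c = y
  · subst h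
    rw [AL.Sl_eq _ R [c] (List.nodup_singleton _) c, AL.Sl_eq _ R [c] (List.nodup_singleton _) c,
      Tl_self R hy, Tl_self R hy']
    ring
  · rw [Sl_ne R _ h, Sl_ne R _ h]

/-- The difference of two kernels has no source. -/
theorem kf_sub_rl (hc : y.1 ∈ AL.cnr y.2) (hy : y.1 ∈ dia N) (hy' : y.1 ∈ dia N') {x : Pt}
    (hx : |x.1| + |x.2| + 2 ≤ N) (hx' : |x.1| + |x.2| + 2 ≤ N') :
    ((kf N' R y).sub (kf N R y)).Rl R x := by
  obtain ⟨i, j⟩ := x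
  have hV := AL.Sl_V R [y] (one_ok hc hy) (edges hx).1
  have hH := AL.Tl_H R [y] (one_ok hc hy) (edges hx).2
  have hV' := AL.Sl_V R [y] (one_ok hc hy') (edges hx').1
  have hH' := AL.Tl_H R [y] (one_ok hc hy') (edges hx').2
  unfold Fld.Rl H170.Rel kf Fld.sub
  simp only [Prod.mk_add_mk, add_zero, one_mul]
  refine ⟨?_, ?_, ?_, ?_⟩
  · rw [Sl_sub R hy hy', Sl_sub R hy hy', Sl_sub R hy hy', hV.1, hV'.1]; ring
  · rw [Sl_sub R hy hy', Sl_sub R hy hy', Sl_sub R hy hy', hV.2, hV'.2]; ring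
  · rw [hH.1, hH'.1]; ring
  · rw [hH.2, hH'.2]; ring

theorem Tl_sq (Λ : Finset Site) (c : AL.Cn) : AL.Tl Λ R [y] c ^ 2 =
    (if c.1 ∈ Λ then AL.QQ Λ (c.2 ::ₘ y.2 ::ₘ R) (c.1 ::ₘ {y.1}) / AL.QQ Λ R 0 else 0) ^ 2 := by
  unfold AL.Tl AL.Xl
  have e1 : AL.fcs [y] + R = y.2 ::ₘ R := by
    rw [AL.fcs_cons, Multiset.cons_add]
    simp [AL.fcs]
  have e2 : AL.sps [y] = {y.1} := rfl
  rw [e1, e2, mul_pow]
  simp only [List.map_cons, List.map_nil, List.prod_cons, List.prod_nil, mul_one]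
  rw [pow_two (AL.ep c y), AL.ep_sq, one_mul]

/-- The squares are those of the spinor with the spin and the disorder of the source. -/
theorem kf_sq (x : Pt) : (kf N R y).sq x =
    AL.xA (dia N) (y.2 ::ₘ R) {y.1} (AL.QQ (dia N) R 0) x ^ 2 +
    AL.xB (dia N) (y.2 ::ₘ R) {y.1} (AL.QQ (dia N) R 0) x ^ 2 +
    AL.xC (dia N) (y.2 ::ₘ R) {y.1} (AL.QQ (dia N) R 0) x ^ 2 +
    AL.xD (dia N) (y.2 ::ₘ R) {y.1} (AL.QQ (dia N) R 0) x ^ 2 := by
  unfold Fld.sq kf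
  simp only [Tl_sq]
  rfl

/-- The spinor of a kernel, its `H`-function and its exceptional points. -/
theorem kf_spr {n : ℕ} (hn : 2 * n + 4 ≤ N) (h1 : y.1 ∈ bx 0 n) (h2 : y.2 ∈ bx 0 n)
    (hR : ∀ f ∈ R, f ∈ bx 0 n) : ∃ τ θ A B C E Hs Hf : Site → ℝ, ∃ P R' : Finset Site,
      AL.Spr (dia N) τ θ A B C E ∧ AL.IsH (dia N) A B C E Hs Hf ∧ AL.Exc N τ θ P R' ∅ ∧
      P ⊆ bx 0 n ∧ R' ⊆ bx 0 n ∧
      ∀ x, (kf N R y).sq x = A x ^ 2 + B x ^ 2 + C x ^ 2 + E x ^ 2 := by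
  have hy : y.1 ∈ dia N := bx_dia h1 (by lia)
  have hs := AL.spr_QQ (Λ := dia N) (y.2 ::ₘ R) (A := {y.1}) (by simpa using hy)
    (AL.QQ (dia N) R 0)
  obtain ⟨Hs, Hf, hH⟩ := hs.exists_H (AL.colConvex_dia N)
  have hR' : ∀ f ∈ (y.2 ::ₘ R).toFinset, f ∈ bx 0 n := by
    intro f hf
    rcases Multiset.mem_cons.1 (Multiset.mem_toFinset.1 hf) with rfl | h
    · exact h2
    · exact hR f h
  refine ⟨_, _, _, _, _, _, Hs, Hf, {y.1}, (y.2 ::ₘ R).toFinset, hs, hH,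
    ⟨fun i j h => AL.theA_step (by simpa using h),
      fun i j h => AL.tauR_step fun h' => h (Multiset.mem_toFinset.2 h'), ?_, ?_, empty_subset _,
      by simp, by simp⟩, by simpa using h1, hR', kf_sq R⟩
  · intro v hv
    rw [mem_singleton] at hv
    subst hv
    have := bx_l1 h1
    lia
  · intro v hv
    have := bx_l1 (hR' v hv)
    lia

/-- The values of the kernel. -/
theorem Wf_Tl {c : AL.Cn} (hc : c.1 ∈ dia N) :
    AL.Wf (dia N) R [c, y] = AL.Tl (dia N) R [y] c := by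
  unfold AL.Wf AL.Tl AL.Xl
  rw [if_pos hc, AL.fcs_cons c, AL.sps_cons c, Multiset.cons_add]
  simp only [AL.el, List.map_nil, List.prod_nil, List.map_cons, List.prod_cons]
  ring

theorem Tl_sub_sq {c : AL.Cn} (hc : c.1 ∈ AL.cnr c.2) :
    (AL.Tl (dia N') R [y] c - AL.Tl (dia N) R [y] c) ^ 2 ≤ ((kf N' R y).sub (kf N R y)).sq c.2 := by
  obtain ⟨v, f⟩ := c
  unfold Fld.sq Fld.sub kf
  simp only
  rcases AL.mem_cnr.1 hc with h | h | h | h <;> simp only at h <;> rw [h] <;> nlinarith [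
    sq_nonneg (AL.Tl (dia N') R [y] (f, f) - AL.Tl (dia N) R [y] (f, f)),
    sq_nonneg (AL.Tl (dia N') R [y] ((f.1 + 1, f.2), f) - AL.Tl (dia N) R [y] ((f.1 + 1, f.2), f)),
    sq_nonneg (AL.Tl (dia N') R [y] ((f.1, f.2 + 1), f) - AL.Tl (dia N) R [y] ((f.1, f.2 + 1), f)),
    sq_nonneg (AL.Tl (dia N') R [y] ((f.1 + 1, f.2 + 1), f) -
      AL.Tl (dia N) R [y] ((f.1 + 1, f.2 + 1), f))]

end

end Vale.Agent.P144P
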