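import Vale.Agent.P144P.Defs2
import Vale.Agent.P144P.Basic
import Vale.Agent.P144.H135.Bulk15

/-!
The kernel with the source in the bulk, in the diamond of the mesh.
-/

namespace Vale.Agent.P144P

open Finset Filter Topology Vale.Agent.P144
open Vale.Agent.P144.H170 (Pt bx mem_bx bx_mono rM lap)
open Vale.Agent.P144.H436 (nn)
open Vale.Agent.P144.H135 (Geo BD Ann CT nb cz rz bA bB bC bE)

/-- A bound along every ultrafilter is a bound along the filter. -/
theorem ultra_bdd {ι : Type*} {l : Filter ι} {P : ℝ → ι → Prop}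
    (mono : ∀ s t k, s ≤ t → P s k → P t k)
    (h : ∀ U : Ultrafilter ι, (U : Filter ι) ≤ l → ∃ s > 0, ∀ᶠ k in (U : Filter ι), P s k) :
    ∃ s > 0, ∀ᶠ k in l, P s k := by
  by_contra hcon
  have h1 : ∀ m : ℕ, NeBot (l ⊓ 𝓟 {k | ¬ P (m + 1) k}) := fun m =>
    frequently_iff_neBot.1 (not_eventually.1 fun h' => hcon ⟨m + 1, by positivity, h'⟩)
  have h2 : Antitone fun m : ℕ => l ⊓ 𝓟 {k | ¬ P (m + 1) k} := fun m m' hm =>
    inf_le_inf_left _ (principal_mono.2 fun k hk hk' =>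
      hk (mono _ _ k (by have : (m : ℝ) ≤ m' := by exact_mod_cast hm
                         linarith) hk'))
  have h3 := iInf_neBot_of_directed' h2.directed_ge h1
  obtain ⟨U, hU⟩ := Ultrafilter.exists_le (⨅ m : ℕ, l ⊓ 𝓟 {k | ¬ P (m + 1) k})
  obtain ⟨s, -, hs⟩ := h U ((hU.trans (iInf_le _ 0)).trans inf_le_left)
  have h4 : ∀ᶠ k in (U : Filter ι), ¬ P (⌈s⌉₊ + 1) k :=
    le_principal_iff.1 ((hU.trans (iInf_le _ ⌈s⌉₊)).trans inf_le_right)
  obtain ⟨k, k1, k2⟩ := (hs.and h4).exists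
  exact k2 (mono _ _ k (by linarith [Nat.le_ceil s]) k1)

theorem fl_small {a L : ℝ} (ha : 0 < a) {w : ℂ} (hw : ‖w‖ ≤ L / 2) :
    2 * |(fl a w).1| ≤ sc L a + 2 ∧ 2 * |(fl a w).2| ≤ sc L a + 2 := by
  have key : ∀ t : ℝ, |t| ≤ L / 2 → 2 * |⌊t / a⌋| ≤ (sc L a : ℤ) + 2 := by
    intro t ht
    have h1 : L / a ≤ sc L a := Nat.le_ceil _
    have h2 : |t / a| ≤ L / a / 2 := by
      rw [abs_div, abs_of_pos ha, div_right_comm]
      exact div_le_div_of_nonneg_right ht ha.le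
    rw [abs_le] at h2
    have h3 := Int.floor_le (t / a)
    have h4 := Int.lt_floor_add_one (t / a)
    have h5 : ((2 * ⌊t / a⌋ : ℤ) : ℝ) ≤ ((sc L a : ℤ) : ℝ) := by push_cast; linarith
    have h6 : ((-(sc L a : ℤ) - 2 : ℤ) : ℝ) ≤ ((2 * ⌊t / a⌋ : ℤ) : ℝ) := by push_cast; linarith
    have h7 := Int.cast_le.1 h5
    have h8 := Int.cast_le.1 h6
    rcases abs_cases ⌊t / a⌋ with h | h <;> lia
  exact ⟨key _ ((Complex.abs_re_le_norm w).trans hw), key _ ((Complex.abs_im_le_norm w).trans hw)⟩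

theorem sc_size {L : ℝ} (hL : 0 < L) (hL1 : 1000 * L ≤ 1) :
    ∀ᶠ a in 𝓝[>] (0 : ℝ), 0 < a ∧ 8 ≤ sc L a ∧ 200 * sc L a ≤ nn a := by
  have h0 : ∀ᶠ a in 𝓝[>] (0 : ℝ), a < L / 8 :=
    nhdsWithin_le_nhds (gt_mem_nhds (by positivity))
  filter_upwards [h0, self_mem_nhdsWithin] with a h1 ha
  have ha : 0 < a := ha
  have h2 : (8 : ℝ) ≤ sc L a := by
    refine le_trans ?_ (Nat.le_ceil (L / a))
    rw [le_div_iff₀ ha]
    linarith
  have h3 : 8 ≤ sc L a := by exact_mod_cast h2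
  have h4 : (sc L a : ℝ) < L / a + 1 := Nat.ceil_lt_add_one (by positivity)
  have h5 : 1000 * (L / a) ≤ ⌈1 / a⌉₊ := by
    refine le_trans ?_ (Nat.le_ceil _)
    rw [← mul_div_assoc]
    exact div_le_div_of_nonneg_right hL1 ha.le
  have h6 : ((1000 * sc L a : ℕ) : ℝ) ≤ ((⌈1 / a⌉₊ + 1000 : ℕ) : ℝ) := by push_cast; linarith
  have h7 := Nat.cast_le.1 h6
  refine ⟨ha, h3, ?_⟩
  unfold nn
  omega

theorem bulk (hp : SPw) : SBulk := by
  intro n ζ z u0 L hinj hne hu0 hL hL1 hζ hz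
  have hD : ∀ w : ℂ, ‖w‖ ≤ L / 2 → w ∈ Dia := by
    intro w hw
    show |w.re| + |w.im| < 1
    linarith [Complex.abs_re_le_norm w, Complex.abs_im_le_norm w]
  obtain ⟨δ0, G0⟩ := H135.exists_geo hinj (fun p => hD _ (hζ p)) (hD _ hz) hne
  set δ := min δ0 (L / 20) with hδ
  have d1 : δ ≤ δ0 := min_le_left _ _
  have d2 : δ ≤ L / 20 := min_le_right _ _
  have G : Geo ζ z δ := ⟨G0.inj, G0.dia, lt_min G0.δ0 (by positivity),
    fun w hw => G0.ball w (by linarith), fun p => by linarith [G0.far p]⟩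
  have hsz := sc_size hL hL1
  have hc : ∀ a, |(cz z u0 a).1.1| ≤ |(fl a z).1| + 1 ∧ |(cz z u0 a).1.2| ≤ |(fl a z).2| + 1 := by
    intro a
    have h1 := H135.cz_cnr hu0 z a
    have e : (cz z u0 a).2 = fl a z := rfl
    rw [AL.mem_cnr, e] at h1
    have := abs_add_le (fl a z).1 1
    have := abs_add_le (fl a z).2 1
    rcases h1 with h | h | h | h <;> rw [h] <;> simp only [abs_one] at * <;> lia
  have hmem : ∀ᶠ a in 𝓝[>] (0 : ℝ), (cz z u0 a).1 ∈ dia (nn a) := by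
    filter_upwards [hsz] with a ⟨ha, h1, h2⟩
    have := fl_small ha hz
    have := hc a
    rw [AL.mem_dia]
    lia
  have hex : ∀ a, ∃ Hs Hf : Site → ℝ, (cz z u0 a).1 ∈ dia (nn a) →
      BD (nn a) (fun p => rz ζ p a) (cz z u0 a)
      (bA (nn a) (fun p => rz ζ p a) (cz z u0 a)) (bB (nn a) (fun p => rz ζ p a) (cz z u0 a))
      (bC (nn a) (fun p => rz ζ p a) (cz z u0 a)) (bE (nn a) (fun p => rz ζ p a) (cz z u0 a))
      Hs Hf := by
    intro a
    by_cases h : (cz z u0 a).1 ∈ dia (nn a)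
    · obtain ⟨Hs, Hf, hB⟩ := H135.exists_BD (nn a) (fun p => rz ζ p a) (cz z u0 a)
        (H135.cz_cnr hu0 z a) h
      exact ⟨Hs, Hf, fun _ => hB⟩
    · exact ⟨0, 0, fun h' => absurd h' h⟩
  choose Hs Hf hB using hex
  have hB' := hmem.mono fun a ha => hB a ha
  obtain ⟨QA, QB, QC, QE, κ, K⟩ := H135.exists_ker u0 hu0
  obtain ⟨Λ, hΛ, hA⟩ := ultra_bdd (l := 𝓝[>] (0 : ℝ))
    (P := fun s a => 0 < a ∧ Ann δ a (cz z u0 a) (Hs a) (Hf a) (s * a))
    (fun s t a hst h => ⟨h.1, fun x h1 h2 =>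
      ⟨(h.2 x h1 h2).1.trans (mul_le_mul_of_nonneg_right hst h.1.le),
        (h.2 x h1 h2).2.trans (mul_le_mul_of_nonneg_right hst h.1.le)⟩⟩)
    (fun U hU => by
      obtain ⟨s, hs, h⟩ := H135.apriori (G.pos hU u0) (hB'.filter_mono hU) K
        (Eventually.of_forall fun a => rfl)
      exact ⟨s, hs, ((G.pos hU u0).apos).and h⟩)
  have hm := H135.masses (G.pos le_rfl u0) hB' (L := fun a => Λ * a)
    (hA.mono fun a h => mul_pos hΛ h.1) (hA.mono fun a h => h.2)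
  refine ⟨30000 * (1152 * 80000 * 8 * Λ), by positivity, ?_⟩
  filter_upwards [hsz, hB', hm, hmem, (G.pos le_rfl u0).asmall G.δ0]
    with a ⟨ha, s1, s2⟩ k2 k1 k3 k4 x hx hx'
  set m := sc L a with hmd
  have hR : AL.fcs (AL.srcs fun i => fl a (ζ i)) = rM fun p => rz ζ p a := by
    unfold AL.fcs AL.srcs
    rw [List.map_map]
    rfl
  have hzs := fl_small ha hz
  rw [← hmd] at hzs
  have hnb : 20 * nb δ a ≤ m := by
    have h1 := H135.nb_le G.δ0 ha
    have h2 : L / a ≤ m := Nat.le_ceil _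
    rw [div_le_iff₀ ha] at h2
    have h3 : ((20 * nb δ a : ℕ) : ℝ) ≤ m := by
      push_cast
      refine le_of_mul_le_mul_left ?_ ha
      linarith
    exact_mod_cast h3
  have n0 : 0 < nb δ a := H135.nb_pos ha k4
  rw [bx0] at hx hx'
  have far : ∀ y ∈ bx x (4 * m + 3), (2 * m - 2 : ℤ) ≤ |y.1| ∨ (2 * m - 2 : ℤ) ≤ |y.2| := by
    intro y hy
    rw [mem_bx] at hy
    push_cast at hx hx' hy
    rcases abs_cases x.1 with h1 | h1 <;> rcases abs_cases x.2 with h2 | h2 <;>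
      rcases abs_cases y.1 with h3 | h3 <;> rcases abs_cases y.2 with h4 | h4 <;> lia
  have hcz : (fl a z + u0, fl a z) = cz z u0 a := rfl
  rw [hcz]
  have h1 := hp (kf (nn a) (AL.fcs (AL.srcs fun i => fl a (ζ i))) (cz z u0 a)) _ x m (by omega)
    (fun y hy => kf_rl _ (H135.cz_cnr hu0 z a) k3 (by
      rw [mem_bx] at hy
      push_cast at hx hy
      rcases abs_cases x.1 with h1 | h1 <;> rcases abs_cases x.2 with h2 | h2 <;>
        rcases abs_cases y.1 with h3 | h3 <;> rcases abs_cases y.2 with h4 | h4 <;> lia)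
      (fun h => by
        have := far y (bx_mono (by omega) hy)
        have e : fl a z = y := h
        rw [e] at hzs
        lia)
      (fun h => by
        have := far (y + (0, 1)) (H135.bx_step'' (e := (0, 1)) (Or.inr rfl) (by simpa using hy))
        have e : fl a z = y + (0, 1) := h
        rw [e] at hzs
        lia))
    (fun f hf hb => by
      rw [hR, H170.mem_rM] at hf
      obtain ⟨p, rfl⟩ := hf
      have := far _ hb
      have h2 := fl_small ha (hζ p)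
      unfold rz at this
      lia)
  have hf0 : ∀ x ∉ dia (nn a), Hf a x = 0 := fun x hx =>
    k2.spr.Hf_zero k2.isH (v := x) (by simp [AL.mem_cnr]) hx
  have e0 : ∀ x ∉ bx (cz z u0 a).2 (4 * nb δ a), 1 - CT (cz z u0 a).2 (2 * nb δ a) x = 1 := by
    intro x hx
    rw [H135.CT_zero (by lia) fun h' => hx (bx_mono (by lia) h'), sub_zero]
  have key := H135.sum_sq_out k2.spr k2.isH (c := (cz z u0 a).2) (m := 4 * nb δ a)
    (U := fun x => (1 - CT (cz z u0 a).2 (2 * nb δ a) x) * Hs a x)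
    (W := fun x => (1 - CT (cz z u0 a).2 (2 * nb δ a) x) * Hf a x)
    (fun x hx => by simp only [k2.isH.out x hx, mul_zero])
    (fun x hx => by simp only [hf0 x hx, mul_zero])
    (fun x hx => by simp only [e0 x hx, one_mul]) (fun x hx => by simp only [e0 x hx, one_mul])
    (M := 80000 * (Λ * a)) (fun T => (k1 T).1) (fun T => (k1 T).2) x (4 * m + 2)
    (bx x (4 * m + 2)) (fun y hy => ⟨hy, fun hb => by
      have := far y (bx_mono (by omega) hy)
      have e : (cz z u0 a).2 = fl a z := rfl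
      rw [e, mem_bx] at hb
      push_cast at hb
      rcases abs_cases (fl a z).1 with h1 | h1 <;> rcases abs_cases (fl a z).2 with h2 | h2 <;>
        rcases abs_cases y.1 with h3 | h3 <;> rcases abs_cases y.2 with h4 | h4 <;> lia⟩)
  have e1 : ∑ y ∈ bx x (4 * m + 2),
      (kf (nn a) (AL.fcs (AL.srcs fun i => fl a (ζ i))) (cz z u0 a)).sq y ≤
      1152 * (80000 * (Λ * a)) * (((4 * m + 2 : ℕ) : ℝ) + 2) := by
    refine le_trans (le_of_eq (sum_congr rfl fun y _ => ?_)) key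
    rw [kf_sq, hR]
    rfl
  have hm0 : (1 : ℝ) ≤ m := by exact_mod_cast (by omega : 1 ≤ m)
  have h2 := h1.trans (mul_le_mul_of_nonneg_left e1 (by positivity))
  refine (mul_le_mul_of_nonneg_left h2 (by positivity)).trans ?_
  push_cast
  have e2 : (m : ℝ) * (30000 / (m : ℝ) ^ 2 * (1152 * (80000 * (Λ * a)) * (4 * m + 2 + 2))) =
      30000 * (1152 * 80000 * (Λ * a)) * ((4 * m + 4) / m) := by
    field_simp
    ring
  have e3 : (4 * (m : ℝ) + 4) / m ≤ 8 := by
    rw [div_le_iff₀ (by linarith)]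
    linarith
  rw [e2]
  refine (mul_le_mul_of_nonneg_left e3 (by positivity)).trans (le_of_eq (by ring))

end Vale.Agent.P144P
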