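import Vale.Agent.P144.H135.Out
import Vale.Agent.P144.H170.Loc
import Vale.Agent.P144.U.AL.Wick2

/-!
Comparison of the fermion kernels of two large diamonds: definitions and the statements of the
blocks.
-/

namespace Vale.Agent.P144P

open Finset Vale.Agent.P144
open Vale.Agent.P144.H170 (Pt bx D lap Rel)
open Vale.Agent.P144.H135 (CT)

/-- The values at the four corners of the faces. -/
structure Fld where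
  A : Pt → ℝ
  B : Pt → ℝ
  C : Pt → ℝ
  E : Pt → ℝ

/-- The sum of the four squares. -/
def Fld.sq (F : Fld) (x : Pt) : ℝ := F.A x ^ 2 + F.B x ^ 2 + F.C x ^ 2 + F.E x ^ 2

/-- The relations at `x` in the presence of the disorders `R`. -/
def Fld.Rl (F : Fld) (R : Multiset Site) (x : Pt) : Prop :=
  Rel (AL.tauR R) (fun _ => 1) F.A F.B F.C F.E x

/-- The difference of two fields. -/
def Fld.sub (F G : Fld) : Fld :=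
  ⟨fun x => F.A x - G.A x, fun x => F.B x - G.B x, fun x => F.C x - G.C x, fun x => F.E x - G.E x⟩

/-- The bound on the annulus of scale `n`. -/
def Ptw (F : Fld) (n : ℕ) (s : ℝ) : Prop :=
  ∀ x ∈ bx 0 (65 * n), x ∉ bx 0 (6 * n) → n * F.sq x ≤ s

/-- The kernel of the fermions in `dia N` with the disorders `R` and the source `y`. -/
noncomputable def kf (N : ℕ) (R : Multiset Site) (y : AL.Cn) : Fld :=
  ⟨fun f => AL.Tl (dia N) R [y] (f, f), fun f => AL.Tl (dia N) R [y] ((f.1 + 1, f.2), f),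
    fun f => AL.Tl (dia N) R [y] ((f.1, f.2 + 1), f),
    fun f => AL.Tl (dia N) R [y] ((f.1 + 1, f.2 + 1), f)⟩

/-- Pointwise bound by the sum of squares. -/
def SPw : Prop := ∀ (F : Fld) (R : Multiset Site) (x : Pt) (r : ℕ), 0 < r →
  (∀ y ∈ bx x (4 * r + 2), F.Rl R y) → (∀ f ∈ R, f ∉ bx x (4 * r + 3)) →
  F.sq x ≤ 30000 / (r : ℝ) ^ 2 * ∑ y ∈ bx x (4 * r + 2), F.sq y

/-- Oscillation on an annulus. -/
def SOsc : Prop := ∀ (h : Pt → ℝ) (n : ℕ) (β : ℝ), 0 < n → 0 ≤ β →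
  (∀ x ∈ bx 0 (8 * n), x ∉ bx 0 (n - 1) → |D (1, 0) h x| ≤ β ∧ |D (0, 1) h x| ≤ β) →
  ∃ κ : ℝ, ∀ x ∈ bx 0 (8 * n), x ∉ bx 0 (n - 1) → |h x - κ| ≤ 40 * n * β

/-- The error of the cut-off. -/
def SProd : Prop := ∀ (g : Pt → ℝ) (n : ℕ) (K : ℝ), 0 < n → 0 ≤ K →
  (∀ x ∈ bx 0 (8 * n), x ∉ bx 0 (n - 1) → |g x| ≤ K) →
  (∀ x ∈ bx 0 (8 * n), x ∉ bx 0 n → 0 ≤ lap g x) →
  (∀ T : Finset Pt, ∑ x ∈ T,
    |lap (fun y => CT 0 (2 * n) y * g y) x - CT 0 (2 * n) x * lap g x| ≤ 4280 * K) ∧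
  ∀ x, (x ∉ bx 0 (4 * n) ∨ x ∈ bx 0 (2 * n - 1)) →
    lap (fun y => CT 0 (2 * n) y * g y) x = CT 0 (2 * n) x * lap g x

/-- Sums of squares outside the box that contains the source and the disorders. -/
def SOut : Prop := ∃ K : ℝ, 0 < K ∧ ∀ (N n : ℕ) (R : Multiset Site) (y : AL.Cn) (s : ℝ), 4 ≤ n →
  200 * n ≤ N → y.1 ∈ AL.cnr y.2 → y.1 ∈ bx 0 n → y.2 ∈ bx 0 n → (∀ f ∈ R, f ∈ bx 0 n) →
  Ptw (kf N R y) n s → ∀ (c : Pt) (r : ℕ) (T : Finset Pt),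
    (∀ x ∈ T, x ∈ bx c r ∧ x ∉ bx 0 (32 * n + 2)) → ∑ x ∈ T, (kf N R y).sq x ≤ K * s * (r + 2)

/-- A field without source is controlled by its size on the annulus. -/
def SInn : Prop := ∃ K : ℝ, 0 < K ∧ ∀ (F : Fld) (n : ℕ) (R : Multiset Site) (s : ℝ), 4 ≤ n →
  R.Nodup → (∀ f ∈ R, f ∈ bx 0 n) → (∀ x ∈ bx 0 (66 * n), F.Rl R x) → Ptw F n s →
  (∀ f ∈ R, F.sq f ≤ K * s) ∧ ∀ (c : Pt) (r : ℕ), bx c r ⊆ bx 0 (15 * n) →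
    ∑ x ∈ bx c r, F.sq x ≤ K * s * (r + 2)

/-- A harmonic function in a thick annulus. -/
def SLau : Prop := ∃ K : ℝ, 0 < K ∧ ∀ (h : Pt → ℝ) (n₁ n₂ ρ : ℕ) (K₁ K₂ : ℝ), 0 < n₁ →
  16 * n₁ ≤ ρ → ρ ≤ n₂ → 0 ≤ K₁ → 0 ≤ K₂ →
  (∀ x ∈ bx 0 (8 * n₂), x ∉ bx 0 n₁ → lap h x = 0) →
  (∀ x ∈ bx 0 (8 * n₁), x ∉ bx 0 (n₁ - 1) → |h x| ≤ K₁) →
  (∀ x ∈ bx 0 (8 * n₂), x ∉ bx 0 (n₂ - 1) → |h x| ≤ K₂) →
  ∀ z ∈ bx 0 n₂, z ∉ bx 0 ρ → |h z| ≤ K * (K₁ * n₁ / ρ + K₂ * √(√(n₂ / ρ)))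

/-- The gain at the intermediate scale. -/
def SGain : Prop := ∀ ε > (0 : ℝ), ∃ T : ℕ, 10 ≤ T ∧ ∀ (N n : ℕ) (R : Multiset Site) (y : AL.Cn)
  (s : ℝ), 4 ≤ n → 2000 * T ^ 2 * n ≤ N → y.1 ∈ AL.cnr y.2 → y.1 ∈ bx 0 n → y.2 ∈ bx 0 n →
  (∀ f ∈ R, f ∈ bx 0 n) → Even R.card → Ptw (kf N R y) n s → Ptw (kf N R y) (T * n) (ε * s)

/-- The kernels of two large diamonds are close. -/
def SCore : Prop := ∀ ε > (0 : ℝ), ∃ T : ℕ, 1 ≤ T ∧ ∀ (N N' n : ℕ) (R : Multiset Site)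
  (y : AL.Cn) (s : ℝ), 4 ≤ n → T * n ≤ N → T * n ≤ N' → y.1 ∈ AL.cnr y.2 → y.1 ∈ bx 0 n →
  y.2 ∈ bx 0 n → (∀ f ∈ R, f ∈ bx 0 n) → R.Nodup → Even R.card → Ptw (kf N R y) n s →
  Ptw (kf N' R y) n (5 * s) ∧ (∀ f ∈ R, ((kf N' R y).sub (kf N R y)).sq f ≤ ε * s) ∧
  ∀ x ∈ bx 0 n, ∀ r : ℕ, 0 < r → r ≤ n → (∀ f ∈ R, f ∉ bx x (4 * r + 3)) →
    r * ((kf N' R y).sub (kf N R y)).sq x ≤ ε * s

theorem Fld.sq_nn (F : Fld) (x : Pt) : 0 ≤ F.sq x := by unfold Fld.sq; positivity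

theorem Fld.sq_sub (F G : Fld) (x : Pt) : (F.sub G).sq x ≤ 2 * F.sq x + 2 * G.sq x := by
  unfold Fld.sq Fld.sub
  nlinarith [sq_nonneg (F.A x + G.A x), sq_nonneg (F.B x + G.B x), sq_nonneg (F.C x + G.C x),
    sq_nonneg (F.E x + G.E x)]

theorem Fld.sq_le_sub (F G : Fld) (x : Pt) : F.sq x ≤ 2 * G.sq x + 2 * (F.sub G).sq x := by
  unfold Fld.sq Fld.sub
  nlinarith [sq_nonneg (F.A x - 2 * G.A x), sq_nonneg (F.B x - 2 * G.B x),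
    sq_nonneg (F.C x - 2 * G.C x), sq_nonneg (F.E x - 2 * G.E x)]

end Vale.Agent.P144P
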