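import Vale.Agent.P144P.Fin
import Vale.Agent.P144.H436.JSrc

/-!
The scaling limits in the plane do not depend on the plane state and on the directions of the
energies.
-/

namespace Vale.Agent.P144P

open Finset Filter Topology MeasureTheory Vale.Agent.P144
open Vale.Agent.P144.H436 (nn)

/-- All plane states have the same limits. -/
theorem lim_uniq {J : ℝ} (hJ : 0 < J) {E E' : Fam} (hE : PlaneFam J 0 (fun _ => 0) (Kc / J) E)
    (hE' : PlaneFam J 0 (fun _ => 0) (Kc / J) E') {p : Pts} {c : ℝ} (h : Lim E p c) :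
    Lim E' p c := by
  refine Tendsto.congr' ?_ h
  filter_upwards [self_mem_nhdsWithin] with a ha
  exact tendsto_nhds_unique (fix J hJ E hE a ha p) (fix J hJ E' hE' a ha p)

theorem div_lim {R : ℝ} (hR : 0 < R) : Tendsto (fun a : ℝ => a / R) (𝓝[>] 0) (𝓝[>] 0) := by
  refine tendsto_nhdsWithin_iff.2 ⟨?_, ?_⟩
  · simpa using (tendsto_id.mono_left nhdsWithin_le_nhds : Tendsto id (𝓝[>] (0:ℝ)) _).div_const R
  · filter_upwards [self_mem_nhdsWithin] with a ha
    exact div_pos ha hR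

/-- The limits in large diamonds are close to the limit in the plane. -/
theorem near (hT : STwo) {J : ℝ} (hJ : 0 < J) {E : Fam} (hE : PlaneFam J 0 (fun _ => 0) (Kc / J) E)
    {p : Pts} (hp : Dist p) {c ε : ℝ} (hε : 0 < ε) (hc : Lim E p c) : ∀ᶠ R : ℝ in atTop, ∀ r,
      Tendsto (fun a => cN J a (nn (a / R)) p) (𝓝[>] 0) (𝓝 r) → |c - r| ≤ ε := by
  obtain ⟨T, hT⟩ := hT J hJ p hp ε hε
  filter_upwards [eventually_ge_atTop (T + 1), eventually_gt_atTop 0] with R h1 h2 r hr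
  have h3 : ∀ᶠ a in 𝓝[>] (0 : ℝ), a < 1 := nhdsWithin_le_nhds (gt_mem_nhds one_pos)
  refine le_of_tendsto (Tendsto.sub hc hr).abs ?_
  filter_upwards [hT, h3, self_mem_nhdsWithin] with a k1 k2 k3
  have k5 := nn_ge k3 h2
  exact le_of_tendsto ((fix J hJ E hE a k3 p).sub_const _).abs
    ((eventually_ge_atTop _).mono fun N' hN => k1 _ N' (by linarith) hN)

/-- The limits do not depend on the directions of the energies. -/
theorem lim_dir (hT : STwo) {J : ℝ} (hJ : 0 < J) {E : Fam}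
    (hE : PlaneFam J 0 (fun _ => 0) (Kc / J) E) {p : Pts} (hp : Good Set.univ p) {c : ℝ}
    (hc : Lim E p c) (j : Fin p.m → Fin 2) : Lim E { p with j := j } c := by
  obtain ⟨c', hc'⟩ := all hT J hJ E hE { p with j := j } hp
  have hq := AL.quotSM hJ AL.kp
  have hm := H365.merge hJ
  have hL : H436.TipLim J := AL.tipLim hJ AL.kp hm H365.ratioM hq
  suffices h : c = c' by rwa [h]
  refine eq_of_forall_dist_le fun ε hε => ?_
  obtain ⟨R, h1, h2, h3, hR⟩ := ((near hT hJ hE hp.2.2.2 (half_pos hε) hc).and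
    ((near hT hJ hE (p := { p with j := j }) hp.2.2.2 (half_pos hε) hc').and
    ((ev_good hp.2.2.2).and (eventually_gt_atTop 0)))).exists
  obtain ⟨r, -, hr⟩ := hL _ h3 univ ∅
  have hr' := H436.dir_lim hJ AL.kp H436.kj hm H365.ratioM hq h3 univ hr j
  have k1 := h1 _ (((hr.comp (div_lim hR)).const_mul
    ((R ^ (-(1 / 8) : ℝ)) ^ p.n * R⁻¹ ^ p.m)).congr' (by
      filter_upwards [self_mem_nhdsWithin] with a ha
      exact (cN_shr J p ha hR).symm))
  have k2 := h2 _ (((hr'.comp (div_lim hR)).const_mul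
    ((R ^ (-(1 / 8) : ℝ)) ^ p.n * R⁻¹ ^ p.m)).congr' (by
      filter_upwards [self_mem_nhdsWithin] with a ha
      exact (cN_shr J { p with j := j } ha hR).symm))
  rw [Real.dist_eq]
  rw [abs_sub_comm] at k2
  linarith [abs_sub_le c ((R ^ (-(1 / 8) : ℝ)) ^ p.n * R⁻¹ ^ p.m * r) c']

/-- The scaling limit of the critical plane state. -/
theorem allJ (hT : STwo) {J : ℝ} (hJ : 0 < J) : ∃ C : Pts → ℝ,
    (∀ p j, Good Set.univ p → C { p with j := j } = C p) ∧
    ∀ E, PlaneFam J 0 (fun _ => 0) (Kc / J) E → ∀ p, Good Set.univ p → Lim E p (C p) := by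
  obtain ⟨μ, hμ, -⟩ := H436.free_plane hJ
  have hE : PlaneFam J 0 (fun _ => 0) (Kc / J) fun _ F => ∫ σ, F σ ∂μ :=
    ⟨fun _ => μ, fun _ _ => hμ, fun _ _ => rfl⟩
  have h : ∀ p, Good Set.univ p → Lim (fun _ F => ∫ σ, F σ ∂μ) p
      (limUnder (𝓝[>] 0) fun a => corr a (fun F => ∫ σ, F σ ∂μ) p) := fun p hp =>
    tendsto_nhds_limUnder (all hT J hJ _ hE p hp)
  refine ⟨fun p => limUnder (𝓝[>] 0) fun a => corr a (fun F => ∫ σ, F σ ∂μ) p, fun p j hp => ?_,
    fun E hE' p hp => lim_uniq hJ hE hE' (h p hp)⟩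
  exact tendsto_nhds_unique (h { p with j := j } hp) (lim_dir hT hJ hE hp (h p hp) j)

end Vale.Agent.P144P
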