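import Vale.Agent.P144P.Inn0
import Vale.Agent.P144P.Basic

/-!
A field without source is controlled by its size on the annulus.
-/

namespace Vale.Agent.P144P

open Finset Vale.Agent.P144
open Vale.Agent.P144.H170 (Pt bx D lap mem_bx bx_mono)
open Vale.Agent.P144.H135 (CT CT_one CT_zero CT_nonneg CT_le_one)

namespace Inn

/-- The oscillation of the `H`-function on the annulus. -/
theorem osc (hO : SOsc) {A B C E Hs Hf : Pt → ℝ} {n : ℕ} {s : ℝ} (hn : 0 < n) (hs : 0 ≤ s)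
    (h : ∀ x ∈ bx 0 (8 * (8 * n)), x ∉ bx 0 (8 * n - 1) → Hs x - Hf x = A x ^ 2 ∧
      Hs (x + (1, 0)) - Hf x = B x ^ 2 ∧ Hs (x + (0, 1)) - Hf x = C x ^ 2 ∧
      n * (A x ^ 2 + B x ^ 2 + C x ^ 2 + E x ^ 2) ≤ s) :
    ∃ κ : ℝ, ∀ x ∈ bx 0 (8 * (8 * n)), x ∉ bx 0 (8 * n - 1) →
      |Hs x - κ| ≤ 321 * s ∧ |Hf x - κ| ≤ 321 * s := by
  have hn' : (1:ℝ) ≤ n := by exact_mod_cast hn
  have k : ∀ x ∈ bx 0 (8 * (8 * n)), x ∉ bx 0 (8 * n - 1) →
      A x ^ 2 + B x ^ 2 + C x ^ 2 + E x ^ 2 ≤ s / n := by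
    intro x h1 h2
    rw [le_div_iff₀ (by linarith), mul_comm]
    exact (h x h1 h2).2.2.2
  obtain ⟨κ, hκ⟩ := hO Hs (8 * n) (s / n) (by lia) (by positivity) fun x h1 h2 => by
    obtain ⟨a, b, c, -⟩ := h x h1 h2
    have := k x h1 h2
    have := sq_nonneg (A x)
    have := sq_nonneg (B x)
    have := sq_nonneg (C x)
    have := sq_nonneg (E x)
    unfold D
    rw [abs_le, abs_le]
    refine ⟨⟨?_, ?_⟩, ?_, ?_⟩ <;> linarith
  refine ⟨κ, fun x h1 h2 => ?_⟩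
  have e : 40 * ((8 * n : ℕ) : ℝ) * (s / n) = 320 * s := by push_cast; field_simp; ring
  have a1 := hκ x h1 h2
  rw [e, abs_le] at a1
  have a2 : s / n ≤ s := div_le_self hs hn'
  have a3 := (h x h1 h2).1
  have := k x h1 h2
  have := sq_nonneg (A x)
  have := sq_nonneg (B x)
  have := sq_nonneg (C x)
  have := sq_nonneg (E x)
  rw [abs_le, abs_le]
  refine ⟨⟨?_, ?_⟩, ?_, ?_⟩ <;> linarith

theorem lap_sub_c (h : Pt → ℝ) (κ : ℝ) (x : Pt) : lap (fun y => h y - κ) x = lap h x := by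
  unfold lap; ring

theorem lap_c_sub (h : Pt → ℝ) (κ : ℝ) (x : Pt) : lap (fun y => κ - h y) x = -lap h x := by
  unfold lap; ring

theorem CT0 {m : ℕ} (hm : 0 < m) {x : Pt} (hx : x ∉ bx 0 (4 * m)) : CT 0 (2 * m) x = 0 :=
  CT_zero (by lia) fun h' => hx (bx_mono (by lia) h')

/-- Sums of squares by the masses. -/
theorem sq_sum {q U W : Pt → ℝ} {k : ℕ} (hU0 : ∀ x ∉ bx 0 k, U x = 0)
    (hW0 : ∀ x ∉ bx 0 k, W x = 0) (hU1 : ∀ x ∉ bx 0 k, lap U x = 0)
    (hW1 : ∀ x ∉ bx 0 k, lap W x = 0) {M : ℝ} (hM1 : ∑ w ∈ bx 0 k, |lap U w| ≤ M)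
    (hM2 : ∑ w ∈ bx 0 k, |lap W w| ≤ M) (c : Pt) (r : ℕ)
    (hq : ∀ x ∈ bx c r, q x ≤ 3 * (|D (0, 1) W (x - (0, 1))| + |D (1, 0) U x|) +
      3 * (|D (0, 1) W x| + |D (1, 0) U (x + (0, 1))|)) :
    ∑ x ∈ bx c r, q x ≤ 1152 * M * (r + 2) := by
  have s0 : ∀ G : Pt → ℝ, (∀ x, 0 ≤ G x) → ∀ e : Pt, (e = (0, 1) ∨ e = 0 ∨ e = -(0, 1)) →
      ∑ x ∈ bx c r, G (x + e) ≤ ∑ x ∈ bx c (r + 1), G x := by
    intro G hG e he
    have e1 : ∑ x ∈ bx c r, G (x + e) = ∑ x ∈ (bx c r).image (fun x => x + e), G x := by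
      rw [sum_image fun x _ y _ hxy => by simpa using hxy]
    rw [e1]
    refine sum_le_sum_of_subset_of_nonneg ?_ fun _ _ _ => hG _
    intro x hx
    obtain ⟨y, hy, rfl⟩ := mem_image.1 hx
    rw [mem_bx] at hy ⊢
    rcases he with rfl | rfl | rfl <;> simp <;> lia
  have aux : ∀ (u : Pt → ℝ), (∀ x ∉ bx 0 k, u x = 0) → (∀ x ∉ bx 0 k, lap u x = 0) →
      (∑ w ∈ bx 0 k, |lap u w| ≤ M) → ∀ e : Pt, (e = (1, 0) ∨ e = (0, 1)) →
      ∑ x ∈ bx c (r + 1), |D e u x| ≤ 96 * ((r:ℝ) + 2) * M := by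
    intro u hu hs hT e he
    have := H436.grad_sum (u := u) (Λ := bx 0 k) (S := bx 0 k) hu
      (fun x hx => by rw [H170.lap_eq]; exact hs x hx) c (r + 1) he
    have h3 : ∑ w ∈ bx 0 k, |H436.lap u w| ≤ M := by
      simp only [H170.lap_eq]
      exact hT
    calc ∑ x ∈ bx c (r + 1), |D e u x| ≤ 96 * (((r + 1 : ℕ) : ℝ) + 1) * ∑ w ∈ bx 0 k,
          |H436.lap u w| := this
      _ ≤ 96 * (((r + 1 : ℕ) : ℝ) + 1) * M := mul_le_mul_of_nonneg_left h3 (by positivity)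
      _ = _ := by push_cast; ring
  have h1 := aux U hU0 hU1 hM1 (1, 0) (Or.inl rfl)
  have h2 := aux W hW0 hW1 hM2 (0, 1) (Or.inr rfl)
  have t1 := s0 (fun x => |D (0, 1) W x|) (fun _ => abs_nonneg _) (-(0, 1)) (by simp)
  have t2 := s0 (fun x => |D (1, 0) U x|) (fun _ => abs_nonneg _) 0 (by simp)
  have t3 := s0 (fun x => |D (0, 1) W x|) (fun _ => abs_nonneg _) 0 (by simp)
  have t4 := s0 (fun x => |D (1, 0) U x|) (fun _ => abs_nonneg _) (0, 1) (by simp)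
  simp only [add_zero] at t2 t3
  calc _ ≤ ∑ x ∈ bx c r, (3 * (|D (0, 1) W (x + -(0, 1))| + |D (1, 0) U x|) +
        3 * (|D (0, 1) W x| + |D (1, 0) U (x + (0, 1))|)) := by
        refine sum_le_sum fun x hx => ?_
        rw [← sub_eq_add_neg]
        exact hq x hx
    _ = 3 * (∑ x ∈ bx c r, |D (0, 1) W (x + -(0, 1))| + ∑ x ∈ bx c r, |D (1, 0) U x|) +
        3 * (∑ x ∈ bx c r, |D (0, 1) W x| + ∑ x ∈ bx c r, |D (1, 0) U (x + (0, 1))|) := by
        rw [sum_add_distrib, ← mul_sum, sum_add_distrib, ← mul_sum, sum_add_distrib]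
    _ ≤ _ := by linarith

theorem succ_ex (x : Pt) : ∃ i j : ℤ, x = (i + 1, j + 1) := ⟨x.1 - 1, x.2 - 1, by simp⟩

/-- The properties of the local `H`-function. -/
theorem loc {F : Fld} {R : Multiset Site} {n : ℕ} (hn : 4 ≤ n) (hR : R.Nodup)
    (hrl : ∀ x ∈ bx 0 (66 * n), F.Rl R x) : ∃ Hs Hf : Pt → ℝ, ∀ x ∈ bx 0 (64 * n),
      0 ≤ lap Hs x ∧ (x ∉ R → lap Hf x ≤ 0) ∧ lap Hf x ≤ F.sq x ∧
      (x ∈ R → F.sq x ≤ 3 * ∑ v ∈ AL.cnr x, lap Hs v) ∧
      (F.sq x ≤ 3 * (|D (0, 1) Hf (x - (0, 1))| + |D (1, 0) Hs x|) +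
        3 * (|D (0, 1) Hf x| + |D (1, 0) Hs (x + (0, 1))|)) ∧
      Hs x - Hf x = F.A x ^ 2 ∧ Hs (x + (1, 0)) - Hf x = F.B x ^ 2 ∧
      Hs (x + (0, 1)) - Hf x = F.C x ^ 2 := by
  obtain ⟨Hs, Hf, hH⟩ := exists_H (F := F) (R := R) (M := 66 * n) fun i j a b c d =>
    hrl (i, j) (by rw [mem_bx]; simp only [Prod.fst_zero, Prod.snd_zero]; push_cast; lia)
  refine ⟨Hs, Hf, fun x hx => ?_⟩
  obtain ⟨i, j, rfl⟩ := succ_ex x
  rw [mem_bx] at hx
  simp only [Prod.fst_zero, Prod.snd_zero] at hx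
  push_cast at hx
  have p00 := hH i j (by lia) (by lia) (by lia) (by lia)
  have p10 := hH (i + 1) j (by lia) (by lia) (by lia) (by lia)
  have p20 := hH (i + 1 + 1) j (by lia) (by lia) (by lia) (by lia)
  have p01 := hH i (j + 1) (by lia) (by lia) (by lia) (by lia)
  have p11 := hH (i + 1) (j + 1) (by lia) (by lia) (by lia) (by lia)
  have p21 := hH (i + 1 + 1) (j + 1) (by lia) (by lia) (by lia) (by lia)
  have p02 := hH i (j + 1 + 1) (by lia) (by lia) (by lia) (by lia)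
  have p12 := hH (i + 1) (j + 1 + 1) (by lia) (by lia) (by lia) (by lia)
  have p22 := hH (i + 1 + 1) (j + 1 + 1) (by lia) (by lia) (by lia) (by lia)
  refine ⟨lapS_nn p00 p10 p01 p11, fun h => lapF_np p10 p01 p11 p21 p12 ?_,
    lapF_le p10 p01 p11 p21 p12, fun h => ?_, ?_, p11.a, ?_, ?_⟩
  · have := AL.tauR_step h
    rwa [add_sub_cancel_right] at this
  · have := AL.tauR_branch hR h
    rw [add_sub_cancel_right] at this
    rw [AL.sum_cnr]
    exact branch p00 p10 p20 p01 p11 p21 p02 p12 p22 this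
  · have a1 := (sqV p10 p11).1
    have a2 := (sqV p11 p12).2
    unfold D Fld.sq
    simp only [Prod.mk_add_mk, Prod.mk_sub_mk, add_zero, sub_zero, add_sub_cancel_right]
    linarith
  · simpa only [Prod.mk_add_mk, add_zero] using p11.b
  · simpa only [Prod.mk_add_mk, add_zero] using p11.c

end Inn

open Inn in
theorem inn (hO : SOsc) (hP : SProd) : SInn := by
  classical
  refine ⟨5 * 10 ^ 10, by norm_num, fun F n R s hn hR hRn hrl hpt => ?_⟩
  have hs := hpt.nonneg (by lia)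
  obtain ⟨Hs, Hf, hH⟩ := loc hn hR hrl
  have e64 : 8 * (8 * n) = 64 * n := by ring
  obtain ⟨κ, hκ⟩ := osc hO (A := F.A) (B := F.B) (C := F.C) (E := F.E) (Hs := Hs) (Hf := Hf)
    (n := n) (by lia) hs fun x h1 h2 => by
      rw [e64] at h1
      obtain ⟨-, -, -, -, -, a, b, c⟩ := hH x h1
      exact ⟨a, b, c, hpt x (bx_mono (by lia) h1) fun h => h2 (bx_mono (by lia) h)⟩
  have hm : 0 < 8 * n := by lia
  obtain ⟨P1, P2⟩ := hP (fun y => Hs y - κ) (8 * n) (321 * s) hm (by positivity)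
    (fun x h1 h2 => (hκ x h1 h2).1) fun x h1 _ => by
      rw [lap_sub_c]
      rw [e64] at h1
      exact (hH x h1).1
  obtain ⟨Q1, Q2⟩ := hP (fun y => κ - Hf y) (8 * n) (321 * s) hm (by positivity)
    (fun x h1 h2 => by rw [abs_sub_comm]; exact (hκ x h1 h2).2) fun x h1 h2 => by
      rw [lap_c_sub]
      rw [e64] at h1
      have := (hH x h1).2.1 fun h => h2 (bx_mono (by lia) (hRn x h))
      linarith
  set φ : Pt → ℝ := CT 0 (2 * (8 * n)) with hφ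
  have φ0 : ∀ x ∉ bx 0 (4 * (8 * n)), φ x = 0 := fun x hx => CT0 hm hx
  have φ1 : ∀ x ∈ bx 0 (16 * n), φ x = 1 := fun x hx => CT_one (by lia) (bx_mono (by lia) hx)
  have φn : ∀ x, 0 ≤ φ x := fun x => CT_nonneg _ _ _
  have sub : bx (0 : Pt) (4 * (8 * n)) ⊆ bx 0 (64 * n) := bx_mono (by lia)
  simp only [lap_sub_c] at P1 P2
  simp only [lap_c_sub] at Q1 Q2
  have U0 : ∀ x ∉ bx 0 (4 * (8 * n)), φ x * (Hs x - κ) = 0 := fun x hx => by
    rw [φ0 x hx, zero_mul]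
  have U1 : ∀ x ∉ bx 0 (4 * (8 * n)), lap (fun y => φ y * (Hs y - κ)) x = 0 := fun x hx => by
    rw [P2 x (Or.inl hx), φ0 x hx, zero_mul]
  have W0 : ∀ x ∉ bx 0 (4 * (8 * n)), φ x * (κ - Hf x) = 0 := fun x hx => by
    rw [φ0 x hx, zero_mul]
  have W1 : ∀ x ∉ bx 0 (4 * (8 * n)), lap (fun y => φ y * (κ - Hf y)) x = 0 := fun x hx => by
    rw [Q2 x (Or.inl hx), φ0 x hx, zero_mul]
  have pn : ∀ x, 0 ≤ φ x * lap Hs x := fun x => by
    by_cases hx : x ∈ bx 0 (4 * (8 * n))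
    · exact mul_nonneg (φn x) (hH x (sub hx)).1
    · rw [φ0 x hx, zero_mul]
  obtain ⟨g1, g2⟩ := gen (u := fun y => φ y * (Hs y - κ)) (p := fun x => φ x * lap Hs x)
    (M := 0) U0 U1 (P1 _) (le_of_eq (sum_eq_zero fun x _ => max_eq_left (by linarith [pn x])))
  simp only [abs_of_nonneg (pn _)] at g1
  -- the disorders
  have br : ∀ f ∈ R, F.sq f ≤ 3 * ∑ v ∈ AL.cnr f, φ v * lap Hs v := by
    intro f hf
    have h1 := hRn f hf
    refine ((hH f (bx_mono (by lia) h1)).2.2.2.1 hf).trans (le_of_eq ?_)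
    congr 1
    refine sum_congr rfl fun v hv => ?_
    rw [φ1 v, one_mul]
    rw [AL.mem_cnr] at hv
    rw [mem_bx] at h1 ⊢
    simp only [Prod.fst_zero, Prod.snd_zero] at h1 ⊢
    push_cast
    rcases hv with rfl | rfl | rfl | rfl <;> lia
  have cn : ∀ T : Finset Site, ∑ f ∈ T, ∑ v ∈ AL.cnr f, φ v * lap Hs v ≤
      4 * ∑ v ∈ bx 0 (4 * (8 * n)), φ v * lap Hs v := fun T =>
    AL.sum_sum_cnr (u := fun v => φ v * lap Hs v) pn fun v hv => by
      simp only [φ0 v hv, zero_mul]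
  have hneg : ∑ x ∈ bx 0 (4 * (8 * n)), max 0 (-(φ x * -lap Hf x)) ≤ 12 * (4280 * (321 * s)) := by
    calc _ ≤ ∑ x ∈ bx 0 (4 * (8 * n)), 3 * ∑ v ∈ AL.cnr x, φ v * lap Hs v := by
          refine sum_le_sum fun x hx => ?_
          have h0 : 0 ≤ ∑ v ∈ AL.cnr x, φ v * lap Hs v := sum_nonneg fun v _ => pn v
          refine max_le (by positivity) ?_
          by_cases hxR : x ∈ R
          · rw [φ1 x (bx_mono (by lia) (hRn x hxR))]
            have := (hH x (sub hx)).2.2.1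
            have := br x hxR
            linarith
          · have := mul_nonneg (φn x) (neg_nonneg.2 ((hH x (sub hx)).2.1 hxR))
            linarith
      _ = 3 * ∑ x ∈ bx 0 (4 * (8 * n)), ∑ v ∈ AL.cnr x, φ v * lap Hs v := by rw [mul_sum]
      _ ≤ _ := by linarith [cn (bx 0 (4 * (8 * n)))]
  obtain ⟨-, g3⟩ := gen (u := fun y => φ y * (κ - Hf y)) (p := fun x => φ x * -lap Hf x)
    W0 W1 (Q1 _) hneg
  refine ⟨fun f hf => ?_, fun c r hc => ?_⟩
  · have h1 := br f hf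
    have h2 := cn {f}
    rw [sum_singleton] at h2
    linarith
  · have key := sq_sum (q := F.sq) (M := 26 * (4280 * (321 * s))) U0 W0 U1 W1
      ((g2 _).trans (by linarith)) ((g3 _).trans (by linarith)) c r fun x hx => by
        have h1 := hc hx
        have m : ∀ e : Pt, |e.1| ≤ 1 → |e.2| ≤ 1 → φ (x + e) = 1 := by
          intro e a b
          refine φ1 _ ?_
          rw [abs_le] at a b
          rw [mem_bx] at h1 ⊢
          simp only [Prod.fst_zero, Prod.snd_zero, Prod.fst_add, Prod.snd_add] at h1 ⊢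
          push_cast at h1 ⊢
          lia
        have m0 : φ x = 1 := φ1 _ (bx_mono (by lia) h1)
        have m1 := m (1, 0) (by simp) (by simp)
        have m2 := m (0, 1) (by simp) (by simp)
        have m3 : φ (x - (0, 1)) = 1 := by
          rw [sub_eq_add_neg]; exact m _ (by simp) (by simp)
        have m4 : φ (x + (0, 1) + (1, 0)) = 1 := by
          rw [add_assoc]; exact m _ (by simp) (by simp)
        refine ((hH x (bx_mono (by lia) h1)).2.2.2.2.1).trans (le_of_eq ?_)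
        unfold D
        simp only [sub_add_cancel, m0, m1, m2, m3, m4, one_mul, sub_sub_sub_cancel_left,
          sub_sub_sub_cancel_right]
        rw [abs_sub_comm (Hf x), abs_sub_comm (Hf x)]
    refine key.trans ?_
    have : (0:ℝ) ≤ s * (r + 2) := by positivity
    nlinarith

end Vale.Agent.P144P
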