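import Vale.Agent.P144P.Defs

/-!
The local `H`-function of a field which satisfies the relations on a box.
-/

namespace Vale.Agent.P144P.Inn

open Finset Vale.Agent.P144
open Vale.Agent.P144.H170 (Pt bx D lap mem_bx bx_mono)

/-- The relations at the face `(i, j)` and the defining relations of the `H`-function. -/
structure Pw (F : Fld) (τ Hs Hf : Pt → ℝ) (i j : ℤ) : Prop where
  t : τ (i, j) * τ (i, j) = 1
  v1 : F.C (i, j) = √2 * F.A (i, j + 1) - τ (i, j) * F.B (i, j + 1)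
  v2 : F.E (i, j) = √2 * F.B (i, j + 1) - τ (i, j) * F.A (i, j + 1)
  h1 : F.B (i, j) = √2 * F.A (i + 1, j) - F.C (i + 1, j)
  h2 : F.E (i, j) = -(√2 * F.C (i + 1, j) - F.A (i + 1, j))
  a : Hs (i, j) - Hf (i, j) = F.A (i, j) ^ 2
  b : Hs (i + 1, j) - Hf (i, j) = F.B (i, j) ^ 2
  c : Hs (i, j + 1) - Hf (i, j) = F.C (i, j) ^ 2
  d : Hs (i + 1, j + 1) - Hf (i, j) = F.E (i, j) ^ 2

theorem s2 : √2 * √2 = 2 := Real.mul_self_sqrt (by norm_num)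

theorem rl_iff {F : Fld} {R : Multiset Site} {i j : ℤ} (h : F.Rl R (i, j)) :
    F.C (i, j) = √2 * F.A (i, j + 1) - AL.tauR R (i, j) * F.B (i, j + 1) ∧
    F.E (i, j) = √2 * F.B (i, j + 1) - AL.tauR R (i, j) * F.A (i, j + 1) ∧
    F.B (i, j) = √2 * F.A (i + 1, j) - F.C (i + 1, j) ∧
    F.E (i, j) = -(√2 * F.C (i + 1, j) - F.A (i + 1, j)) := by
  unfold Fld.Rl H170.Rel at h
  simpa only [Prod.mk_add_mk, add_zero, one_mul] using h

/-- The `H`-function exists on a box. -/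
theorem exists_H {F : Fld} {R : Multiset Site} {M : ℤ}
    (h : ∀ i j : ℤ, -M ≤ i → i ≤ M → -M ≤ j → j ≤ M → F.Rl R (i, j)) :
    ∃ Hs Hf : Pt → ℝ, ∀ i j : ℤ, -M ≤ i → i ≤ M → -M ≤ j → j ≤ M →
      Pw F (AL.tauR R) Hs Hf i j := by
  have t2 : ∀ x, AL.tauR R x * AL.tauR R x = 1 := fun x => AL.cutS_sq _ _
  have qV : ∀ i j : ℤ, -M ≤ i → i ≤ M → -M ≤ j → j ≤ M →
      F.C (i, j) ^ 2 - F.A (i, j + 1) ^ 2 = F.E (i, j) ^ 2 - F.B (i, j + 1) ^ 2 := by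
    intro i j a b c d
    obtain ⟨h1, h2, -, -⟩ := rl_iff (h i j a b c d)
    rw [h1, h2]
    linear_combination (F.B (i, j + 1) ^ 2 - F.A (i, j + 1) ^ 2) * (t2 (i, j)) +
      (F.A (i, j + 1) ^ 2 - F.B (i, j + 1) ^ 2) * s2
  have qH : ∀ i j : ℤ, -M ≤ i → i ≤ M → -M ≤ j → j ≤ M →
      F.B (i, j) ^ 2 - F.A (i + 1, j) ^ 2 = F.E (i, j) ^ 2 - F.C (i + 1, j) ^ 2 := by
    intro i j a b c d
    obtain ⟨-, -, h1, h2⟩ := rl_iff (h i j a b c d)
    rw [h1, h2]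
    linear_combination (F.A (i + 1, j) ^ 2 - F.C (i + 1, j) ^ 2) * s2
  obtain ⟨Hf, hHf⟩ : ∃ Hf : Pt → ℝ, ∀ i j : ℤ, Hf (i, j) =
      ∑ x ∈ Finset.Ico (-M) i, (F.B (x, -M) ^ 2 - F.A (x + 1, -M) ^ 2) +
      ∑ y ∈ Finset.Ico (-M) j, (F.C (i, y) ^ 2 - F.A (i, y + 1) ^ 2) :=
    ⟨fun f => ∑ x ∈ Finset.Ico (-M) f.1, (F.B (x, -M) ^ 2 - F.A (x + 1, -M) ^ 2) +
      ∑ y ∈ Finset.Ico (-M) f.2, (F.C (f.1, y) ^ 2 - F.A (f.1, y + 1) ^ 2), fun _ _ => rfl⟩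
  have ins : ∀ (g : ℤ → ℝ) (k : ℤ), -M ≤ k →
      ∑ y ∈ Finset.Ico (-M) (k + 1), g y = ∑ y ∈ Finset.Ico (-M) k, g y + g k := by
    intro g k hk
    have : Finset.Ico (-M) (k + 1) = insert k (Finset.Ico (-M) k) := by
      ext y; simp only [mem_Ico, mem_insert]; lia
    rw [this, sum_insert (by simp), add_comm]
  have step : ∀ i j : ℤ, -M ≤ j →
      Hf (i, j + 1) = Hf (i, j) + (F.C (i, j) ^ 2 - F.A (i, j + 1) ^ 2) := by
    intro i j hj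
    rw [hHf, hHf, ins _ j hj, add_assoc]
  have horz : ∀ i : ℤ, -M ≤ i → i ≤ M → ∀ k : ℕ, -M + k ≤ M + 1 →
      Hf (i + 1, -M + k) - Hf (i, -M + k) = F.B (i, -M + k) ^ 2 - F.A (i + 1, -M + k) ^ 2 := by
    intro i a b k
    induction k with
    | zero =>
      intro _
      simp only [Nat.cast_zero, add_zero]
      rw [hHf, hHf, ins _ i a]
      simp
    | succ k ih =>
      intro hk
      push_cast at hk ⊢
      rw [← add_assoc]
      have e := ih (by lia)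
      have e1 := step (i + 1) (-M + k) (by lia)
      have e2 := step i (-M + k) (by lia)
      have e3 := qV i (-M + k) a b (by lia) (by lia)
      have e4 := qH i (-M + k) a b (by lia) (by lia)
      linarith
  have horz' : ∀ i j : ℤ, -M ≤ i → i ≤ M → -M ≤ j → j ≤ M + 1 →
      Hf (i + 1, j) - Hf (i, j) = F.B (i, j) ^ 2 - F.A (i + 1, j) ^ 2 := by
    intro i j a b c d
    have := horz i a b (j + M).toNat (by lia)
    rwa [show -M + ((j + M).toNat : ℤ) = j by lia] at this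
  refine ⟨fun v => Hf v + F.A v ^ 2, Hf, fun i j a b c d => ?_⟩
  obtain ⟨h1, h2, h3, h4⟩ := rl_iff (h i j a b c d)
  have e1 := horz' i j a b c (by lia)
  have e2 := horz' i (j + 1) a b (by lia) (by lia)
  have e3 := step i j c
  have e4 := qV i j a b c d
  exact ⟨t2 _, h1, h2, h3, h4, by ring, by linarith, by linarith, by linarith⟩

theorem lap_mk (h : Pt → ℝ) (i j : ℤ) : lap h (i + 1, j + 1) =
    h (i + 1 + 1, j + 1) + h (i, j + 1) + h (i + 1, j + 1 + 1) + h (i + 1, j) -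
      4 * h (i + 1, j + 1) := by
  unfold lap
  simp only [Prod.mk_add_mk, Prod.mk_sub_mk, add_zero, sub_zero, add_sub_cancel_right]

section

variable {F : Fld} {τ Hs Hf : Pt → ℝ} {i j : ℤ}

/-- The Laplacian of `Hs`. -/
theorem lapS (p00 : Pw F τ Hs Hf i j) (p10 : Pw F τ Hs Hf (i + 1) j)
    (p01 : Pw F τ Hs Hf i (j + 1)) (p11 : Pw F τ Hs Hf (i + 1) (j + 1)) :
    lap Hs (i + 1, j + 1) = 2 * (F.A (i + 1, j + 1) ^ 2 + F.B (i, j + 1) ^ 2 +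
      F.C (i + 1, j) ^ 2 + F.E (i, j) ^ 2) - 2 * √2 * (1 * (F.A (i + 1, j + 1) * F.B (i, j + 1)) -
        1 * (F.C (i + 1, j) * F.E (i, j)) + F.A (i + 1, j + 1) * F.C (i + 1, j) +
        F.B (i, j + 1) * F.E (i, j)) := by
  have e1 : F.B (i + 1, j + 1) ^ 2 = (√2 * F.A (i + 1, j + 1) - F.C (i + 1, j)) ^ 2 := by
    rw [p10.v1]; linear_combination (-F.B (i + 1, j + 1) ^ 2) * p10.t
  have e2 : F.A (i, j + 1) ^ 2 = (√2 * F.B (i, j + 1) - F.E (i, j)) ^ 2 := by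
    rw [p00.v2]; linear_combination (-F.A (i, j + 1) ^ 2) * p00.t
  have e3 : F.C (i + 1, j + 1) ^ 2 = (√2 * F.A (i + 1, j + 1) - F.B (i, j + 1)) ^ 2 := by
    rw [p01.h1]; ring
  have e4 : F.A (i + 1, j) ^ 2 = (√2 * F.C (i + 1, j) + F.E (i, j)) ^ 2 := by
    rw [p00.h2]; ring
  rw [lap_mk]
  linear_combination p11.b - p11.a + p01.a - p01.b + p11.c - p11.a + p10.a - p10.c +
    e1 + e2 + e3 + e4 + (2 * F.A (i + 1, j + 1) ^ 2 + F.B (i, j + 1) ^ 2 + F.C (i + 1, j) ^ 2) * s2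

theorem lapS_nn (p00 : Pw F τ Hs Hf i j) (p10 : Pw F τ Hs Hf (i + 1) j)
    (p01 : Pw F τ Hs Hf i (j + 1)) (p11 : Pw F τ Hs Hf (i + 1) (j + 1)) :
    0 ≤ lap Hs (i + 1, j + 1) := by
  rw [lapS p00 p10 p01 p11]
  exact AL.quad_nonneg _ _ _ _ _ (by norm_num)

/-- The Laplacian of `Hf`. -/
theorem lapF (p10 : Pw F τ Hs Hf (i + 1) j) (p01 : Pw F τ Hs Hf i (j + 1))
    (p11 : Pw F τ Hs Hf (i + 1) (j + 1)) (p21 : Pw F τ Hs Hf (i + 1 + 1) (j + 1))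
    (p12 : Pw F τ Hs Hf (i + 1) (j + 1 + 1)) :
    lap Hf (i + 1, j + 1) = -(2 * (F.B (i + 1, j + 1) ^ 2 + F.A (i + 1, j + 1) ^ 2 +
      F.E (i + 1, j + 1) ^ 2 + F.C (i + 1, j + 1) ^ 2) -
      2 * √2 * (τ (i + 1, j) * (F.B (i + 1, j + 1) * F.A (i + 1, j + 1)) -
        τ (i + 1, j + 1) * (F.E (i + 1, j + 1) * F.C (i + 1, j + 1)) +
        F.B (i + 1, j + 1) * F.E (i + 1, j + 1) + F.A (i + 1, j + 1) * F.C (i + 1, j + 1))) := by
  have e1 : F.A (i + 1, j + 1 + 1) = √2 * F.C (i + 1, j + 1) +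
      τ (i + 1, j + 1) * F.E (i + 1, j + 1) := by
    rw [p11.v2, p11.v1]
    linear_combination (-F.A (i + 1, j + 1 + 1)) * s2 + F.A (i + 1, j + 1 + 1) * p11.t
  have e2 : F.A (i + 1 + 1, j + 1) = √2 * F.B (i + 1, j + 1) - F.E (i + 1, j + 1) := by
    rw [p11.h2, p11.h1]
    linear_combination (-F.A (i + 1 + 1, j + 1)) * s2
  have a1 := p12.a
  have a2 := p21.a
  have a3 := p10.c
  have a4 := p01.b
  rw [e1] at a1
  rw [e2] at a2
  rw [p10.v1] at a3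
  rw [p01.h1] at a4
  rw [lap_mk]
  linear_combination p11.c - a1 + p11.b - a2 + p11.a - a3 + p11.a - a4 -
    (F.C (i + 1, j + 1) ^ 2 + F.B (i + 1, j + 1) ^ 2 + 2 * F.A (i + 1, j + 1) ^ 2) * s2 -
    F.E (i + 1, j + 1) ^ 2 * p11.t - F.B (i + 1, j + 1) ^ 2 * p10.t

theorem lapF_np (p10 : Pw F τ Hs Hf (i + 1) j) (p01 : Pw F τ Hs Hf i (j + 1))
    (p11 : Pw F τ Hs Hf (i + 1) (j + 1)) (p21 : Pw F τ Hs Hf (i + 1 + 1) (j + 1))
    (p12 : Pw F τ Hs Hf (i + 1) (j + 1 + 1)) (hτ : τ (i + 1, j + 1) = τ (i + 1, j)) :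
    lap Hf (i + 1, j + 1) ≤ 0 := by
  rw [lapF p10 p01 p11 p21 p12, hτ]
  have := AL.quad_nonneg (F.B (i + 1, j + 1)) (F.A (i + 1, j + 1)) (F.E (i + 1, j + 1))
    (F.C (i + 1, j + 1)) (τ (i + 1, j)) p10.t
  linarith

theorem lapF_le (p10 : Pw F τ Hs Hf (i + 1) j) (p01 : Pw F τ Hs Hf i (j + 1))
    (p11 : Pw F τ Hs Hf (i + 1) (j + 1)) (p21 : Pw F τ Hs Hf (i + 1 + 1) (j + 1))
    (p12 : Pw F τ Hs Hf (i + 1) (j + 1 + 1)) :
    lap Hf (i + 1, j + 1) ≤ F.sq (i + 1, j + 1) := by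
  rw [lapF p10 p01 p11 p21 p12]
  have := AL.quad_lower (F.B (i + 1, j + 1)) (F.A (i + 1, j + 1)) (F.E (i + 1, j + 1))
    (F.C (i + 1, j + 1)) (τ (i + 1, j)) (τ (i + 1, j + 1)) p10.t p11.t
  have h142 : √2 ≤ 1.5 := by rw [Real.sqrt_le_left (by norm_num)]; norm_num
  have h0 := F.sq_nn (i + 1, j + 1)
  unfold Fld.sq at h0 ⊢
  nlinarith

/-- The mass of `Hs` at the corners of a disorder controls the values there. -/
theorem branch (p00 : Pw F τ Hs Hf i j) (p10 : Pw F τ Hs Hf (i + 1) j)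
    (p20 : Pw F τ Hs Hf (i + 1 + 1) j) (p01 : Pw F τ Hs Hf i (j + 1))
    (p11 : Pw F τ Hs Hf (i + 1) (j + 1)) (p21 : Pw F τ Hs Hf (i + 1 + 1) (j + 1))
    (p02 : Pw F τ Hs Hf i (j + 1 + 1)) (p12 : Pw F τ Hs Hf (i + 1) (j + 1 + 1))
    (p22 : Pw F τ Hs Hf (i + 1 + 1) (j + 1 + 1)) (hτ : τ (i + 1, j + 1) = -τ (i + 1, j)) :
    F.sq (i + 1, j + 1) ≤ 3 * (lap Hs (i + 1, j + 1) + lap Hs (i + 1 + 1, j + 1) +
      lap Hs (i + 1, j + 1 + 1) + lap Hs (i + 1 + 1, j + 1 + 1)) := by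
  have o : (1:ℝ) * 1 = 1 := by norm_num
  have l1 := lapS p00 p10 p01 p11
  have l2 := lapS p10 p20 p11 p21
  have l3 := lapS p01 p11 p02 p12
  have l4 := lapS p11 p21 p12 p22
  rw [(AL.quad_id _ _ _ _ _ o).1] at l1
  rw [(AL.quad_id _ _ _ _ _ o).2] at l2
  rw [(AL.quad_id _ _ _ _ _ o).2] at l3
  rw [(AL.quad_id _ _ _ _ _ o).1] at l4
  have q2 := s2
  have ta := p11.t
  have f1 : √2 * F.A (i + 1, j + 1) - (1 * F.B (i, j + 1) + F.C (i + 1, j)) =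
      F.C (i + 1, j + 1) + τ (i + 1, j) * F.B (i + 1, j + 1) - √2 * F.A (i + 1, j + 1) := by
    rw [p01.h1, p10.v1]; ring
  have f2 : √2 * F.B (i + 1, j + 1) - (1 * F.A (i + 1 + 1, j + 1) + F.E (i + 1, j)) =
      F.E (i + 1, j + 1) + τ (i + 1, j) * F.A (i + 1, j + 1) - √2 * F.B (i + 1, j + 1) := by
    rw [p10.v2, p11.h1, p11.h2]
    linear_combination (F.A (i + 1 + 1, j + 1)) * q2
  have f3 : √2 * F.C (i + 1, j + 1) - (F.A (i + 1, j + 1 + 1) - 1 * F.E (i, j + 1)) =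
      F.A (i + 1, j + 1) + τ (i + 1, j) * F.E (i + 1, j + 1) - √2 * F.C (i + 1, j + 1) := by
    have : τ (i + 1, j) = -τ (i + 1, j + 1) := by rw [hτ]; ring
    rw [p01.h2, this, p11.v1, p11.v2]
    linear_combination F.A (i + 1, j + 1 + 1) * q2 - F.A (i + 1, j + 1 + 1) * ta
  have f4 : √2 * F.E (i + 1, j + 1) - (F.B (i + 1, j + 1 + 1) - 1 * F.C (i + 1 + 1, j + 1)) =
      F.B (i + 1, j + 1) + τ (i + 1, j) * F.C (i + 1, j + 1) - √2 * F.E (i + 1, j + 1) := by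
    have g1 : F.B (i + 1, j + 1 + 1) = √2 * F.E (i + 1, j + 1) +
        τ (i + 1, j + 1) * F.C (i + 1, j + 1) := by
      rw [p11.v1, p11.v2]
      linear_combination (-(F.B (i + 1, j + 1 + 1))) * q2 + F.B (i + 1, j + 1 + 1) * ta
    have g2 : F.C (i + 1 + 1, j + 1) = F.B (i + 1, j + 1) - √2 * F.E (i + 1, j + 1) := by
      rw [p11.h1, p11.h2]
      linear_combination (-(F.C (i + 1 + 1, j + 1))) * q2
    rw [g1, g2, hτ]; ring
  rw [f1] at l1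
  rw [f2] at l2
  rw [f3] at l3
  rw [f4] at l4
  have key := AL.four_cycle (F.A (i + 1, j + 1)) (F.B (i + 1, j + 1)) (F.C (i + 1, j + 1))
    (F.E (i + 1, j + 1)) (τ (i + 1, j)) p10.t
  have h142 : √2 ≤ 1.415 := by rw [Real.sqrt_le_left (by norm_num)]; norm_num
  have h0 := F.sq_nn (i + 1, j + 1)
  have k1 : F.sq (i + 1, j + 1) ≤ 3 * ((6 - 4 * √2) * F.sq (i + 1, j + 1)) := by nlinarith
  refine k1.trans (mul_le_mul_of_nonneg_left (key.trans ?_) (by norm_num))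
  rw [l1, l2, l3, l4]
  have n1 := sq_nonneg (√2 * F.E (i, j) - (F.B (i, j + 1) - 1 * F.C (i + 1, j)))
  have n2 := sq_nonneg (√2 * F.C (i + 1 + 1, j) - (F.A (i + 1 + 1, j + 1) - 1 * F.E (i + 1, j)))
  have n3 := sq_nonneg (√2 * F.B (i, j + 1 + 1) - (1 * F.A (i + 1, j + 1 + 1) + F.E (i, j + 1)))
  have n4 := sq_nonneg (√2 * F.A (i + 1 + 1, j + 1 + 1) -
    (1 * F.B (i + 1, j + 1 + 1) + F.C (i + 1 + 1, j + 1)))
  linarith

/-- The squares are controlled by the gradients of the `H`-function. -/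
theorem sqV (p0 : Pw F τ Hs Hf i j) (p1 : Pw F τ Hs Hf i (j + 1)) :
    F.A (i, j + 1) ^ 2 + F.B (i, j + 1) ^ 2 ≤
      3 * (|Hf (i, j + 1) - Hf (i, j)| + |Hs (i + 1, j + 1) - Hs (i, j + 1)|) ∧
    F.C (i, j) ^ 2 + F.E (i, j) ^ 2 ≤
      3 * (|Hf (i, j + 1) - Hf (i, j)| + |Hs (i + 1, j + 1) - Hs (i, j + 1)|) := by
  have ha := p1.a
  have hb := p1.b
  have hc := p0.c
  have hd := p0.d
  have h1 := p0.v1
  have h2 := p0.v2
  have ht := p0.t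
  constructor
  · have e1 : Hf (i, j + 1) - Hf (i, j) = F.A (i, j + 1) ^ 2 + F.B (i, j + 1) ^ 2 -
        2 * √2 * (τ (i, j) * (F.A (i, j + 1) * F.B (i, j + 1))) := by
      rw [h1] at hc
      linear_combination hc - ha + (F.A (i, j + 1)) ^ 2 * s2 + F.B (i, j + 1) ^ 2 * ht
    have e2 : Hs (i + 1, j + 1) - Hs (i, j + 1) =
        -(F.A (i, j + 1) ^ 2 - F.B (i, j + 1) ^ 2) := by
      linear_combination hb - ha
    rw [e1, e2, abs_neg]
    exact H170.sq_two ht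
  · have e3 : F.A (i, j + 1) = √2 * F.C (i, j) + τ (i, j) * F.E (i, j) := by
      rw [h1, h2]; linear_combination (-F.A (i, j + 1)) * s2 + F.A (i, j + 1) * ht
    have e1 : Hf (i, j + 1) - Hf (i, j) = -(F.C (i, j) ^ 2 + F.E (i, j) ^ 2 -
        2 * √2 * (-τ (i, j) * (F.C (i, j) * F.E (i, j)))) := by
      rw [e3] at ha
      linear_combination hc - ha - (F.C (i, j)) ^ 2 * s2 - F.E (i, j) ^ 2 * ht
    have e2 : Hs (i + 1, j + 1) - Hs (i, j + 1) = -(F.C (i, j) ^ 2 - F.E (i, j) ^ 2) := by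
      linear_combination hd - hc
    rw [e1, e2, abs_neg, abs_neg]
    exact H170.sq_two (by rw [neg_mul_neg]; exact ht)

end

/-- Masses of a function with finite support. -/
theorem gen {u p : Pt → ℝ} {Λ S : Finset Pt} {E M : ℝ} (h0 : ∀ x ∉ Λ, u x = 0)
    (hS : ∀ x ∉ S, lap u x = 0) (hE : ∑ x ∈ S, |lap u x - p x| ≤ E)
    (hM : ∑ x ∈ S, max 0 (-p x) ≤ M) :
    ∑ x ∈ S, |p x| ≤ E + 2 * M ∧ ∀ T : Finset Pt, ∑ x ∈ T, |lap u x| ≤ 2 * E + 2 * M := by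
  classical
  have t1 : ∑ x ∈ S, lap u x = 0 := by
    have := H436.sum_lap_zero (u := u) (Λ := Λ) (S := S) h0 fun x hx => by
      rw [H170.lap_eq]; exact hS x hx
    simp only [H170.lap_eq] at this
    exact this
  have t2 : ∑ x ∈ S, |p x| ≤ E + 2 * M := by
    calc ∑ x ∈ S, |p x| ≤ ∑ x ∈ S, (lap u x + |lap u x - p x| + 2 * max 0 (-p x)) := by
          refine sum_le_sum fun x _ => ?_
          have a1 := neg_abs_le (lap u x - p x)
          have a2 := le_max_left 0 (-p x)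
          have a3 := le_max_right 0 (-p x)
          rw [abs_le]
          constructor <;> linarith
      _ = ∑ x ∈ S, lap u x + ∑ x ∈ S, |lap u x - p x| + 2 * ∑ x ∈ S, max 0 (-p x) := by
          rw [sum_add_distrib, sum_add_distrib, mul_sum]
      _ ≤ _ := by linarith
  refine ⟨t2, fun T => ?_⟩
  calc ∑ x ∈ T, |lap u x| ≤ ∑ x ∈ T ∪ S, |lap u x| :=
        sum_le_sum_of_subset_of_nonneg subset_union_left fun _ _ _ => abs_nonneg _
    _ = ∑ x ∈ S, |lap u x| :=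
        (sum_subset subset_union_right fun x _ hx => by rw [hS x hx, abs_zero]).symm
    _ ≤ ∑ x ∈ S, (|p x| + |lap u x - p x|) := by
        refine sum_le_sum fun x _ => ?_
        have := abs_add_le (p x) (lap u x - p x)
        rwa [add_sub_cancel] at this
    _ = ∑ x ∈ S, |p x| + ∑ x ∈ S, |lap u x - p x| := sum_add_distrib
    _ ≤ _ := by linarith

end Vale.Agent.P144P.Inn
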