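import Vale.Agent.P144P.Basic
import Vale.Agent.P144P.Defs2

/-!
The weighted kernels of two large diamonds: the lattice estimate.
-/

namespace Vale.Agent.P144P

open Finset Vale.Agent.P144
open Vale.Agent.P144.H170 (Pt bx mem_bx bx_mono)
open Vale.Agent.P144.AL (Lb)

/-- The comparison of the kernels with the gain `ε` at the ratio of scales `T`. -/
def CoreAt (ε : ℝ) (T : ℕ) : Prop := ∀ (N N' n : ℕ) (R : Multiset Site)
  (y : AL.Cn) (s : ℝ), 4 ≤ n → T * n ≤ N → T * n ≤ N' → y.1 ∈ AL.cnr y.2 → y.1 ∈ bx 0 n →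
  y.2 ∈ bx 0 n → (∀ f ∈ R, f ∈ bx 0 n) → R.Nodup → Even R.card → Ptw (kf N R y) n s →
  Ptw (kf N' R y) n (5 * s) ∧ (∀ f ∈ R, ((kf N' R y).sub (kf N R y)).sq f ≤ ε * s) ∧
  ∀ x ∈ bx 0 n, ∀ r : ℕ, 0 < r → r ≤ n → (∀ f ∈ R, f ∉ bx x (4 * r + 3)) →
    r * ((kf N' R y).sub (kf N R y)).sq x ≤ ε * s

theorem SCore.at (h : SCore) {ε : ℝ} (hε : 0 < ε) : ∃ T : ℕ, 2 ≤ T ∧ CoreAt ε T := by
  obtain ⟨T, hT, h⟩ := h ε hε
  refine ⟨2 * T, by lia, fun N N' n R y s hn hN hN' => h N N' n R y s hn ?_ ?_⟩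
  · exact le_trans (Nat.mul_le_mul_right n (by lia)) hN
  · exact le_trans (Nat.mul_le_mul_right n (by lia)) hN'

section

variable {n m : ℕ}

/-- The label is not a tip. -/
def nt : Lb n m → Prop
  | .tp _ => False
  | _ => True

/-- The size of the kernel with the source at a label. -/
def sig (a : ℝ) : Lb n m → ℝ
  | .lo _ => a
  | .hi _ => a
  | _ => 1

theorem nt_of_mem {ks : List (Fin m)} {x : Lb n m} (h : x ∈ AL.lbs ks []) : nt x := by
  unfold AL.lbs AL.flat at h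
  simp only [List.map_nil, List.append_nil, List.mem_append, List.mem_map, List.mem_flatMap,
    List.mem_cons, List.not_mem_nil, or_false] at h
  rcases h with ⟨i, -, rfl⟩ | ⟨k, -, rfl | rfl⟩ <;> trivial

variable (u : Fin n → Site) (v : Fin m → Site) (j : Fin m → Fin 2)

theorem cn_nt (N : ℕ) {x : Lb n m} (h : nt x) : AL.cn N u v j x = AL.cn 0 u v j x := by
  cases x with
  | tp c => exact absurd h id
  | _ => rfl

theorem mem_srcs {f : Site} : f ∈ AL.fcs (AL.srcs u) ↔ ∃ i, u i = f := by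
  unfold AL.fcs AL.srcs
  simp

theorem card_srcs : (AL.fcs (AL.srcs u)).card = n := by
  unfold AL.fcs AL.srcs
  simp

theorem nodup_srcs (h : Function.Injective u) : (AL.fcs (AL.srcs u)).Nodup := by
  unfold AL.fcs AL.srcs
  rw [List.map_map, Multiset.coe_nodup]
  exact (List.nodup_finRange n).map h

/-- The positions of the points on the lattice. -/
structure Lat (k r : ℕ) : Prop where
  k4 : 4 ≤ k
  r0 : 0 < r
  rk : r ≤ k
  uin : ∀ i, u i ∈ bx 0 k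
  vin : ∀ l, v l ∈ bx 0 k ∧ v l + dir (j l) ∈ bx 0 k
  inj : Function.Injective u
  ev : Even n
  far : ∀ i l, u i ∉ bx (v l) (4 * r + 3)

/-- The bounds of all kernels on the annulus. -/
def Ref (k N : ℕ) (a K : ℝ) : Prop :=
  (∀ y : Lb n m, nt y → Ptw (kf N (AL.fcs (AL.srcs u)) (AL.cn 0 u v j y)) k (K * sig a y)) ∧
    ∀ l, Ptw (kf N 0 (AL.eHi (v l) (j l))) k (K * a)

variable {u v j} {k r : ℕ} (h : Lat u v j k r)

include h

theorem Lat.cin {y : Lb n m} (hy : nt y) :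
    (AL.cn 0 u v j y).1 ∈ bx 0 k ∧ (AL.cn 0 u v j y).2 ∈ bx 0 k := by
  cases y with
  | tp c => exact absurd hy id
  | src i => exact ⟨h.uin i, h.uin i⟩
  | lo l => exact ⟨(h.vin l).1, (h.vin l).1⟩
  | hi l => exact ⟨(h.vin l).2, (h.vin l).1⟩

theorem Lat.rin : ∀ f ∈ AL.fcs (AL.srcs u), f ∈ bx 0 k := by
  intro f hf
  obtain ⟨i, rfl⟩ := (mem_srcs u).1 hf
  exact h.uin i

variable {ε a K : ℝ} {T N N' : ℕ} (hC : CoreAt ε T) (hN : T * k ≤ N) (hN' : T * k ≤ N')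
  (hR : Ref u v j k N a K)

include hC hN hN' hR

theorem Lat.five : Ref u v j k N' a (5 * K) := by
  refine ⟨fun y hy => ?_, fun l => ?_⟩
  · rw [mul_assoc]
    exact (hC N N' k _ _ _ h.k4 hN hN' (AL.Sep.cn_cnr y) (h.cin hy).1 (h.cin hy).2 h.rin
      (nodup_srcs u h.inj) (by rw [card_srcs]; exact h.ev) (hR.1 y hy)).1
  · rw [mul_assoc]
    exact (hC N N' k 0 _ _ h.k4 hN hN' (AL.eHi_cnr _ _) (h.vin l).2 (h.vin l).1 (by simp)
      Multiset.nodup_zero (by simp) (hR.2 l)).1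

theorem Lat.dif (hT : 2 ≤ T) (hε : 0 ≤ ε) (hK : 0 ≤ K) (ha : 0 < a) {δ : ℝ} (hδ : 0 < δ)
    (hr : δ ≤ a * r) {x y : Lb n m} (hx : nt x) (hy : nt y) :
    (AL.KK N' u v j x y - AL.KK N u v j x y) ^ 2 ≤ ε * K * (1 + δ⁻¹) * (sig a x * sig a y) := by
  have h2 : 2 * k ≤ T * k := Nat.mul_le_mul_right k hT
  obtain ⟨-, c1, c2⟩ := hC N N' k _ _ _ h.k4 hN hN' (AL.Sep.cn_cnr y) (h.cin hy).1 (h.cin hy).2
    h.rin (nodup_srcs u h.inj) (by rw [card_srcs]; exact h.ev) (hR.1 y hy)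
  have wl2 : ∀ z : Lb n m, AL.wl u v j z ^ 2 = 1 := fun z => by
    rw [pow_two]
    exact AL.wl_sq ⟨n, m, fun _ => 0, fun _ => 0, j⟩ u v z
  have e : (AL.KK N' u v j x y - AL.KK N u v j x y) ^ 2 =
      (AL.Tl (dia N') (AL.fcs (AL.srcs u)) [AL.cn 0 u v j y] (AL.cn 0 u v j x) -
        AL.Tl (dia N) (AL.fcs (AL.srcs u)) [AL.cn 0 u v j y] (AL.cn 0 u v j x)) ^ 2 := by
    unfold AL.KK
    rw [cn_nt u v j N hx, cn_nt u v j N hy, cn_nt u v j N' hx, cn_nt u v j N' hy,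
      Wf_Tl _ (bx_dia (h.cin hx).1 (by lia)), Wf_Tl _ (bx_dia (h.cin hx).1 (by lia)), ← mul_sub,
      mul_pow, mul_pow, wl2, wl2, one_mul, one_mul]
  rw [e]
  refine (Tl_sub_sq _ (AL.Sep.cn_cnr x)).trans ?_
  have hs : 0 ≤ sig a y := by cases y <;> simp [sig, ha.le]
  have hδ' : 0 < δ⁻¹ := inv_pos.2 hδ
  have hq : 0 ≤ ε * (K * sig a y) := by positivity
  have bulk : ∀ l, ((kf N' (AL.fcs (AL.srcs u)) (AL.cn 0 u v j y)).sub
      (kf N (AL.fcs (AL.srcs u)) (AL.cn 0 u v j y))).sq (v l) ≤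
        ε * K * (1 + δ⁻¹) * (a * sig a y) := by
    intro l
    have b1 := c2 (v l) (h.vin l).1 r h.r0 h.rk fun f hf => by
      obtain ⟨i, rfl⟩ := (mem_srcs u).1 hf
      exact h.far i l
    generalize ((kf N' (AL.fcs (AL.srcs u)) (AL.cn 0 u v j y)).sub
      (kf N (AL.fcs (AL.srcs u)) (AL.cn 0 u v j y))) = F at b1
    have b0 := F.sq_nn (v l)
    have b2 : δ * F.sq (v l) ≤ a * (ε * (K * sig a y)) := by
      calc δ * F.sq (v l) ≤ a * r * F.sq (v l) := mul_le_mul_of_nonneg_right hr b0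
        _ = a * (r * F.sq (v l)) := by ring
        _ ≤ _ := mul_le_mul_of_nonneg_left b1 ha.le
    have b3 : F.sq (v l) ≤ δ⁻¹ * (a * (ε * (K * sig a y))) := by
      rw [le_inv_mul_iff₀ hδ]; exact b2
    nlinarith [mul_nonneg ha.le hq]
  cases x with
  | tp c => exact absurd hx id
  | src i =>
    refine (c1 (u i) ((mem_srcs u).2 ⟨i, rfl⟩)).trans ?_
    show _ ≤ _ * (1 * _)
    nlinarith [mul_nonneg hδ'.le hq]
  | lo l => exact bulk l
  | hi l => exact bulk l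

theorem Lat.dif0 (hT : 2 ≤ T) (ha : 0 < a) {δ : ℝ} (hδ : 0 < δ) (hr : δ ≤ a * r) (l : Fin m) :
    (AL.Wf (dia N') 0 [AL.eLo (v l), AL.eHi (v l) (j l)] -
      AL.Wf (dia N) 0 [AL.eLo (v l), AL.eHi (v l) (j l)]) ^ 2 ≤ ε * K * δ⁻¹ * (a * a) := by
  have h2 : 2 * k ≤ T * k := Nat.mul_le_mul_right k hT
  obtain ⟨-, -, c2⟩ := hC N N' k 0 _ _ h.k4 hN hN' (AL.eHi_cnr _ _) (h.vin l).2 (h.vin l).1
    (by simp) Multiset.nodup_zero (by simp) (hR.2 l)
  rw [Wf_Tl _ (bx_dia (h.vin l).1 (by lia)), Wf_Tl _ (bx_dia (h.vin l).1 (by lia))]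
  refine (Tl_sub_sq _ (AL.eLo_cnr _)).trans ?_
  have b1 := c2 (v l) (h.vin l).1 r h.r0 h.rk (by simp)
  show Fld.sq _ (v l) ≤ _
  generalize ((kf N' 0 (AL.eHi (v l) (j l))).sub (kf N 0 (AL.eHi (v l) (j l)))) = F at b1
  have b0 := F.sq_nn (v l)
  have b2 : δ * F.sq (v l) ≤ a * (ε * (K * a)) := by
    calc δ * F.sq (v l) ≤ a * r * F.sq (v l) := mul_le_mul_of_nonneg_right hr b0
      _ = a * (r * F.sq (v l)) := by ring
      _ ≤ _ := mul_le_mul_of_nonneg_left b1 ha.le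
  have b3 : F.sq (v l) ≤ δ⁻¹ * (a * (ε * (K * a))) := by
    rw [le_inv_mul_iff₀ hδ]; exact b2
  linarith

end

/-- The difference of the weighted kernels. -/
theorem KW_dif {p : Pts} {a ε K δ : ℝ} {k r T N N' : ℕ}
    (h : Lat (fun i => fl a (p.x i)) (fun l => fl a (p.y l)) p.j k r) (hC : CoreAt ε T)
    (hN : T * k ≤ N) (hN' : T * k ≤ N')
    (hR : Ref (fun i => fl a (p.x i)) (fun l => fl a (p.y l)) p.j k N a K) (hT : 2 ≤ T)
    (hε : 0 ≤ ε) (hK : 0 ≤ K) (ha : 0 < a) (hδ : 0 < δ) (hr : δ ≤ a * r) {x y : Lb p.n p.m}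
    (hx : nt x) (hy : nt y) :
    |KW p a N' x y - KW p a N x y| ≤ (1 + p.m) * √(ε * K * (1 + δ⁻¹)) := by
  classical
  set Q := ε * K * (1 + δ⁻¹) with hQ
  have hδ' : 0 < δ⁻¹ := inv_pos.2 hδ
  have hQ0 : 0 ≤ Q := by positivity
  have hs : √a ≠ 0 := (Real.sqrt_pos.2 ha).ne'
  have hw : ∀ z : Lb p.n p.m, wt p a z ^ 2 * sig a z = 1 := by
    intro z
    have : (√a)⁻¹ ^ 2 * a = 1 := by
      rw [inv_pow, Real.sq_sqrt ha.le, inv_mul_cancel₀ ha.ne']
    cases z <;> simp only [wt, sig] <;> first | exact this | norm_num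
  have k1 : |wt p a x * wt p a y *
      (AL.KK N' (fun i => fl a (p.x i)) (fun l => fl a (p.y l)) p.j x y -
        AL.KK N (fun i => fl a (p.x i)) (fun l => fl a (p.y l)) p.j x y)| ≤ √Q := by
    refine Real.abs_le_sqrt ?_
    have b := h.dif hC hN hN' hR hT hε hK ha hδ hr hx hy
    rw [mul_pow, mul_pow]
    calc _ ≤ wt p a x ^ 2 * wt p a y ^ 2 * (Q * (sig a x * sig a y)) :=
          mul_le_mul_of_nonneg_left b (by positivity)
      _ = Q * ((wt p a x ^ 2 * sig a x) * (wt p a y ^ 2 * sig a y)) := by ring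
      _ = Q := by rw [hw, hw]; ring
  have k2 : ∀ l, |wt p a x * wt p a y * ((if x = Lb.lo l ∧ y = Lb.hi l then tN p a N' l else 0) -
      (if x = Lb.lo l ∧ y = Lb.hi l then tN p a N l else 0))| ≤ √Q := by
    intro l
    split_ifs with hl
    · obtain ⟨rfl, rfl⟩ := hl
      refine Real.abs_le_sqrt ?_
      have b := h.dif0 hC hN hN' hR hT ha hδ hr l
      have e1 := hw (Lb.lo l)
      have e2 := hw (Lb.hi l)
      simp only [sig] at e1 e2
      unfold tN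
      rw [← mul_sub, mul_pow, mul_pow, mul_pow, pow_two (AL.ep _ _), AL.ep_sq, one_mul]
      calc _ ≤ wt p a (Lb.lo l) ^ 2 * wt p a (Lb.hi l) ^ 2 * (ε * K * δ⁻¹ * (a * a)) :=
            mul_le_mul_of_nonneg_left b (by positivity)
        _ = ε * K * δ⁻¹ * ((wt p a (Lb.lo l) ^ 2 * a) * (wt p a (Lb.hi l) ^ 2 * a)) := by ring
        _ ≤ Q := by rw [e1, e2, hQ]; nlinarith [mul_nonneg hε hK]
    · simp
  have k3 : ∀ ks : List (Fin p.m), |wt p a x * wt p a y *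
      ((ks.map fun l => if x = Lb.lo l ∧ y = Lb.hi l then tN p a N' l else 0).sum -
        (ks.map fun l => if x = Lb.lo l ∧ y = Lb.hi l then tN p a N l else 0).sum)| ≤
        ks.length * √Q := by
    intro ks
    induction ks with
    | nil => simp
    | cons l ks ih =>
      simp only [List.map_cons, List.sum_cons, List.length_cons]
      rw [add_sub_add_comm, mul_add]
      refine (abs_add_le _ _).trans ?_
      push_cast
      linarith [k2 l]
  have k4 := k3 (univ : Finset (Fin p.m)).toList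
  rw [length_toList, card_univ, Fintype.card_fin] at k4
  unfold KW AL.cenK
  rw [← mul_sub, sub_sub_sub_comm, mul_sub]
  refine (abs_sub _ _).trans ?_
  have := add_le_add k1 k4
  refine le_trans (le_of_eq ?_) (this.trans (le_of_eq (by ring)))
  congr!

end Vale.Agent.P144P
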