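import Vale.Agent.P144P.Two
import Vale.Agent.P144P.Fin

/-!
The limits of the correlations of an even number of spins are positive.
-/

namespace Vale.Agent.P144P

open Finset Filter Topology MeasureTheory Vale.Agent.P144 Vale.Agent.P144.AL Vale.Agent.P144Z Two
open Vale.Agent.P144.H436 (MM nn cl spA)

theorem le_cl {J : ℝ} (hJ : 0 < J) {A : Finset Site} {t : ℝ} (h : ∀ Λ, t ≤ MM Λ A.val) :
    t ≤ cl (Kc / J) J A := by
  refine le_of_forall_pos_le_add fun η hη => ?_
  obtain ⟨M₀, h0⟩ := St.unif hJ A hη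
  have h3 := (abs_le.1 (h0 _ (box_fb (le_refl (M₀ + 1))) (fun _ => 0) (some bcp))).2
  rw [plus_set hJ] at h3
  linarith [h (box (M₀ + 1))]

/-- The plane correlation of the spins is comparable to the disorder correlation of a diamond. -/
theorem half_le (hk : SKer) {J : ℝ} (hJ : 0 < J) {p : Pts} (hp : Dist p) (hev : Even p.n) :
    ∃ T : ℝ, ∀ᶠ a in 𝓝[>] (0:ℝ), ∀ N : ℕ, T ≤ a * N → ∃ A : Finset Site,
      (∀ σ, ∏ i, sp (σ (fl a (p.x i))) = spA A σ) ∧
      1 / 2 * MM (dia N) (Rp p a) ≤ cl (Kc / J) J A := by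
  obtain ⟨R, C, hC, hb⟩ := base_ev p hJ hp
  set L := lbs (n := p.n) (univ : Finset (Fin p.m)).toList [] with hL
  obtain ⟨B, hB⟩ := hk p hp hev
  obtain ⟨D, hD, hlip⟩ := Pf_lip (α := Lb p.n p.m) (abs_nonneg B) L.length
  have hD0 : 0 < D := by linarith
  have hη0 : 0 < 1 / (2 * D) := by positivity
  have hη1 : 1 / (2 * D) ≤ 1 := by rw [div_le_one (by positivity)]; linarith
  obtain ⟨T, hT⟩ := hB _ hη0
  refine ⟨max R T, ?_⟩
  filter_upwards [hb, hT] with a ⟨ha, h⟩ hK N h1
  have hge : ∀ M : ℕ, N ≤ M → R ≤ a * M ∧ T ≤ a * M := fun M hM =>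
    max_le_iff.1 (h1.trans (mul_le_mul_of_nonneg_left (by exact_mod_cast hM) ha.le))
  have hP : ∀ l : List (Lb p.n p.m), l.Sublist L → ∀ M : ℕ, N ≤ M → |Pf (KW p a N) l| ≤ D ∧
      |Pf (KW p a M) l - Pf (KW p a N) l| ≤ D * (1 / (2 * D)) := fun l hl M hM =>
    hlip l hl.length_le _ _ _ hη0.le hη1 fun x y hxy =>
      (hK N M (hge N le_rfl).2 (hge M hM).2 x y (hxy.trans hl)).imp_left
        fun h => h.trans (le_abs_self B)
  set u : Fin p.n → Site := fun i => fl a (p.x i) with hu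
  have hs1 : |SG [] (srcs u)| = 1 := by
    have := SG_sq [] (srcs u)
    rw [← abs_mul_abs_self] at this
    nlinarith [abs_nonneg (SG [] (srcs u))]
  have hN := h N (hge N le_rfl).1
  set A : Finset Site := univ.map ⟨u, hN.1.u_inj⟩ with hA
  have hAv : A.val = Rp p a := by
    unfold Rp fcs srcs
    rw [List.map_map]
    rfl
  have hsub : (lbs (n := p.n) ([] : List (Fin p.m)) []).Sublist L := by
    rw [hL]
    unfold lbs
    exact List.Sublist.append_left (by simp [flat]) _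
  have hrat := ratio hJ (A := A) (by rw [hA, card_map, card_univ, Fintype.card_fin]; exact hev)
    (δ := D * (1 / (2 * D))) (N := N) (fun x hx => by
      obtain ⟨i, _, rfl⟩ := mem_map.1 hx
      exact hN.1.cn_dia (j := p.j) (Lb.src i))
    (fun M => SG [] (srcs u) * Pf (KW p a M) (lbs [] [])) (fun M hM => by
      have hM' := h M (hge M hM).1
      have e := base' (j := p.j) hJ hM'.1 hM'.2.1 List.nodup_nil List.nodup_nil
      rw [List.map_nil, List.append_nil] at e
      rw [Pf_congr _ fun x y hxy => KW_src p a M hxy, hAv, ← mul_assoc]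
      refine Eq.trans ?_ e
      unfold fcor
      refine congrArg _ (funext fun σ => ?_)
      have := GG_eq (N := M) (u := u) ∅ σ
      rw [toList_empty] at this
      rw [this, hA, prod_map]
      simp)
    (fun M hM => by
      rw [← mul_sub, abs_mul, hs1, one_mul]
      exact (hP _ hsub M hM).2)
  refine ⟨A, fun σ => by rw [hA, spA, prod_map]; rfl, ?_⟩
  have e : 1 - D * (1 / (2 * D)) = 1 / 2 := by field_simp; ring
  rw [e] at hrat
  rw [← hAv]
  exact le_cl hJ hrat

/-- The limits of the correlations of an even number of spins are positive. -/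
theorem lim_pos (hk : SKer) {J : ℝ} (hJ : 0 < J) {E : Fam}
    (hE : PlaneFam J 0 (fun _ => 0) (Kc / J) E) {p : Pts} (hp : Dist p) (hev : Even p.n)
    (hm : p.m = 0) {c : ℝ} (hc : Lim E p c) : 0 < c := by
  classical
  obtain ⟨T, hT⟩ := half_le hk hJ hp hev
  obtain ⟨R, hg, h1, hR⟩ := ((ev_good hp).and ((eventually_ge_atTop (T + 1)).and
    (eventually_gt_atTop 0))).exists
  have hx : Function.Injective (shr p R).x :=
    fun i i' h => Sum.inl_injective (hg.2.2 (by simpa using h))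
  obtain ⟨g, hg0, hl⟩ := H436.norm_even hJ (H365.merge hJ) H365.ratioM (quotSM hJ kp)
    (X := univ.image (shr p R).x) (by
      intro z hz
      obtain ⟨i, _, rfl⟩ := mem_image.1 hz
      exact hg.1 i) (by rw [card_im _ hx]; exact hev)
  have hdiv : Tendsto (fun a : ℝ => a / R) (𝓝[>] 0) (𝓝[>] 0) := by
    refine tendsto_nhdsWithin_iff.2 ⟨?_, ?_⟩
    · simpa using (tendsto_id.mono_left nhdsWithin_le_nhds : Tendsto id (𝓝[>] (0:ℝ)) _).div_const R
    · filter_upwards [self_mem_nhdsWithin] with a ha using div_pos ha hR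
  have h2 := (hl.comp hdiv).const_mul (1 / 2 * (R ^ (-(1 / 8) : ℝ)) ^ p.n)
  refine lt_of_lt_of_le (by positivity) (le_of_tendsto_of_tendsto h2 hc ?_)
  obtain ⟨μ, k1, k2⟩ := hE
  have h3 : ∀ᶠ a in 𝓝[>] (0 : ℝ), a < 1 := nhdsWithin_le_nhds (gt_mem_nhds one_pos)
  filter_upwards [hT, h3, self_mem_nhdsWithin] with a k3 k4 ha
  have ha : 0 < a := ha
  obtain ⟨A, hA, hle⟩ := k3 (nn (a / R)) (by linarith [nn_ge ha hR])
  have e3 : Rp (shr p R) (a / R) = Rp p a := by
    unfold Rp
    rw [show (fun i => fl (a / R) ((shr p R).x i)) = fun i => fl a (p.x i) from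
      funext fun i => fl_div hR.ne' a _]
    rfl
  have e1 : a ^ (-(1 / 8) : ℝ) = R ^ (-(1 / 8) : ℝ) * (a / R) ^ (-(1 / 8) : ℝ) := by
    rw [← Real.mul_rpow hR.le (div_pos ha hR).le, mul_div_cancel₀ _ hR.ne']
  have e4 : corr a (E a) p = (a ^ (-(1 / 8) : ℝ)) ^ p.n * cl (Kc / J) J A := by
    have : IsEmpty (Fin p.m) := by rw [hm]; infer_instance
    unfold corr
    rw [k2, ← St.plane_cl hJ (k1 a ha) A, ← integral_const_mul]
    congr 1
    funext σ
    rw [Fintype.prod_empty (ι := Fin p.m), mul_one, prod_mul_distrib, prod_const, card_univ, Fintype.card_fin, hA]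
  show _ * H436.Gn _ (a / R) ≤ corr a (E a) p
  rw [Gn_eq _ hx (div_pos ha hR), e3, e4, e1, mul_pow]
  have := mul_le_mul_of_nonneg_left hle (show 0 ≤ (R ^ (-(1 / 8) : ℝ)) ^ p.n *
    ((a / R) ^ (-(1 / 8) : ℝ)) ^ p.n by positivity)
  refine le_trans (le_of_eq ?_) this
  show _ * (_ ^ p.n * _) = _
  ring

end Vale.Agent.P144P
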