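import Vale.Agent.P144P.All
import Vale.Agent.P144P.FinJ
import Vale.Agent.P144P.Pos

/-!
The scaling limit of the critical plane state as one function of the points.
-/

namespace Vale.Agent.P144P

open Finset Filter Topology MeasureTheory Vale.Agent.P144

theorem corr_shr (μ : Measure Config) (p : Pts) {a R : ℝ} (ha : 0 < a) (hR : 0 < R) :
    corr a (fun F => ∫ σ, F σ ∂μ) p = (R ^ (-(1 / 8) : ℝ)) ^ p.n * R⁻¹ ^ p.m *
      corr (a / R) (fun F => ∫ σ, F σ ∂μ) (shr p R) := by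
  have e1 : a ^ (-(1 / 8) : ℝ) = R ^ (-(1 / 8) : ℝ) * (a / R) ^ (-(1 / 8) : ℝ) := by
    rw [← Real.mul_rpow hR.le (div_pos ha hR).le, mul_div_cancel₀ _ hR.ne']
  have e2 : a⁻¹ = R⁻¹ * (a / R)⁻¹ := by field_simp
  unfold corr shr
  simp only [fl_div hR.ne']
  rw [← integral_const_mul]
  congr 1
  funext σ
  rw [e1, e2]
  simp only [prod_mul_distrib, prod_const, card_univ, Fintype.card_fin]
  ring

theorem shr_univ {p : Pts} (hp : Good Set.univ p) {R : ℝ} (hR : 0 < R) :
    Good Set.univ (shr p R) := by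
  refine ⟨hp.1, fun _ => trivial, fun _ => trivial, fun u v h => hp.2.2.2 ?_⟩
  have h4 : (R : ℂ) ≠ 0 := by exact_mod_cast hR.ne'
  rcases u with u | u <;> rcases v with v | v <;> exact (div_left_inj' h4).1 h

/-- The scaling limit in the plane: it exists, it is the same for all plane states and all
directions of the energies, it is positive for an even number of spins, and it is covariant under
dilations. -/
theorem plane_C {J : ℝ} (hJ : 0 < J) : ∃ C : Pts → ℝ, ∀ p, Good Set.univ p →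
    (∀ E, PlaneFam J 0 (fun _ => 0) (Kc / J) E → Lim E p (C p)) ∧
    (∀ j, C { p with j := j } = C p) ∧ (p.m = 0 → Even p.n → 0 < C p) ∧
    ∀ R > (0 : ℝ), C p = (R ^ (-(1 / 8) : ℝ)) ^ p.n * R⁻¹ ^ p.m * C (shr p R) := by
  obtain ⟨C, h1, h2⟩ := allJ (two sker) hJ
  obtain ⟨μ, hμ, -⟩ := H436.free_plane hJ
  have hE : PlaneFam J 0 (fun _ => 0) (Kc / J) fun _ F => ∫ σ, F σ ∂μ :=
    ⟨fun _ => μ, fun _ _ => hμ, fun _ _ => rfl⟩
  refine ⟨C, fun p hp => ⟨fun E h => h2 E h p hp, fun j => h1 p j hp,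
    fun hm he => lim_pos sker hJ hE hp.2.2.2 he hm (h2 _ hE p hp), fun R hR => ?_⟩⟩
  refine tendsto_nhds_unique (h2 _ hE p hp) ((((h2 _ hE _ (shr_univ hp hR)).comp
    (div_lim hR)).const_mul _).congr' ?_)
  filter_upwards [self_mem_nhdsWithin] with a ha
  exact (corr_shr μ p ha hR).symm

end Vale.Agent.P144P
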